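import Claimed.Agent.R316.B14.WMBoundsA

/-!
# B14, leaf W3: sup and half Sobolev bounds for a spectral factor
(eq. (disc:factor-sup), (disc:factor-seminorm))

Data: `H, Hi` with `HolSm` entries, `H Hi = Hi H = 1` on the closed disc, `Hᴴ H = L` on the circle, `m ≤ L ≤ M`.

* sup bounds: `nsq_le_of_bd` for the columns `ζ ↦ H ζ *ᵥ v`, `ζ ↦ Hi ζ *ᵥ v`.  On the circle
  `|H v|² = qf L v ≤ M |v|²`; with `w = Hi v`: `|v|² = |H w|² = qf L w ≥ m |w|²`.
* seminorms.  `A θ t = bd H (t+θ) * bd Hi t` is the boundary function of `ζ ↦ H (e^{iθ} ζ) * Hi ζ` (`HolSm.rotate`), whose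
  value at `0` is `1`; so `pavg_t tr (A θ t) = card ι` (`HolSm.center`).  `E θ := pavg_t frobSq (A θ t - 1)`.
  `frobSq (A - 1) = tr(Aᴴ A) - 2 Re tr A + card ι`, `tr (Aᴴ A) = tr (L(t+θ) Hi Hiᴴ) = tr (L(t+θ) L(t)⁻¹)`:
  `E θ = pavg_t Re tr (L(t+θ) L(t)⁻¹) - card ι` (`wm_E_eq`).  Shift `t ↦ t + θ` in `E (-θ)`:
  `E θ + E (-θ) = pavg_t Re tr ((L_θ - L) L⁻¹ (L_θ - L) L_θ⁻¹) ≤ m⁻² pavg_t frobSq (L_θ - L)`
  (`trace_mul_mono_right/left` of `CW/MatAlg`, `L⁻¹ ≤ m⁻¹`).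
  `H_θ - H = (A - 1) H`, `Hi_θ - Hi = Hi_θ (1 - A)`: `frobSq ≤ M frobSq (A-1)`, resp. `m⁻¹ frobSq (A-1)`
  (`H Hᴴ ≤ M` follows from `Hᴴ H ≤ M` by Cauchy-Schwarz).
  `h θ := pavg_t frobSq (H(t+θ) - H t)` is even in `θ` (`pavg_shift`), so `2 h θ ≤ M (E θ + E (-θ))`.
  Conclude by `hsqM_le_of_pavg_le`.
-/

set_option autoImplicit false
set_option linter.unusedSectionVars false
open scoped ContDiff ComplexOrder ComplexConjugate Matrix Real
open MeasureTheory

namespace Claimed.Agent.R316.B14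

open Claimed.Agent.R316

variable {ι : Type} [Fintype ι] [DecidableEq ι]

section prelim

theorem circleMap_mul_circleMap (θ t : ℝ) :
    circleMap 0 1 θ * circleMap 0 1 t = circleMap 0 1 (t + θ) := by
  rw [← ech_one, ← ech_one, ← ech_one, ech_add_arg, mul_comm]

theorem continuous_frobSq {κ μ : Type} [Fintype κ] [Fintype μ] {A : ℝ → Matrix κ μ ℂ}
    (h : ∀ a b, Continuous fun t => A t a b) : Continuous fun t => frobSq (A t) := by
  unfold frobSq
  exact continuous_finsetSum _ fun a _ => continuous_finsetSum _ fun b _ => ((h a b).norm).pow 2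

theorem frobSq_sub_one (A : Matrix ι ι ℂ) :
    frobSq (A - 1) = frobSq A - 2 * A.trace.re + Fintype.card ι := by
  rw [frobSq_eq_trace, frobSq_eq_trace, Matrix.conjTranspose_sub, Matrix.conjTranspose_one,
    Matrix.sub_mul, Matrix.mul_sub, Matrix.mul_sub, Matrix.mul_one, Matrix.one_mul, Matrix.one_mul,
    Matrix.trace_sub, Matrix.trace_sub, Matrix.trace_sub, Matrix.trace_conjTranspose,
    Matrix.trace_one]
  simp only [Complex.sub_re, Complex.natCast_re, Complex.star_def, Complex.conj_re]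
  ring

theorem trace_cross {P Q : Matrix ι ι ℂ} (hP : IsUnit P.det) (hQ : IsUnit Q.det) :
    ((P - Q) * Q⁻¹ * (P - Q) * P⁻¹).trace =
      (P * Q⁻¹).trace + (Q * P⁻¹).trace - 2 * (Fintype.card ι : ℂ) := by
  have e1 : (P - Q) * Q⁻¹ = P * Q⁻¹ - 1 := by rw [Matrix.sub_mul, Matrix.mul_nonsing_inv Q hQ]
  have e2 : (P - Q) * P⁻¹ = 1 - Q * P⁻¹ := by rw [Matrix.sub_mul, Matrix.mul_nonsing_inv P hP]
  have e3 : P * Q⁻¹ * (Q * P⁻¹) = 1 := by
    rw [Matrix.mul_assoc, ← Matrix.mul_assoc Q⁻¹, Matrix.nonsing_inv_mul Q hQ, Matrix.one_mul,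
      Matrix.mul_nonsing_inv P hP]
  rw [Matrix.mul_assoc ((P - Q) * Q⁻¹), e1, e2, Matrix.sub_mul, Matrix.mul_sub, Matrix.mul_sub, e3,
    Matrix.mul_one, Matrix.one_mul, Matrix.one_mul, Matrix.trace_sub, Matrix.trace_sub,
    Matrix.trace_sub, Matrix.trace_one]
  ring

/-- evenness of the averaged increments. -/
theorem pavg_frobSq_increment_neg {Φ : ℝ → Matrix ι ι ℂ} (hp : Function.Periodic Φ (2 * π))
    (θ : ℝ) :
    pavg (fun t => frobSq (Φ (t + -θ) - Φ t)) = pavg fun t => frobSq (Φ (t + θ) - Φ t) := by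
  have hper : Function.Periodic (fun t => frobSq (Φ (t + -θ) - Φ t)) (2 * π) := by
    intro t
    have e : t + 2 * π + -θ = t + -θ + 2 * π := by ring
    simp only [e, hp (t + -θ), hp t]
  rw [← pavg_shift hper θ]
  congr 1
  funext t
  rw [add_neg_cancel_right, frobSq_sub_comm]

end prelim

/-- the data of a spectral factorisation. -/
structure WMD (L : ℝ → Matrix ι ι ℂ) (H Hi : ℂ → Matrix ι ι ℂ) : Prop where
  hH : ∀ a b, HolSm fun ζ => H ζ a b
  hHi : ∀ a b, HolSm fun ζ => Hi ζ a b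
  h1 : ∀ ζ ∈ Metric.closedBall (0 : ℂ) 1, H ζ * Hi ζ = 1
  h2 : ∀ ζ ∈ Metric.closedBall (0 : ℂ) 1, Hi ζ * H ζ = 1
  hf : ∀ θ, (bd H θ)ᴴ * bd H θ = L θ

namespace WMD

variable {L : ℝ → Matrix ι ι ℂ} {H Hi : ℂ → Matrix ι ι ℂ} {m M : ℝ}

theorem b1 (d : WMD L H Hi) (t : ℝ) : bd H t * bd Hi t = 1 := d.h1 _ (circleMap_mem_closedBall t)

theorem b2 (d : WMD L H Hi) (t : ℝ) : bd Hi t * bd H t = 1 := d.h2 _ (circleMap_mem_closedBall t)

theorem clipH (d : WMD L H Hi) (a b : ι) : CLip fun t => bd H t a b := (d.hH a b).cSm_bd.cLip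

theorem clipHi (d : WMD L H Hi) (a b : ι) : CLip fun t => bd Hi t a b := (d.hHi a b).cSm_bd.cLip

theorem clipL (d : WMD L H Hi) (a b : ι) : CLip fun t => L t a b := by
  have e : L = fun t => (bd H t)ᴴ * bd H t := funext fun t => (d.hf t).symm
  rw [e]
  exact CLip.matMul (A := fun t => (bd H t)ᴴ) (fun a b => (d.clipH b a).conj) d.clipH a b

theorem herm (d : WMD L H Hi) (t : ℝ) : (L t).IsHermitian := by
  rw [← d.hf t]
  exact Matrix.isHermitian_conjTranspose_mul_self _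

theorem Linv (d : WMD L H Hi) (t : ℝ) : (L t)⁻¹ = bd Hi t * (bd Hi t)ᴴ := by
  apply Matrix.inv_eq_right_inv
  rw [← d.hf t]
  calc (bd H t)ᴴ * bd H t * (bd Hi t * (bd Hi t)ᴴ)
      = (bd H t)ᴴ * (bd H t * bd Hi t) * (bd Hi t)ᴴ := by simp only [Matrix.mul_assoc]
    _ = (bd Hi t * bd H t)ᴴ := by rw [d.b1, Matrix.mul_one, Matrix.conjTranspose_mul]
    _ = 1 := by rw [d.b2, Matrix.conjTranspose_one]

theorem frob (d : WMD L H Hi) (s t : ℝ) :
    frobSq (bd H s * bd Hi t) = (L s * (L t)⁻¹).trace.re := by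
  rw [frobSq_eq_trace, d.Linv, ← d.hf s, Matrix.conjTranspose_mul]
  congr 1
  calc ((bd Hi t)ᴴ * (bd H s)ᴴ * (bd H s * bd Hi t)).trace
      = ((bd Hi t)ᴴ * ((bd H s)ᴴ * bd H s * bd Hi t)).trace := by simp only [Matrix.mul_assoc]
    _ = (((bd H s)ᴴ * bd H s * bd Hi t) * (bd Hi t)ᴴ).trace := Matrix.trace_mul_comm _ _
    _ = _ := by simp only [Matrix.mul_assoc]

theorem clipA (d : WMD L H Hi) (θ : ℝ) (a b : ι) : CLip fun t => (bd H (t + θ) * bd Hi t) a b :=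
  CLip.matMul (A := fun t => bd H (t + θ)) (fun a b => (d.clipH a b).shift θ) d.clipHi a b

theorem clipA' (d : WMD L H Hi) (θ : ℝ) (a b : ι) : CLip fun t => (bd H t * bd Hi (t + θ)) a b :=
  CLip.matMul (B := fun t => bd Hi (t + θ)) d.clipH (fun a b => (d.clipHi a b).shift θ) a b

theorem pavg_trace (d : WMD L H Hi) (θ : ℝ) :
    pavg (fun t => (bd H (t + θ) * bd Hi t).trace.re) = Fintype.card ι := by
  have hc : Continuous fun t => (bd H (t + θ) * bd Hi t).trace := by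
    unfold Matrix.trace
    exact continuous_finsetSum _ fun a _ => (d.clipA θ a a).continuous
  rw [← pavg_re hc]
  have h1 : pavg (fun t => (bd H (t + θ) * bd Hi t).trace) = (Fintype.card ι : ℂ) := by
    unfold Matrix.trace
    simp only [Matrix.diag_apply]
    rw [pavg_sum _ _ fun a _ => (d.clipA θ a a).continuous]
    have h2 : ∀ a, pavg (fun t => (bd H (t + θ) * bd Hi t) a a) = 1 := by
      intro a
      have hol : HolSm fun ζ => (H (circleMap 0 1 θ * ζ) * Hi ζ) a a :=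
        holSm_matrix_mul (A := fun ζ => H (circleMap 0 1 θ * ζ)) (fun a b => (d.hH a b).rotate θ)
          d.hHi a a
      have h3 := hol.center
      have e : bd (fun ζ => (H (circleMap 0 1 θ * ζ) * Hi ζ) a a) =
          fun t => (bd H (t + θ) * bd Hi t) a a := by
        funext t
        show (H (circleMap 0 1 θ * circleMap 0 1 t) * Hi (circleMap 0 1 t)) a a = _
        rw [circleMap_mul_circleMap]
        rfl
      rw [e] at h3
      rw [← h3, mul_zero, d.h1 0 (Metric.mem_closedBall_self zero_le_one), Matrix.one_apply_eq]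
    simp only [h2]
    simp
  rw [h1]
  simp

theorem E_eq (d : WMD L H Hi) (θ : ℝ) :
    pavg (fun t => frobSq (bd H (t + θ) * bd Hi t - 1)) =
      pavg (fun t => frobSq (bd H (t + θ) * bd Hi t)) - Fintype.card ι := by
  simp only [frobSq_sub_one]
  have c1 : Continuous fun t => frobSq (bd H (t + θ) * bd Hi t) :=
    continuous_frobSq fun a b => (d.clipA θ a b).continuous
  have c2 : Continuous fun t => (bd H (t + θ) * bd Hi t).trace.re := by
    unfold Matrix.trace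
    exact Complex.continuous_re.comp
      (continuous_finsetSum _ fun a _ => (d.clipA θ a a).continuous)
  have c3 : Continuous fun t => 2 * (bd H (t + θ) * bd Hi t).trace.re := continuous_const.mul c2
  have c4 : Continuous fun t => frobSq (bd H (t + θ) * bd Hi t) -
      2 * (bd H (t + θ) * bd Hi t).trace.re := c1.sub c3
  rw [pavg_add c4 continuous_const, pavg_sub c1 c3, pavg_const_mul_real, d.pavg_trace,
    pavg_const]
  ring

theorem E_neg_eq (d : WMD L H Hi) (θ : ℝ) :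
    pavg (fun t => frobSq (bd H (t + -θ) * bd Hi t - 1)) =
      pavg (fun t => frobSq (bd H t * bd Hi (t + θ))) - Fintype.card ι := by
  rw [d.E_eq]
  congr 1
  have hper : Function.Periodic (fun t => frobSq (bd H (t + -θ) * bd Hi t)) (2 * π) := by
    intro t
    have e : t + 2 * π + -θ = t + -θ + 2 * π := by ring
    simp only [e, bd_periodic H (t + -θ), bd_periodic Hi t]
  rw [← pavg_shift hper θ]
  congr 1
  funext t
  rw [add_neg_cancel_right]

theorem E_add_le (d : WMD L H Hi) (hm : 0 < m)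
    (hlo : ∀ θ, (L θ - ((m : ℝ) : ℂ) • (1 : Matrix ι ι ℂ)).PosSemidef) (θ : ℝ) :
    pavg (fun t => frobSq (bd H (t + θ) * bd Hi t - 1)) +
      pavg (fun t => frobSq (bd H (t + -θ) * bd Hi t - 1)) ≤
      (m⁻¹) ^ 2 * pavg fun t => frobSq (L (t + θ) - L t) := by
  rw [d.E_eq, d.E_neg_eq]
  have c1 : Continuous fun t => frobSq (bd H (t + θ) * bd Hi t) :=
    continuous_frobSq fun a b => (d.clipA θ a b).continuous
  have c2 : Continuous fun t => frobSq (bd H t * bd Hi (t + θ)) :=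
    continuous_frobSq fun a b => (d.clipA' θ a b).continuous
  have c3 : Continuous fun t => frobSq (L (t + θ) - L t) :=
    continuous_frobSq fun a b => (((d.clipL a b).shift θ).sub (d.clipL a b)).continuous
  have key : ∀ t, frobSq (bd H (t + θ) * bd Hi t) + frobSq (bd H t * bd Hi (t + θ)) -
      2 * (Fintype.card ι : ℝ) ≤ (m⁻¹) ^ 2 * frobSq (L (t + θ) - L t) := by
    intro t
    obtain ⟨hP, hPi, hPc⟩ := inv_loewner_le hm (hlo (t + θ))
    obtain ⟨hQ, hQi, hQc⟩ := inv_loewner_le hm (hlo t)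
    have hPu : IsUnit (L (t + θ)).det := (Matrix.isUnit_iff_isUnit_det _).1 hP.isUnit
    have hQu : IsUnit (L t).det := (Matrix.isUnit_iff_isUnit_det _).1 hQ.isUnit
    have h1 := trace_sandwich_le (D := L (t + θ) - L t) (inv_nonneg.2 hm.le)
      ((d.herm (t + θ)).sub (d.herm t)) hQi hPi hQc hPc
    rw [trace_cross hPu hQu] at h1
    rw [d.frob, d.frob]
    simpa using h1
  have c5 : Continuous fun t => frobSq (bd H (t + θ) * bd Hi t) +
      frobSq (bd H t * bd Hi (t + θ)) := c1.add c2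
  have c6 : Continuous fun t => frobSq (bd H (t + θ) * bd Hi t) +
      frobSq (bd H t * bd Hi (t + θ)) - 2 * (Fintype.card ι : ℝ) := c5.sub continuous_const
  have c7 : Continuous fun t => (m⁻¹) ^ 2 * frobSq (L (t + θ) - L t) := continuous_const.mul c3
  have h2 := pavg_mono c6 c7 key
  rw [pavg_sub c5 continuous_const, pavg_add c1 c2, pavg_const, pavg_const_mul_real] at h2
  linarith

end WMD

section seminorm

variable {L : ℝ → Matrix ι ι ℂ} {H Hi : ℂ → Matrix ι ι ℂ} {m M : ℝ}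

/-- the key identity `E_θ = ⟨tr (L_θ L⁻¹ - 1)⟩`. -/
theorem wm_E_eq (hH : ∀ a b, HolSm fun ζ => H ζ a b) (hHi : ∀ a b, HolSm fun ζ => Hi ζ a b)
    (h1 : ∀ ζ ∈ Metric.closedBall (0 : ℂ) 1, H ζ * Hi ζ = 1)
    (h2 : ∀ ζ ∈ Metric.closedBall (0 : ℂ) 1, Hi ζ * H ζ = 1)
    (hf : ∀ θ, (bd H θ)ᴴ * bd H θ = L θ) (θ : ℝ) :
    pavg (fun t => frobSq (bd H (t + θ) * bd Hi t - 1)) =
      pavg (fun t => (L (t + θ) * (L t)⁻¹).trace.re) - Fintype.card ι := by
  have d : WMD L H Hi := ⟨hH, hHi, h1, h2, hf⟩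
  rw [d.E_eq]
  simp only [d.frob]

/-- `E_θ + E_{-θ} ≤ m⁻² ⟨‖L_θ - L‖²⟩`. -/
theorem wm_E_add_le (hm : 0 < m) (hH : ∀ a b, HolSm fun ζ => H ζ a b)
    (hHi : ∀ a b, HolSm fun ζ => Hi ζ a b)
    (h1 : ∀ ζ ∈ Metric.closedBall (0 : ℂ) 1, H ζ * Hi ζ = 1)
    (h2 : ∀ ζ ∈ Metric.closedBall (0 : ℂ) 1, Hi ζ * H ζ = 1)
    (hf : ∀ θ, (bd H θ)ᴴ * bd H θ = L θ)
    (hlo : ∀ θ, (L θ - ((m : ℝ) : ℂ) • (1 : Matrix ι ι ℂ)).PosSemidef) (θ : ℝ) :
    pavg (fun t => frobSq (bd H (t + θ) * bd Hi t - 1)) +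
      pavg (fun t => frobSq (bd H (t + -θ) * bd Hi t - 1)) ≤
      (m⁻¹) ^ 2 * pavg fun t => frobSq (L (t + θ) - L t) :=
  WMD.E_add_le ⟨hH, hHi, h1, h2, hf⟩ hm hlo θ

/-- (disc:factor-seminorm), first half. -/
theorem wm_hsq_H (hm : 0 < m) (hH : ∀ a b, HolSm fun ζ => H ζ a b)
    (hHi : ∀ a b, HolSm fun ζ => Hi ζ a b)
    (h1 : ∀ ζ ∈ Metric.closedBall (0 : ℂ) 1, H ζ * Hi ζ = 1)
    (h2 : ∀ ζ ∈ Metric.closedBall (0 : ℂ) 1, Hi ζ * H ζ = 1)
    (hf : ∀ θ, (bd H θ)ᴴ * bd H θ = L θ)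
    (hlo : ∀ θ, (L θ - ((m : ℝ) : ℂ) • (1 : Matrix ι ι ℂ)).PosSemidef)
    (hhi : ∀ θ, (((M : ℝ) : ℂ) • (1 : Matrix ι ι ℂ) - L θ).PosSemidef) :
    hsqM (bd H) ≤ M / (2 * m ^ 2) * hsqM L := by
  have d : WMD L H Hi := ⟨hH, hHi, h1, h2, hf⟩
  rcases isEmpty_or_nonempty ι with hι | ⟨⟨i0⟩⟩
  · simp [hsqM]
  have hM : 0 ≤ M := by
    have h3 := qf_ge_of_loewner (hlo 0) (Pi.single i0 1)
    have h4 := qf_le_of_loewner (hhi 0) (Pi.single i0 1)
    have h5 : 0 < nsq (Pi.single i0 (1 : ℂ) : ι → ℂ) := by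
      refine lt_of_le_of_ne (nsq_nonneg _) fun h => ?_
      have := congrFun ((nsq_eq_zero_iff _).1 h.symm) i0
      simp at this
    have h6 : m * nsq (Pi.single i0 (1 : ℂ) : ι → ℂ) ≤ M * nsq (Pi.single i0 (1 : ℂ) : ι → ℂ) :=
      h3.trans h4
    have h7 : m ≤ M := le_of_mul_le_mul_right h6 h5
    linarith
  refine hsqM_le_of_pavg_le d.clipH d.clipL fun θ => ?_
  have hinc : ∀ τ, pavg (fun t => frobSq (bd H (t + τ) - bd H t)) ≤
      M * pavg fun t => frobSq (bd H (t + τ) * bd Hi t - 1) := by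
    intro τ
    rw [← pavg_const_mul_real]
    refine pavg_mono
      (continuous_frobSq fun a b => (((d.clipH a b).shift τ).sub (d.clipH a b)).continuous)
      (continuous_const.mul (continuous_frobSq fun a b =>
        ((d.clipA τ a b).sub (CLip.const ((1 : Matrix ι ι ℂ) a b))).continuous)) fun t => ?_
    have e : bd H (t + τ) - bd H t = (bd H (t + τ) * bd Hi t - 1) * bd H t := by
      rw [Matrix.sub_mul, Matrix.mul_assoc, d.b2, Matrix.mul_one, Matrix.one_mul]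
    rw [e]
    refine frobSq_mul_le_of_loewner_right ?_
    rw [d.hf]
    exact hhi t
  have h3 := hinc θ
  have h4 := hinc (-θ)
  rw [pavg_frobSq_increment_neg (bd_periodic H)] at h4
  have h5 := d.E_add_le hm hlo θ
  have h6 : M * (pavg (fun t => frobSq (bd H (t + θ) * bd Hi t - 1)) +
      pavg (fun t => frobSq (bd H (t + -θ) * bd Hi t - 1))) ≤
      M * ((m⁻¹) ^ 2 * pavg fun t => frobSq (L (t + θ) - L t)) :=
    mul_le_mul_of_nonneg_left h5 hM
  have e2 : M / (2 * m ^ 2) * pavg (fun t => frobSq (L (t + θ) - L t)) =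
      (M * ((m⁻¹) ^ 2 * pavg fun t => frobSq (L (t + θ) - L t))) / 2 := by
    field_simp
  rw [e2]
  linarith

/-- (disc:factor-seminorm), second half. -/
theorem wm_hsq_Hi (hm : 0 < m) (hH : ∀ a b, HolSm fun ζ => H ζ a b)
    (hHi : ∀ a b, HolSm fun ζ => Hi ζ a b)
    (h1 : ∀ ζ ∈ Metric.closedBall (0 : ℂ) 1, H ζ * Hi ζ = 1)
    (h2 : ∀ ζ ∈ Metric.closedBall (0 : ℂ) 1, Hi ζ * H ζ = 1)
    (hf : ∀ θ, (bd H θ)ᴴ * bd H θ = L θ)
    (hlo : ∀ θ, (L θ - ((m : ℝ) : ℂ) • (1 : Matrix ι ι ℂ)).PosSemidef) :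
    hsqM (bd Hi) ≤ 1 / (2 * m ^ 3) * hsqM L := by
  have d : WMD L H Hi := ⟨hH, hHi, h1, h2, hf⟩
  refine hsqM_le_of_pavg_le d.clipHi d.clipL fun θ => ?_
  have hinc : ∀ τ, pavg (fun t => frobSq (bd Hi (t + τ) - bd Hi t)) ≤
      m⁻¹ * pavg fun t => frobSq (bd H (t + τ) * bd Hi t - 1) := by
    intro τ
    rw [← pavg_const_mul_real]
    refine pavg_mono
      (continuous_frobSq fun a b => (((d.clipHi a b).shift τ).sub (d.clipHi a b)).continuous)
      (continuous_const.mul (continuous_frobSq fun a b =>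
        ((d.clipA τ a b).sub (CLip.const ((1 : Matrix ι ι ℂ) a b))).continuous)) fun t => ?_
    have e : bd Hi (t + τ) - bd Hi t = bd Hi (t + τ) * (1 - bd H (t + τ) * bd Hi t) := by
      rw [Matrix.mul_sub, ← Matrix.mul_assoc, d.b2, Matrix.mul_one, Matrix.one_mul]
    rw [e, frobSq_sub_comm (bd H (t + τ) * bd Hi t) 1]
    exact frobSq_mul_le_of_loewner_left
      (wm_sup_Hi hm hHi h1 hf hlo (circleMap_mem_closedBall (t + τ)))
  have h3 := hinc θ
  have h4 := hinc (-θ)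
  rw [pavg_frobSq_increment_neg (bd_periodic Hi)] at h4
  have h5 := d.E_add_le hm hlo θ
  have h6 : m⁻¹ * (pavg (fun t => frobSq (bd H (t + θ) * bd Hi t - 1)) +
      pavg (fun t => frobSq (bd H (t + -θ) * bd Hi t - 1))) ≤
      m⁻¹ * ((m⁻¹) ^ 2 * pavg fun t => frobSq (L (t + θ) - L t)) :=
    mul_le_mul_of_nonneg_left h5 (inv_nonneg.2 hm.le)
  have e2 : 1 / (2 * m ^ 3) * pavg (fun t => frobSq (L (t + θ) - L t)) =
      (m⁻¹ * ((m⁻¹) ^ 2 * pavg fun t => frobSq (L (t + θ) - L t))) / 2 := by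
    field_simp
  rw [e2]
  linarith

end seminorm

end Claimed.Agent.R316.B14
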