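import Claimed.Agent.R316.B14.HolSmB

/-!
# B14, leaf H: functions holomorphic on the disc and smooth on the closed disc

`HolSm h := DiffContOnCl ℂ h (ball 0 1) ∧ ContDiff ℝ ∞ (bd h)`.

## Plan

1. `HolSm.fc_neg`, `HolSm.fc_nat`: for `k : ℤ`, `fc (bd h) k = (2πi)⁻¹ ∮ h(ζ) ζ^{-k-1} dζ`
   (unfold `circleIntegral`, `deriv_circleMap`).  For `k < 0` the integrand `h ζ ζ^{-k-1}` is
   `DiffContOnCl`, so the integral vanishes (`DiffContOnCl.circleIntegral_eq_zero` /
   `Complex.circleIntegral_eq_zero_of_differentiable_on_off_countable`).  For `k = n ≥ 0` it is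
   the coefficient of `cauchyPowerSeries h 0 1`; `DiffContOnCl.hasFPowerSeriesOnBall` gives
   `h ζ = ∑ fc (bd h) n ζ^n` for `|ζ| < 1`.
2. `HolSm.rapidN` from `CSm.rapid`.  `HolSm.hasSum` on the CLOSED disc: both sides are continuous on
   the closed disc (the series converges normally, `continuousOn_tsum`) and agree on the open one
   (closure of the ball); or on the circle use `CSm.hasSum` + `HolSm.fc_neg`.
3. `RapidN.holSm_psum`: `psum c` is differentiable on the ball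
   (`differentiableOn_tsum_of_summable_norm`), continuous on the closed ball (`continuousOn_tsum`),
   and `bd (psum c) = synth (extension of c by zero)`, smooth by `RapidZ.cSm_synth`.
4. maximum principle: `Complex.norm_le_of_forall_mem_frontier_norm_le` (values in
   `EuclideanSpace ℂ ι` for the vector form), frontier of the ball = sphere = range of `circleMap`.
5. closure properties: `DiffContOnCl` calculus + `ContDiff` calculus.
6. derivative: termwise (`hasDerivAt_tsum`/`HasFPowerSeriesOnBall.derivative`), bounded by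
   `∑ n ‖c n‖`.
-/

set_option autoImplicit false
open scoped ContDiff ComplexOrder ComplexConjugate Matrix Real
open MeasureTheory

namespace Claimed.Agent.R316.B14

open Claimed.Agent.R316

section powerSeries

variable {c : ℕ → ℂ}

/-- coefficients of the derived series. -/
noncomputable def shiftD (c : ℕ → ℂ) (n : ℕ) : ℂ := ((n : ℂ) + 1) * c (n + 1)

theorem RapidN.rapidN_shiftD (hc : RapidN c) : RapidN (shiftD c) := by
  intro N
  obtain ⟨C, hC⟩ := hc (N + 1)
  refine ⟨C, fun k => le_trans ?_ (hC (k + 1))⟩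
  have h1 : ‖((k : ℂ) + 1)‖ = (k : ℝ) + 1 := by
    have : ((k : ℂ) + 1) = (((k : ℝ) + 1 : ℝ) : ℂ) := by push_cast; ring
    rw [this, Complex.norm_real, Real.norm_eq_abs, abs_of_nonneg (by positivity)]
  unfold shiftD
  rw [norm_mul, h1]
  push_cast
  have h2 : (k : ℝ) ^ N ≤ ((k : ℝ) + 1) ^ N := by gcongr; linarith
  calc (k : ℝ) ^ N * (((k : ℝ) + 1) * ‖c (k + 1)‖)
      ≤ ((k : ℝ) + 1) ^ N * (((k : ℝ) + 1) * ‖c (k + 1)‖) := by gcongr
    _ = ((k : ℝ) + 1) ^ (N + 1) * ‖c (k + 1)‖ := by ring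

/-- second order Taylor remainder of a monomial on the closed disc. -/
theorem norm_pow_taylor_le {x y : ℂ} (hx : ‖x‖ ≤ 1) (hy : ‖y‖ ≤ 1) (n : ℕ) :
    ‖y ^ (n + 1) - x ^ (n + 1) - ((n : ℂ) + 1) * x ^ n * (y - x)‖ ≤
      ((n : ℝ) + 1) ^ 2 * ‖y - x‖ ^ 2 := by
  induction n with
  | zero => simp
  | succ n ih =>
    have e : y ^ (n + 1 + 1) - x ^ (n + 1 + 1) - (((n + 1 : ℕ) : ℂ) + 1) * x ^ (n + 1) * (y - x) =
        y * (y ^ (n + 1) - x ^ (n + 1) - ((n : ℂ) + 1) * x ^ n * (y - x)) +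
          ((n : ℂ) + 1) * x ^ n * (y - x) ^ 2 := by
      push_cast
      ring
    have h1 : ‖((n : ℂ) + 1)‖ = (n : ℝ) + 1 := by
      have : ((n : ℂ) + 1) = (((n : ℝ) + 1 : ℝ) : ℂ) := by push_cast; ring
      rw [this, Complex.norm_real, Real.norm_eq_abs, abs_of_nonneg (by positivity)]
    rw [e]
    have h2 : ‖x ^ n‖ ≤ 1 := by
      rw [norm_pow]
      exact pow_le_one₀ (norm_nonneg _) hx
    calc ‖y * (y ^ (n + 1) - x ^ (n + 1) - ((n : ℂ) + 1) * x ^ n * (y - x)) +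
          ((n : ℂ) + 1) * x ^ n * (y - x) ^ 2‖
        ≤ ‖y‖ * ‖y ^ (n + 1) - x ^ (n + 1) - ((n : ℂ) + 1) * x ^ n * (y - x)‖ +
          ((n : ℝ) + 1) * ‖x ^ n‖ * ‖y - x‖ ^ 2 := by
          refine (norm_add_le _ _).trans (le_of_eq ?_)
          rw [norm_mul, norm_mul, norm_mul, h1, norm_pow (y - x)]
      _ ≤ 1 * (((n : ℝ) + 1) ^ 2 * ‖y - x‖ ^ 2) + ((n : ℝ) + 1) * 1 * ‖y - x‖ ^ 2 := by
          gcongr
      _ ≤ (((n + 1 : ℕ) : ℝ) + 1) ^ 2 * ‖y - x‖ ^ 2 := by
          push_cast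
          have h3 : 0 ≤ ‖y - x‖ ^ 2 := sq_nonneg _
          have h4 : (0 : ℝ) ≤ n := Nat.cast_nonneg n
          nlinarith [mul_nonneg h4 h3]

/-- second order Taylor remainder of the power series on the closed disc. -/
theorem RapidN.taylor_le (hc : RapidN c) :
    ∃ M : ℝ, 0 ≤ M ∧ ∀ x ∈ Metric.closedBall (0 : ℂ) 1, ∀ y ∈ Metric.closedBall (0 : ℂ) 1,
      ‖psum c y - psum c x - (y - x) * psum (shiftD c) x‖ ≤ M * ‖y - x‖ ^ 2 := by
  have hs : Summable fun n : ℕ => ((n : ℝ) + 1) ^ 2 * ‖c (n + 1)‖ := by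
    have h := (summable_nat_add_iff 1).2 (hc.summable_pow 2)
    refine h.congr fun n => ?_
    push_cast
    ring
  refine ⟨∑' n : ℕ, ((n : ℝ) + 1) ^ 2 * ‖c (n + 1)‖, tsum_nonneg fun n => by positivity, ?_⟩
  intro x hx y hy
  have hx' : ‖x‖ ≤ 1 := by simpa using hx
  have hy' : ‖y‖ ≤ 1 := by simpa using hy
  have h1 := (hasSum_nat_add_iff' 1).2 (hc.hasSum_psum hy)
  have h2 := (hasSum_nat_add_iff' 1).2 (hc.hasSum_psum hx)
  have h3 := (hc.rapidN_shiftD.hasSum_psum hx).mul_left (y - x)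
  have h4 := (h1.sub h2).sub h3
  have e : psum c y - ∑ i ∈ Finset.range 1, c i * y ^ i - (psum c x - ∑ i ∈ Finset.range 1, c i * x ^ i)
      - (y - x) * psum (shiftD c) x = psum c y - psum c x - (y - x) * psum (shiftD c) x := by
    simp
  rw [e] at h4
  refine h4.norm_le_of_bounded (hs.hasSum.mul_right (‖y - x‖ ^ 2)) fun n => ?_
  have e2 : c (n + 1) * y ^ (n + 1) - c (n + 1) * x ^ (n + 1) - (y - x) * (shiftD c n * x ^ n) =
      c (n + 1) * (y ^ (n + 1) - x ^ (n + 1) - ((n : ℂ) + 1) * x ^ n * (y - x)) := by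
    unfold shiftD
    ring
  rw [e2, norm_mul]
  calc ‖c (n + 1)‖ * ‖y ^ (n + 1) - x ^ (n + 1) - ((n : ℂ) + 1) * x ^ n * (y - x)‖
      ≤ ‖c (n + 1)‖ * (((n : ℝ) + 1) ^ 2 * ‖y - x‖ ^ 2) := by
        gcongr
        exact norm_pow_taylor_le hx' hy' n
    _ = _ := by ring

/-- complex derivative of the power series WITHIN the closed disc, at every point of it. -/
theorem RapidN.hasDerivWithinAt_psum (hc : RapidN c) {x : ℂ} (hx : x ∈ Metric.closedBall (0 : ℂ) 1) :
    HasDerivWithinAt (psum c) (psum (shiftD c) x) (Metric.closedBall 0 1) x := by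
  obtain ⟨M, hM0, hM⟩ := hc.taylor_le
  rw [hasDerivWithinAt_iff_isLittleO, Asymptotics.isLittleO_iff]
  intro ε hε
  have h1 : ∀ᶠ y in nhdsWithin x (Metric.closedBall (0 : ℂ) 1), y ∈ Metric.ball x (ε / (M + 1)) :=
    nhdsWithin_le_nhds (Metric.ball_mem_nhds x (by positivity))
  filter_upwards [h1, self_mem_nhdsWithin] with y hy1 hy2
  have h2 : ‖y - x‖ < ε / (M + 1) := by simpa [dist_eq_norm] using hy1
  rw [smul_eq_mul]
  refine (hM x hx y hy2).trans ?_
  have h3 : M * ‖y - x‖ ≤ ε := by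
    have : (M + 1) * ‖y - x‖ ≤ ε := by
      rw [lt_div_iff₀ (by positivity)] at h2
      linarith
    nlinarith [norm_nonneg (y - x)]
  calc M * ‖y - x‖ ^ 2 = (M * ‖y - x‖) * ‖y - x‖ := by ring
    _ ≤ ε * ‖y - x‖ := by gcongr

theorem uniqueDiffOn_closedBall_complex : UniqueDiffOn ℂ (Metric.closedBall (0 : ℂ) 1) :=
  uniqueDiffOn_convex_of_isRCLikeNormedField (convex_closedBall 0 1)
    ⟨0, by rw [interior_closedBall (0 : ℂ) one_ne_zero]; simp⟩

theorem RapidN.contDiffOn_psum_nat (n : ℕ) :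
    ∀ {c : ℕ → ℂ}, RapidN c → ContDiffOn ℂ n (psum c) (Metric.closedBall 0 1) := by
  induction n with
  | zero =>
    intro c hc
    exact contDiffOn_zero.2 hc.holSm_psum.continuousOn
  | succ n ih =>
    intro c hc
    have h := (contDiffOn_succ_iff_derivWithin (n := (n : WithTop ℕ∞)) (f := psum c)
      uniqueDiffOn_closedBall_complex).2
    refine h ⟨fun x hx => (hc.hasDerivWithinAt_psum hx).differentiableWithinAt, ?_, ?_⟩
    · intro h
      exact absurd h (by simp)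
    · refine (ih hc.rapidN_shiftD).congr fun x hx => ?_
      exact (hc.hasDerivWithinAt_psum hx).derivWithin (uniqueDiffOn_closedBall_complex x hx)

end powerSeries

section derivative

variable {f : ℂ → ℂ}

/-- the holomorphic function `ζ ↦ f'(ζ)`, with its continuous extension to the closed disc. -/
noncomputable def dsm (f : ℂ → ℂ) : ℂ → ℂ := psum fun n => ((n : ℂ) + 1) * fc (bd f) ((n : ℤ) + 1)

theorem dsm_eq (f : ℂ → ℂ) : dsm f = psum (shiftD fun n : ℕ => fc (bd f) (n : ℤ)) := by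
  unfold dsm shiftD
  congr 1

theorem HolSm.holSm_dsm (hf : HolSm f) : HolSm (dsm f) := by
  rw [dsm_eq]
  exact hf.rapidN.rapidN_shiftD.holSm_psum

/-- complex derivative WITHIN the closed disc, at every point of it. -/
theorem HolSm.hasDerivWithinAt (hf : HolSm f) {ζ : ℂ} (hζ : ζ ∈ Metric.closedBall (0 : ℂ) 1) :
    HasDerivWithinAt f (dsm f ζ) (Metric.closedBall 0 1) ζ := by
  rw [dsm_eq]
  exact (hf.rapidN.hasDerivWithinAt_psum hζ).congr (fun x hx => hf.eq_szego hx) (hf.eq_szego hζ)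

theorem HolSm.hasDerivAt (hf : HolSm f) {ζ : ℂ} (hζ : ζ ∈ Metric.ball (0 : ℂ) 1) :
    HasDerivAt f (dsm f ζ) ζ :=
  (hf.hasDerivWithinAt (Metric.ball_subset_closedBall hζ)).hasDerivAt
    (Filter.mem_of_superset (Metric.isOpen_ball.mem_nhds hζ) Metric.ball_subset_closedBall)

theorem HolSm.deriv_eq (hf : HolSm f) {ζ : ℂ} (hζ : ζ ∈ Metric.ball (0 : ℂ) 1) :
    deriv f ζ = dsm f ζ := (hf.hasDerivAt hζ).deriv

/-- **smooth on the closed disc** in the sense of `ContDiffOn`. -/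
theorem HolSm.contDiffOn_complex (hf : HolSm f) : ContDiffOn ℂ ∞ f (Metric.closedBall 0 1) :=
  (contDiffOn_infty.2 fun n => RapidN.contDiffOn_psum_nat n hf.rapidN).congr
    fun _ hx => hf.eq_szego hx

theorem HolSm.contDiffOn (hf : HolSm f) : ContDiffOn ℝ ∞ f (Metric.closedBall 0 1) :=
  hf.contDiffOn_complex.restrict_scalars ℝ

theorem HolSm.of_contDiffOn (h1 : DifferentiableOn ℂ f (Metric.ball 0 1))
    (h2 : ContDiffOn ℝ ∞ f (Metric.closedBall 0 1)) : HolSm f :=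
  ⟨⟨h1, by rw [closure_ball (0 : ℂ) one_ne_zero]; exact h2.continuousOn⟩,
    h2.comp_contDiff (contDiff_circleMap 0 1) circleMap_mem_closedBall⟩

theorem holSm_iff_contDiffOn :
    HolSm f ↔ DifferentiableOn ℂ f (Metric.ball 0 1) ∧ ContDiffOn ℝ ∞ f (Metric.closedBall 0 1) :=
  ⟨fun h => ⟨h.differentiableOn, h.contDiffOn⟩, fun h => HolSm.of_contDiffOn h.1 h.2⟩

theorem mul_circleMap_mem_closedBall {r : ℝ} (h0 : 0 ≤ r) (h1 : r ≤ 1) (θ : ℝ) :
    (r : ℂ) * circleMap 0 1 θ ∈ Metric.closedBall (0 : ℂ) 1 := by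
  have : ‖(r : ℂ) * circleMap 0 1 θ‖ = r := by
    rw [norm_mul, ← ech_one, norm_ech, mul_one, Complex.norm_real, Real.norm_eq_abs,
      abs_of_nonneg h0]
  rw [mem_closedBall_zero_iff, this]
  exact h1

/-- tangential derivative on the circle of radius `r ≤ 1`. -/
theorem HolSm.hasDerivAt_bd_dilate (hf : HolSm f) {r : ℝ} (h0 : 0 ≤ r) (h1 : r ≤ 1) (θ : ℝ) :
    HasDerivAt (bd fun ζ => f (r * ζ))
      (((r : ℂ) * (circleMap 0 1 θ * Complex.I)) * dsm f (r * circleMap 0 1 θ)) θ := by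
  have h2 := hf.hasDerivWithinAt (mul_circleMap_mem_closedBall h0 h1 θ)
  have h3 : HasDerivAt (fun θ : ℝ => (r : ℂ) * circleMap 0 1 θ)
      ((r : ℂ) * (circleMap 0 1 θ * Complex.I)) θ := (hasDerivAt_circleMap 0 1 θ).const_mul _
  exact h2.scomp_hasDerivAt θ h3 (mul_circleMap_mem_closedBall h0 h1)

/-- tangential derivative of the boundary function. -/
theorem HolSm.deriv_bd (hf : HolSm f) (θ : ℝ) :
    deriv (bd f) θ = Complex.I * circleMap 0 1 θ * bd (dsm f) θ := by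
  have h := (hf.hasDerivAt_bd_dilate zero_le_one le_rfl θ).deriv
  simp only [Complex.ofReal_one, one_mul] at h
  rw [h, bd]
  ring

theorem HolSm.bounded (hf : HolSm f) :
    ∃ C : ℝ, ∀ ζ ∈ Metric.closedBall (0 : ℂ) 1, ‖f ζ‖ ≤ C :=
  (isCompact_closedBall (0 : ℂ) 1).exists_bound_of_continuousOn hf.continuousOn

theorem HolSm.deriv_bounded (hf : HolSm f) :
    ∃ C : ℝ, ∀ ζ ∈ Metric.ball (0 : ℂ) 1, ‖deriv f ζ‖ ≤ C := by
  obtain ⟨C, hC⟩ := hf.holSm_dsm.bounded
  refine ⟨C, fun ζ hζ => ?_⟩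
  rw [hf.deriv_eq hζ]
  exact hC ζ (Metric.ball_subset_closedBall hζ)

/-- Lipschitz on the closed disc. -/
theorem HolSm.lipschitzOn (hf : HolSm f) :
    ∃ C : ℝ, ∀ ζ ∈ Metric.closedBall (0 : ℂ) 1, ∀ ξ ∈ Metric.closedBall (0 : ℂ) 1,
      ‖f ζ - f ξ‖ ≤ C * ‖ζ - ξ‖ := by
  obtain ⟨C, hC⟩ := hf.holSm_dsm.bounded
  refine ⟨C, fun ζ hζ ξ hξ => ?_⟩
  exact Convex.norm_image_sub_le_of_norm_hasDerivWithin_le (fun x hx => hf.hasDerivWithinAt hx) hC
    (convex_closedBall 0 1) hξ hζ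

/-- dilations `f_r(ζ) = f(rζ)`, `r < 1`, are holomorphic past the circle. -/
theorem HolSm.dilate_differentiableOn (hf : HolSm f) {r : ℝ} (h0 : 0 < r) (h1 : r < 1) :
    DifferentiableOn ℂ (fun ζ => f (r * ζ)) (Metric.ball 0 r⁻¹) := by
  refine hf.differentiableOn.comp (differentiable_id.const_mul _).differentiableOn ?_
  intro ζ hζ
  have h2 : ‖ζ‖ < r⁻¹ := by simpa using hζ
  have h3 : ‖(r : ℂ) * ζ‖ < 1 := by
    rw [norm_mul, Complex.norm_real, Real.norm_eq_abs, abs_of_pos h0]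
    calc r * ‖ζ‖ < r * r⁻¹ := by gcongr
      _ = 1 := mul_inv_cancel₀ h0.ne'
  simpa using h3

/-- dilations converge in `C¹` of the closed disc/circle (hence in every norm used in Section 5:
sup, `L²`, `D` through `hsq_le_pavg_deriv`). -/
theorem HolSm.tendsto_dilate (hf : HolSm f) {ε : ℝ} (hε : 0 < ε) :
    ∃ r₀ : ℝ, 0 < r₀ ∧ r₀ < 1 ∧ ∀ r : ℝ, r₀ < r → r < 1 →
      (∀ ζ ∈ Metric.closedBall (0 : ℂ) 1, ‖f (r * ζ) - f ζ‖ ≤ ε) ∧
      (∀ θ, ‖deriv (bd fun ζ => f (r * ζ)) θ - deriv (bd f) θ‖ ≤ ε) := by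
  obtain ⟨C0, hC0⟩ := hf.lipschitzOn
  obtain ⟨C1, hC1⟩ := hf.holSm_dsm.bounded
  obtain ⟨C2, hC2⟩ := hf.holSm_dsm.lipschitzOn
  set K : ℝ := |C0| + |C1| + |C2| + 1 with hK
  have hKpos : 0 < K := by positivity
  have hδ : 0 < min (ε / K) (1 / 2) := lt_min (by positivity) (by norm_num)
  refine ⟨1 - min (ε / K) (1 / 2), ?_, by linarith, ?_⟩
  · have := min_le_right (ε / K) (1 / 2)
    linarith
  intro r hr0 hr1
  have hrpos : 0 < r := by
    have := min_le_right (ε / K) (1 / 2)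
    linarith
  have h1r : 1 - r < ε / K := by
    have := min_le_left (ε / K) (1 / 2)
    linarith
  have h1r' : K * (1 - r) ≤ ε := by
    rw [lt_div_iff₀ hKpos] at h1r
    linarith
  have hmem : ∀ ζ ∈ Metric.closedBall (0 : ℂ) 1, (r : ℂ) * ζ ∈ Metric.closedBall (0 : ℂ) 1 := by
    intro ζ hζ
    have h2 : ‖ζ‖ ≤ 1 := by simpa using hζ
    have h3 : ‖(r : ℂ) * ζ‖ ≤ 1 := by
      rw [norm_mul, Complex.norm_real, Real.norm_eq_abs, abs_of_pos hrpos]
      nlinarith [norm_nonneg ζ]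
    simpa using h3
  have hdist : ∀ ζ ∈ Metric.closedBall (0 : ℂ) 1, ‖(r : ℂ) * ζ - ζ‖ ≤ 1 - r := by
    intro ζ hζ
    have h2 : ‖ζ‖ ≤ 1 := by simpa using hζ
    have e : (r : ℂ) * ζ - ζ = (((r - 1 : ℝ)) : ℂ) * ζ := by push_cast; ring
    rw [e, norm_mul, Complex.norm_real, Real.norm_eq_abs, abs_of_neg (by linarith)]
    nlinarith [norm_nonneg ζ]
  constructor
  · intro ζ hζ
    refine (hC0 _ (hmem ζ hζ) ζ hζ).trans ?_
    calc C0 * ‖(r : ℂ) * ζ - ζ‖ ≤ |C0| * ‖(r : ℂ) * ζ - ζ‖ := by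
          gcongr
          exact le_abs_self _
      _ ≤ |C0| * (1 - r) := by
          gcongr
          exact hdist ζ hζ
      _ ≤ K * (1 - r) := by
          have : |C0| ≤ K := by
            rw [hK]
            have := abs_nonneg C1
            have := abs_nonneg C2
            linarith
          have h5 : 0 ≤ 1 - r := by linarith
          gcongr
      _ ≤ ε := h1r'
  · intro θ
    rw [(hf.hasDerivAt_bd_dilate hrpos.le hr1.le θ).deriv, hf.deriv_bd θ, bd]
    set z := circleMap 0 1 θ with hz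
    have hzm : z ∈ Metric.closedBall (0 : ℂ) 1 := circleMap_mem_closedBall θ
    have hzn : ‖z‖ = 1 := by rw [hz, ← ech_one, norm_ech]
    have e : (r : ℂ) * (z * Complex.I) * dsm f (r * z) - Complex.I * z * dsm f z =
        Complex.I * z * ((((r - 1 : ℝ)) : ℂ) * dsm f (r * z) + (dsm f (r * z) - dsm f z)) := by
      push_cast
      ring
    rw [e, norm_mul, norm_mul, Complex.norm_I, hzn, one_mul, one_mul]
    have h5 : 0 ≤ 1 - r := by linarith
    calc ‖(((r - 1 : ℝ)) : ℂ) * dsm f (r * z) + (dsm f (r * z) - dsm f z)‖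
        ≤ (1 - r) * ‖dsm f (r * z)‖ + ‖dsm f (r * z) - dsm f z‖ := by
          refine (norm_add_le _ _).trans (le_of_eq ?_)
          rw [norm_mul, Complex.norm_real, Real.norm_eq_abs, abs_of_neg (by linarith)]
          ring
      _ ≤ (1 - r) * |C1| + |C2| * (1 - r) := by
          have h6 : ‖dsm f (r * z)‖ ≤ |C1| := (hC1 _ (hmem z hzm)).trans (le_abs_self _)
          have h7 : ‖dsm f (r * z) - dsm f z‖ ≤ |C2| * (1 - r) := by
            refine (hC2 _ (hmem z hzm) z hzm).trans ?_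
            calc C2 * ‖(r : ℂ) * z - z‖ ≤ |C2| * ‖(r : ℂ) * z - z‖ := by
                  gcongr
                  exact le_abs_self _
              _ ≤ |C2| * (1 - r) := by
                  gcongr
                  exact hdist z hzm
          gcongr
      _ ≤ K * (1 - r) := by
          have : |C1| + |C2| ≤ K := by
            rw [hK]
            have := abs_nonneg C0
            linarith
          nlinarith
      _ ≤ ε := h1r'

end derivative

end Claimed.Agent.R316.B14
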