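import Claimed.Agent.R316.B14.Toeplitz
import Claimed.Agent.R316.B14.HolSm

/-!
# B14, leaf W2: from the Toeplitz solution to the spectral factorisation `L = Hᴴ H`

Input: `toeplitz_solve_matrix` (black box): rapidly decreasing `X_k`, `∑_{k≥0} L_{j-k} X_k = δ_{j0} 1` (`j ≥ 0`).

Steps (each is a statement below; `Xf ζ = ∑ X_k ζ^k`, entries `psum`):

1. `Y θ = L θ * bd Xf θ` is smooth; `fcM Y j = δ_{j0} 1` for `j ≥ 0`
   (`hasSum_fc_mul` entrywise, `RapidN.fc_bd_psum`: the sum over `ℤ` reduces to the sum over `ℕ`).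
2. `G θ = (bd Xf θ)ᴴ * Y θ = Xᴴ L X` is Hermitian; `fc (G a b) n = 0` for `n > 0`: in
   `∑_c ∑_k fc (conj X_ca) (n-k) fc (Y_cb) k` the first factor vanishes unless `n - k ≤ 0` (`fc_conj`, `HolSm.fc_neg`) and
   the second vanishes for `k > 0`.  For `n = 0` only `k = 0` survives: `fcM G 0 = (X 0)ᴴ`.  For `n < 0` use `G = Gᴴ`.
   Hence `G θ = (X 0)ᴴ =: G0` for all `θ` (`eq_const_of_fc_eq_zero`).
3. `G0` is positive definite: `qf G0 v = qf (L θ) (X v) ≥ m |X(θ) v|²`; if it vanishes then `Y θ v = 0` for all `θ`, so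
   `v = fcM Y 0 v = 0`.
4. `Yh ζ a b = szego (θ ↦ conj (Y θ b a)) ζ` is `HolSm` with `bd Yh θ = (Y θ)ᴴ` (`bd_szego_of_fc_neg`, step 1).
   On the circle `Yh Xf = Yᴴ X = G0ᴴ = G0`; `HolSm.eqOn_of_bd_eq`: `Yh ζ * Xf ζ = G0` on the closed disc.
5. `R` = positive square root of `G0` (`exists_sqrt_posDef`), `H = R⁻¹ Yh`, `Hi = Xf R⁻¹`.  `H Hi = R⁻¹ G0 R⁻¹ = 1`,
   `Hi H = 1` (`Matrix.mul_eq_one_comm`).  On the circle `Hᴴ H = Y G0⁻¹ Yᴴ = L (X G0⁻¹ Yᴴ) = L (Hi H) = L`.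
-/

set_option autoImplicit false
set_option linter.unusedSectionVars false
open scoped ContDiff ComplexOrder ComplexConjugate Matrix Real
open MeasureTheory

namespace Claimed.Agent.R316.B14

open Claimed.Agent.R316

variable {ι : Type} [Fintype ι] [DecidableEq ι]

/-- matrix power series. -/
noncomputable def psumM (X : ℕ → Matrix ι ι ℂ) (ζ : ℂ) : Matrix ι ι ℂ :=
  fun a b => psum (fun k => X k a b) ζ

section steps

variable {L : ℝ → Matrix ι ι ℂ} {m : ℝ} {X : ℕ → Matrix ι ι ℂ}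

theorem holSm_psumM (hX : ∀ a b, RapidN fun k => X k a b) (a b : ι) :
    HolSm fun ζ => psumM X ζ a b := (hX a b).holSm_psum

theorem cSm_matrix_mul {κ μ ν : Type} [Fintype μ] {A : ℝ → Matrix κ μ ℂ} {B : ℝ → Matrix μ ν ℂ}
    (hA : ∀ i j, CSm fun θ => A θ i j) (hB : ∀ i j, CSm fun θ => B θ i j) (i : κ) (j : ν) :
    CSm fun θ => (A θ * B θ) i j := by
  simp only [Matrix.mul_apply]
  exact CSm.sum _ fun k _ => (hA i k).mul (hB k j)

theorem cSm_bd_psumM (hX : ∀ a b, RapidN fun k => X k a b) (a b : ι) :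
    CSm fun θ => bd (psumM X) θ a b := (holSm_psumM hX a b).cSm_bd

theorem fc_bd_psumM (hX : ∀ a b, RapidN fun k => X k a b) (a b : ι) (k : ℤ) :
    fc (fun θ => bd (psumM X) θ a b) k = if 0 ≤ k then X k.toNat a b else 0 :=
  (hX a b).fc_bd_psum k

/-- convolution with a one sided sequence. -/
theorem hasSum_fc_mul_bd_psum {a : ℝ → ℂ} (ha : Continuous a) {c : ℕ → ℂ} (hc : RapidN c) (n : ℤ) :
    HasSum (fun k : ℕ => fc a (n - k) * c k) (fc (fun θ => a θ * bd (psum c) θ) n) := by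
  have h := hasSum_fc_mul ha hc.holSm_psum.smooth.continuous n
  have hinj : Function.Injective (fun k : ℕ => (k : ℤ)) := Nat.cast_injective
  have h2 := (hinj.hasSum_iff (f := fun k : ℤ => fc a (n - k) * fc (bd (psum c)) k) (by
    intro k hk
    have hk0 : ¬ 0 ≤ k := fun h0 => hk ⟨k.toNat, Int.toNat_of_nonneg h0⟩
    rw [hc.fc_bd_psum, if_neg hk0, mul_zero])).2 h
  have e : (fun k : ℕ => fc a (n - k) * c k) =
      (fun k : ℤ => fc a (n - k) * fc (bd (psum c)) k) ∘ fun k : ℕ => (k : ℤ) := by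
    funext k
    simp only [Function.comp_apply]
    rw [hc.fc_bd_psum_nat]
  rw [e]
  exact h2

/-- step 1. -/
theorem wm_fc_Y (hL : ∀ i j, CSm fun θ => L θ i j) (hX : ∀ a b, RapidN fun k => X k a b)
    (hT : ∀ (j : ℕ) (a b : ι), HasSum (fun k : ℕ => (fcM L ((j : ℤ) - k) * X k) a b)
      ((if j = 0 then 1 else 0 : Matrix ι ι ℂ) a b)) (j : ℕ) :
    fcM (fun θ => L θ * bd (psumM X) θ) (j : ℤ) = if j = 0 then 1 else 0 := by
  ext a b
  have h1 : ∀ c, HasSum (fun k : ℕ => fc (fun θ => L θ a c) ((j : ℤ) - k) * X k c b)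
      (fc (fun θ => L θ a c * bd (psum fun k => X k c b) θ) j) :=
    fun c => hasSum_fc_mul_bd_psum (hL a c).continuous (hX c b) j
  have h2 := hasSum_sum (s := Finset.univ) fun c _ => h1 c
  have h3 : fcM (fun θ => L θ * bd (psumM X) θ) j a b =
      ∑ c, fc (fun θ => L θ a c * bd (psum fun k => X k c b) θ) j := by
    unfold fcM
    simp only [Matrix.mul_apply]
    exact fc_sum _ _ (fun c _ => (hL a c).continuous.mul (cSm_bd_psumM hX c b).continuous) j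
  rw [h3]
  exact h2.unique (hT j a b)

/-- products of functions with nonpositive spectrum. -/
theorem fc_mul_of_nonpos_spectrum {u y : ℝ → ℂ} (hu : Continuous u) (hy : Continuous y)
    (hu0 : ∀ k : ℤ, 0 < k → fc u k = 0) (hy0 : ∀ k : ℤ, 0 < k → fc y k = 0) :
    (∀ n : ℤ, 0 < n → fc (fun θ => u θ * y θ) n = 0) ∧
      fc (fun θ => u θ * y θ) 0 = fc u 0 * fc y 0 := by
  constructor
  · intro n hn
    have h := hasSum_fc_mul hu hy n
    have e : (fun k : ℤ => fc u (n - k) * fc y k) = fun _ => 0 := by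
      funext k
      rcases lt_or_ge 0 k with hk | hk
      · rw [hy0 k hk, mul_zero]
      · rw [hu0 (n - k) (by omega), zero_mul]
    rw [e] at h
    exact h.unique hasSum_zero
  · have h := hasSum_fc_mul hu hy 0
    have h2 := hasSum_single (f := fun k : ℤ => fc u (0 - k) * fc y k) 0 (by
      intro k hk
      rcases lt_or_ge 0 k with hk' | hk'
      · rw [hy0 k hk', mul_zero]
      · rw [hu0 (0 - k) (by omega), zero_mul])
    have h3 := h.unique h2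
    simpa using h3

theorem wm_G_isHermitian (hH : ∀ θ, (L θ).IsHermitian) (θ : ℝ) :
    ((bd (psumM X) θ)ᴴ * (L θ * bd (psumM X) θ)).IsHermitian := by
  rw [← Matrix.mul_assoc]
  exact isHermitian_conj (hH θ) _

/-- step 2. -/
theorem wm_G_const (hL : ∀ i j, CSm fun θ => L θ i j) (hH : ∀ θ, (L θ).IsHermitian)
    (hX : ∀ a b, RapidN fun k => X k a b)
    (hT : ∀ (j : ℕ) (a b : ι), HasSum (fun k : ℕ => (fcM L ((j : ℤ) - k) * X k) a b)
      ((if j = 0 then 1 else 0 : Matrix ι ι ℂ) a b)) (θ : ℝ) :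
    (bd (psumM X) θ)ᴴ * (L θ * bd (psumM X) θ) = (X 0)ᴴ := by
  have hY : ∀ c b, CSm fun θ => (L θ * bd (psumM X) θ) c b := cSm_matrix_mul hL (cSm_bd_psumM hX)
  have hU : ∀ a c, CSm fun θ => (bd (psumM X) θ)ᴴ a c := fun a c => (cSm_bd_psumM hX c a).conj
  have hG : ∀ a b, CSm fun θ => ((bd (psumM X) θ)ᴴ * (L θ * bd (psumM X) θ)) a b :=
    cSm_matrix_mul hU hY
  have hU0 : ∀ a c (k : ℤ), 0 < k → fc (fun θ => (bd (psumM X) θ)ᴴ a c) k = 0 := by
    intro a c k hk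
    have e : (fun θ => (bd (psumM X) θ)ᴴ a c) = fun θ => conj (bd (psumM X) θ c a) := rfl
    rw [e, fc_conj, fc_bd_psumM hX, if_neg (by omega), map_zero]
  have hU1 : ∀ a c, fc (fun θ => (bd (psumM X) θ)ᴴ a c) 0 = conj (X 0 c a) := by
    intro a c
    have e : (fun θ => (bd (psumM X) θ)ᴴ a c) = fun θ => conj (bd (psumM X) θ c a) := rfl
    rw [e, fc_conj, fc_bd_psumM hX]
    simp
  have hY0 : ∀ c b (k : ℤ), 0 < k → fc (fun θ => (L θ * bd (psumM X) θ) c b) k = 0 := by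
    intro c b k hk
    have h := congrFun (congrFun (wm_fc_Y hL hX hT k.toNat) c) b
    rw [Int.toNat_of_nonneg hk.le, if_neg (by omega)] at h
    exact h
  have hY1 : ∀ c b, fc (fun θ => (L θ * bd (psumM X) θ) c b) 0 = (1 : Matrix ι ι ℂ) c b := by
    intro c b
    have h := congrFun (congrFun (wm_fc_Y hL hX hT 0) c) b
    simp only [Nat.cast_zero, if_true] at h
    exact h
  have hGsum : ∀ a b (n : ℤ), fc (fun θ => ((bd (psumM X) θ)ᴴ * (L θ * bd (psumM X) θ)) a b) n =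
      ∑ c, fc (fun θ => (bd (psumM X) θ)ᴴ a c * (L θ * bd (psumM X) θ) c b) n := by
    intro a b n
    simp only [Matrix.mul_apply (M := (bd (psumM X) _)ᴴ)]
    exact fc_sum _ _ (fun c _ => (hU a c).continuous.mul (hY c b).continuous) n
  have hGpos : ∀ a b (n : ℤ), 0 < n →
      fc (fun θ => ((bd (psumM X) θ)ᴴ * (L θ * bd (psumM X) θ)) a b) n = 0 := by
    intro a b n hn
    rw [hGsum]
    refine Finset.sum_eq_zero fun c _ => ?_
    exact (fc_mul_of_nonpos_spectrum (hU a c).continuous (hY c b).continuous (hU0 a c)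
      (hY0 c b)).1 n hn
  have hG0 : ∀ a b, fc (fun θ => ((bd (psumM X) θ)ᴴ * (L θ * bd (psumM X) θ)) a b) 0 =
      (X 0)ᴴ a b := by
    intro a b
    rw [hGsum]
    have : ∀ c, fc (fun θ => (bd (psumM X) θ)ᴴ a c * (L θ * bd (psumM X) θ) c b) 0 =
        conj (X 0 c a) * (1 : Matrix ι ι ℂ) c b := by
      intro c
      rw [(fc_mul_of_nonpos_spectrum (hU a c).continuous (hY c b).continuous (hU0 a c)
        (hY0 c b)).2, hU1, hY1]
    simp only [this, Matrix.one_apply, mul_ite, mul_one, mul_zero, Finset.sum_ite_eq',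
      Finset.mem_univ, if_true]
    rfl
  have hGneg : ∀ a b (n : ℤ), n < 0 →
      fc (fun θ => ((bd (psumM X) θ)ᴴ * (L θ * bd (psumM X) θ)) a b) n = 0 := by
    intro a b n hn
    have e : (fun θ => ((bd (psumM X) θ)ᴴ * (L θ * bd (psumM X) θ)) a b) =
        fun θ => conj (((bd (psumM X) θ)ᴴ * (L θ * bd (psumM X) θ)) b a) := by
      funext θ
      have h := congrFun (congrFun (wm_G_isHermitian (X := X) hH θ) a) b
      rw [← h]
      rfl
    rw [e, fc_conj, hGpos b a (-n) (by omega), map_zero]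
  ext a b
  have h := eq_const_of_fc_eq_zero (hG a b).continuous (hG a b).per (by
    intro k hk
    rcases lt_or_gt_of_ne hk with h1 | h1
    · exact hGneg a b k h1
    · exact hGpos a b k h1) θ
  rw [h, ← fc_zero_index, hG0]

/-- step 3. -/
theorem wm_G0_posDef (hm : 0 < m) (hL : ∀ i j, CSm fun θ => L θ i j)
    (hH : ∀ θ, (L θ).IsHermitian)
    (hlo : ∀ θ, (L θ - ((m : ℝ) : ℂ) • (1 : Matrix ι ι ℂ)).PosSemidef)
    (hX : ∀ a b, RapidN fun k => X k a b)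
    (hT : ∀ (j : ℕ) (a b : ι), HasSum (fun k : ℕ => (fcM L ((j : ℤ) - k) * X k) a b)
      ((if j = 0 then 1 else 0 : Matrix ι ι ℂ) a b)) :
    ((X 0)ᴴ).PosDef := by
  have hG := wm_G_const hL hH hX hT
  have hherm : ((X 0)ᴴ).IsHermitian := by
    rw [← hG 0]
    exact wm_G_isHermitian hH 0
  have hY : ∀ c b, CSm fun θ => (L θ * bd (psumM X) θ) c b := cSm_matrix_mul hL (cSm_bd_psumM hX)
  rw [posDef_iff_qf hherm]
  intro v hv
  have hq : ∀ θ, m * nsq (bd (psumM X) θ *ᵥ v) ≤ qf ((X 0)ᴴ) v := by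
    intro θ
    rw [← hG θ, ← Matrix.mul_assoc, qf_conj]
    exact qf_ge_of_loewner (hlo θ) _
  have h0 : 0 ≤ qf ((X 0)ᴴ) v := le_trans (mul_nonneg hm.le (nsq_nonneg _)) (hq 0)
  rcases h0.lt_or_eq with h1 | h1
  · exact h1
  exfalso
  apply hv
  have hXv : ∀ θ, bd (psumM X) θ *ᵥ v = 0 := by
    intro θ
    have h2 := hq θ
    rw [← h1] at h2
    have h3 : nsq (bd (psumM X) θ *ᵥ v) ≤ 0 := by
      by_contra hcon
      push Not at hcon
      nlinarith
    exact (nsq_eq_zero_iff _).1 (le_antisymm h3 (nsq_nonneg _))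
  have hYv : ∀ θ, (L θ * bd (psumM X) θ) *ᵥ v = 0 := by
    intro θ
    rw [← Matrix.mulVec_mulVec, hXv θ, Matrix.mulVec_zero]
  have h4 : fcM (fun θ => L θ * bd (psumM X) θ) 0 *ᵥ v = 0 := by
    funext a
    simp only [Matrix.mulVec, dotProduct, fcM, Pi.zero_apply]
    have h5 : ∀ b, fc (fun θ => (L θ * bd (psumM X) θ) a b) 0 * v b =
        fc (fun θ => (L θ * bd (psumM X) θ) a b * v b) 0 := fun b => (fc_mul_const _ _ _).symm
    simp only [h5]
    have h8 := fc_sum Finset.univ (fun b θ => (L θ * bd (psumM X) θ) a b * v b)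
      (fun b _ => (hY a b).continuous.mul continuous_const) 0
    rw [← h8]
    have h6 : (fun θ => ∑ b, (L θ * bd (psumM X) θ) a b * v b) = fun _ => 0 := by
      funext θ
      exact congrFun (hYv θ) a
    rw [h6, fc_const]
    simp
  have h7 := wm_fc_Y hL hX hT 0
  simp only [Nat.cast_zero, if_true] at h7
  rw [h7, Matrix.one_mulVec] at h4
  exact h4

/-- step 4: the holomorphic extension of `Yᴴ`. -/
theorem wm_Yh (hL : ∀ i j, CSm fun θ => L θ i j) (hH : ∀ θ, (L θ).IsHermitian)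
    (hX : ∀ a b, RapidN fun k => X k a b)
    (hT : ∀ (j : ℕ) (a b : ι), HasSum (fun k : ℕ => (fcM L ((j : ℤ) - k) * X k) a b)
      ((if j = 0 then 1 else 0 : Matrix ι ι ℂ) a b)) :
    ∃ Yh : ℂ → Matrix ι ι ℂ, (∀ a b, HolSm fun ζ => Yh ζ a b) ∧
      (∀ θ, bd Yh θ = (L θ * bd (psumM X) θ)ᴴ) ∧
      ∀ ζ ∈ Metric.closedBall (0 : ℂ) 1, Yh ζ * psumM X ζ = (X 0)ᴴ := by
  have hY : ∀ c b, CSm fun θ => (L θ * bd (psumM X) θ) c b := cSm_matrix_mul hL (cSm_bd_psumM hX)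
  have hYc : ∀ a b, CSm fun θ => conj ((L θ * bd (psumM X) θ) b a) := fun a b => (hY b a).conj
  set Yh : ℂ → Matrix ι ι ℂ :=
    fun ζ a b => szego (fun θ => conj ((L θ * bd (psumM X) θ) b a)) ζ with hYh
  have hhol : ∀ a b, HolSm fun ζ => Yh ζ a b := fun a b => holSm_szego (hYc a b)
  have hbd : ∀ θ, bd Yh θ = (L θ * bd (psumM X) θ)ᴴ := by
    intro θ
    ext a b
    have h := bd_szego_of_fc_neg (hYc a b) (by
      intro k hk
      rw [fc_conj]
      have h := congrFun (congrFun (wm_fc_Y hL hX hT (-k).toNat) b) a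
      rw [Int.toNat_of_nonneg (by omega), if_neg (by omega)] at h
      have h' : fc (fun θ => (L θ * bd (psumM X) θ) b a) (-k) = 0 := h
      rw [h', map_zero])
    exact congrFun h θ
  refine ⟨Yh, hhol, hbd, ?_⟩
  intro ζ hζ
  ext a b
  have h1 : HolSm fun ζ => (Yh ζ * psumM X ζ) a b := holSm_matrix_mul hhol (holSm_psumM hX) a b
  refine h1.eqOn_of_bd_eq (HolSm.const ((X 0)ᴴ a b)) (fun θ => ?_) hζ
  have h2 : bd (fun ζ => (Yh ζ * psumM X ζ) a b) θ = (bd Yh θ * bd (psumM X) θ) a b := rfl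
  rw [h2, hbd, Matrix.conjTranspose_mul, (hH θ).eq, Matrix.mul_assoc, wm_G_const hL hH hX hT]
  rfl

end steps

/-- **spectral factorisation** (existence part of Lemma boundary-factorization). -/
theorem wm_factor {L : ℝ → Matrix ι ι ℂ} {m : ℝ} (hm : 0 < m) (hL : ∀ i j, CSm fun θ => L θ i j)
    (hH : ∀ θ, (L θ).IsHermitian)
    (hlo : ∀ θ, (L θ - ((m : ℝ) : ℂ) • (1 : Matrix ι ι ℂ)).PosSemidef) :
    ∃ H Hi : ℂ → Matrix ι ι ℂ, (∀ a b, HolSm fun ζ => H ζ a b) ∧ (∀ a b, HolSm fun ζ => Hi ζ a b) ∧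
      (∀ ζ ∈ Metric.closedBall (0 : ℂ) 1, H ζ * Hi ζ = 1) ∧
      (∀ ζ ∈ Metric.closedBall (0 : ℂ) 1, Hi ζ * H ζ = 1) ∧
      ∀ θ, (bd H θ)ᴴ * bd H θ = L θ := by
  obtain ⟨X, hX, hT⟩ := toeplitz_solve_matrix hm hL hlo
  obtain ⟨Yh, hYh, hbd, hprod⟩ := wm_Yh hL hH hX hT
  obtain ⟨R, hR, hRR⟩ := exists_sqrt_posDef (wm_G0_posDef hm hL hH hlo hX hT)
  have hdet : IsUnit R.det := (Matrix.isUnit_iff_isUnit_det R).1 hR.isUnit
  have hRi1 : R * R⁻¹ = 1 := Matrix.mul_nonsing_inv R hdet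
  have hRi2 : R⁻¹ * R = 1 := Matrix.nonsing_inv_mul R hdet
  have hRiH : (R⁻¹)ᴴ = R⁻¹ := hR.isHermitian.inv.eq
  have hconst : ∀ a b, HolSm fun _ : ℂ => R⁻¹ a b := fun a b => HolSm.const _
  have h1 : ∀ ζ ∈ Metric.closedBall (0 : ℂ) 1, (R⁻¹ * Yh ζ) * (psumM X ζ * R⁻¹) = 1 := by
    intro ζ hζ
    calc (R⁻¹ * Yh ζ) * (psumM X ζ * R⁻¹) = R⁻¹ * (Yh ζ * psumM X ζ) * R⁻¹ := by
          simp only [Matrix.mul_assoc]
      _ = R⁻¹ * (R * R) * R⁻¹ := by rw [hprod ζ hζ, hRR]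
      _ = (R⁻¹ * R) * (R * R⁻¹) := by simp only [Matrix.mul_assoc]
      _ = 1 := by rw [hRi1, hRi2, Matrix.one_mul]
  have h2 : ∀ ζ ∈ Metric.closedBall (0 : ℂ) 1, (psumM X ζ * R⁻¹) * (R⁻¹ * Yh ζ) = 1 :=
    fun ζ hζ => mul_eq_one_comm.1 (h1 ζ hζ)
  refine ⟨fun ζ => R⁻¹ * Yh ζ, fun ζ => psumM X ζ * R⁻¹,
    holSm_matrix_mul (A := fun _ => R⁻¹) hconst hYh,
    holSm_matrix_mul (B := fun _ => R⁻¹) (holSm_psumM hX) hconst, h1, h2, fun θ => ?_⟩
  have e1 : bd (fun ζ => R⁻¹ * Yh ζ) θ = R⁻¹ * bd Yh θ := rfl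
  have e2 : (bd Yh θ)ᴴ = L θ * bd (psumM X) θ := by
    rw [hbd, Matrix.conjTranspose_conjTranspose]
  rw [e1, Matrix.conjTranspose_mul, e2, hRiH]
  have h3 := h2 _ (circleMap_mem_closedBall θ)
  calc L θ * bd (psumM X) θ * R⁻¹ * (R⁻¹ * bd Yh θ)
      = L θ * ((bd (psumM X) θ * R⁻¹) * (R⁻¹ * bd Yh θ)) := by simp only [Matrix.mul_assoc]
    _ = L θ := by
        have h4 : (bd (psumM X) θ * R⁻¹) * (R⁻¹ * bd Yh θ) = 1 := h3
        rw [h4, Matrix.mul_one]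

end Claimed.Agent.R316.B14
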