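import Claimed.Agent.R316.B14.Disc
import Claimed.Agent.R316.Pack016

/-!
# B14, supplement for `S5-C6`: families of functions on the circle depending holomorphically on a
parameter `z`; Cauchy estimates in the seminorm `D`; Parseval in `z`; the mean value test

* `norm_deriv_sub_le_vec`: Cauchy estimates for Banach space valued functions bounded on an OPEN disc.
* `HolFam x r₀`: `x z θ` holomorphic in `z ∈ B(0, r₀)`, jointly continuous.  `HolFam.hasDerivAt_fc`: every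
  Fourier coefficient is holomorphic in `z`, with derivative the coefficient of `∂_z x`.
* `HolFam.hsq_deriv_le`: apply the vector valued Cauchy estimates to `z ↦ (√|k| x_k(z))_{k ∈ S}`, `S` finite.
* `HolFam.pavg_hsq_le`: `pavg_sq_circle_le` (Parseval on two circles) for each coefficient, monotone convergence.
* `pavg_le_of_lap_le`: `submean_of_laplacian_nonneg` (`CW/LeviSub`) for `Λ r² |ζ|² - Φ(r ζ)`.
-/

set_option autoImplicit false
set_option linter.unusedSectionVars false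
open scoped ContDiff ComplexOrder ComplexConjugate Matrix Real Topology
open MeasureTheory

namespace Claimed.Agent.R316.B14

section cauchyVec

variable {E : Type} [NormedAddCommGroup E] [NormedSpace ℂ E] [CompleteSpace E]

theorem le_div_of_forall_lt {a M ρ : ℝ} (hρ : 0 < ρ) (n : ℕ)
    (h : ∀ R : ℝ, 0 < R → R < ρ → a ≤ M / R ^ n) : a ≤ M / ρ ^ n := by
  rw [le_div_iff₀ (pow_pos hρ n)]
  have h1 : Filter.Tendsto (fun R : ℝ => a * R ^ n) (𝓝[<] ρ) (𝓝 (a * ρ ^ n)) :=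
    ((continuous_const.mul (continuous_id.pow n)).tendsto ρ).mono_left nhdsWithin_le_nhds
  refine le_of_tendsto h1 ?_
  filter_upwards [Ioo_mem_nhdsLT hρ] with R hR
  have := h R hR.1 hR.2
  rwa [le_div_iff₀ (pow_pos hR.1 n)] at this

/-- Cauchy estimate of order `n` on an OPEN disc where the function is bounded. -/
theorem norm_iteratedDeriv_le_of_bound {G : ℂ → E} {c : ℂ} {ρ M : ℝ} (hρ : 0 < ρ)
    (hG : DifferentiableOn ℂ G (Metric.ball c ρ)) (hM : ∀ z ∈ Metric.ball c ρ, ‖G z‖ ≤ M) (n : ℕ) :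
    ‖iteratedDeriv n G c‖ ≤ n.factorial * M / ρ ^ n := by
  refine le_div_of_forall_lt hρ n fun R hR0 hR => ?_
  refine Complex.norm_iteratedDeriv_le_of_forall_mem_sphere_norm_le n hR0 ?_ ?_
  · exact (hG.mono (Metric.closedBall_subset_ball hR)).diffContOnCl_ball subset_rfl
  · intro z hz
    exact hM z (Metric.closedBall_subset_ball hR (Metric.sphere_subset_closedBall hz))

/-- vector valued Cauchy estimates on a disc. -/
theorem norm_deriv_sub_le_vec {G : ℂ → E} {r₀ M : ℝ} (hr : 0 < r₀)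
    (hG : DifferentiableOn ℂ G (Metric.ball 0 r₀)) (hM : ∀ z ∈ Metric.ball (0 : ℂ) r₀, ‖G z‖ ≤ M) :
    ‖deriv G 0‖ ≤ M / r₀ ∧
      ∀ z : ℂ, ‖z‖ ≤ r₀ / 2 → ‖deriv G z - deriv G 0‖ ≤ 8 * M * ‖z‖ / r₀ ^ 2 := by
  constructor
  · have := norm_iteratedDeriv_le_of_bound hr hG hM 1
    simpa using this
  · intro z hz
    have hd : DifferentiableOn ℂ (deriv G) (Metric.ball 0 r₀) := hG.deriv Metric.isOpen_ball
    have hsub : Metric.closedBall (0 : ℂ) (r₀ / 2) ⊆ Metric.ball 0 r₀ :=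
      Metric.closedBall_subset_ball (by linarith)
    have hb : ∀ w ∈ Metric.closedBall (0 : ℂ) (r₀ / 2), ‖deriv (deriv G) w‖ ≤ 8 * M / r₀ ^ 2 := by
      intro w hw
      have hw' : ‖w‖ ≤ r₀ / 2 := by simpa using hw
      have hsub2 : Metric.ball w (r₀ / 2) ⊆ Metric.ball 0 r₀ := by
        intro y hy
        rw [mem_ball_zero_iff]
        have h1 : ‖y - w‖ < r₀ / 2 := by simpa [dist_eq_norm] using hy
        calc ‖y‖ = ‖(y - w) + w‖ := by rw [sub_add_cancel]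
          _ ≤ ‖y - w‖ + ‖w‖ := norm_add_le _ _
          _ < r₀ := by linarith
      have := norm_iteratedDeriv_le_of_bound (c := w) (half_pos hr) (hG.mono hsub2)
        (fun y hy => hM y (hsub2 hy)) 2
      rw [iteratedDeriv_succ, iteratedDeriv_one] at this
      refine this.trans (le_of_eq ?_)
      simp only [Nat.factorial]
      push_cast
      field_simp
      ring
    have := Convex.norm_image_sub_le_of_norm_deriv_le (f := deriv G)
      (s := Metric.closedBall (0 : ℂ) (r₀ / 2)) (x := 0) (y := z)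
      (fun w hw => hd.differentiableAt (Metric.isOpen_ball.mem_nhds (hsub hw))) hb
      (convex_closedBall 0 _) (by simp; linarith) (by simpa using hz)
    rw [sub_zero] at this
    refine this.trans (le_of_eq ?_)
    ring

end cauchyVec

section holFam

/-- a family of functions of the angle depending holomorphically on `z ∈ B(0, r₀)`. -/
structure HolFam (x : ℂ → ℝ → ℂ) (r₀ : ℝ) : Prop where
  hol : ∀ θ, DifferentiableOn ℂ (fun z => x z θ) (Metric.ball 0 r₀)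
  cont : ContinuousOn (fun p : ℂ × ℝ => x p.1 p.2) (Metric.ball 0 r₀ ×ˢ Set.univ)

variable {x : ℂ → ℝ → ℂ} {r₀ : ℝ}

theorem HolFam.continuous (hx : HolFam x r₀) {z : ℂ} (hz : z ∈ Metric.ball (0 : ℂ) r₀) :
    Continuous (x z) := by
  have h1 : Continuous fun θ : ℝ => ((z, θ) : ℂ × ℝ) := by fun_prop
  have := hx.cont.comp_continuous h1 (fun θ => ⟨hz, Set.mem_univ _⟩)
  exact this

theorem HolFam.hasDerivAt (hx : HolFam x r₀) {z : ℂ} (hz : z ∈ Metric.ball (0 : ℂ) r₀) (θ : ℝ) :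
    HasDerivAt (fun y => x y θ) (deriv (fun y => x y θ) z) z :=
  ((hx.hol θ).differentiableAt (Metric.isOpen_ball.mem_nhds hz)).hasDerivAt

theorem HolFam.exists_bound (hx : HolFam x r₀) {z₀ : ℂ} (hz : z₀ ∈ Metric.ball (0 : ℂ) r₀) :
    ∃ ρ C : ℝ, 0 < ρ ∧ Metric.closedBall z₀ (2 * ρ) ⊆ Metric.ball 0 r₀ ∧
      ∀ w ∈ Metric.closedBall z₀ (2 * ρ), ∀ θ ∈ Set.Icc (0 : ℝ) (2 * π), ‖x w θ‖ ≤ C := by
  have hz' : ‖z₀‖ < r₀ := by simpa using hz
  set ρ : ℝ := (r₀ - ‖z₀‖) / 4 with hρ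
  have hρ0 : 0 < ρ := by
    rw [hρ]
    linarith
  have hsub : Metric.closedBall z₀ (2 * ρ) ⊆ Metric.ball 0 r₀ := by
    intro y hy
    rw [mem_ball_zero_iff]
    have h1 : ‖y - z₀‖ ≤ 2 * ρ := by simpa [dist_eq_norm] using hy
    calc ‖y‖ = ‖(y - z₀) + z₀‖ := by rw [sub_add_cancel]
      _ ≤ ‖y - z₀‖ + ‖z₀‖ := norm_add_le _ _
      _ < r₀ := by rw [hρ] at h1; linarith
  have hK : IsCompact (Metric.closedBall z₀ (2 * ρ) ×ˢ Set.Icc (0 : ℝ) (2 * π)) :=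
    (isCompact_closedBall z₀ _).prod isCompact_Icc
  obtain ⟨C, hC⟩ := hK.exists_bound_of_continuousOn
    (hx.cont.mono (Set.prod_mono hsub (Set.subset_univ _)))
  exact ⟨ρ, C, hρ0, hsub, fun w hw θ hθ => hC (w, θ) ⟨hw, hθ⟩⟩

theorem HolFam.measurable_deriv (hx : HolFam x r₀) {z₀ : ℂ} (hz : z₀ ∈ Metric.ball (0 : ℂ) r₀) :
    Measurable fun θ => deriv (fun y => x y θ) z₀ := by
  obtain ⟨ρ, C, hρ, hsub, -⟩ := hx.exists_bound hz
  set t : ℕ → ℂ := fun n => ((ρ / ((n : ℝ) + 1) : ℝ) : ℂ) with ht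
  have ht0 : ∀ n, t n ≠ 0 := by
    intro n
    have : ρ / ((n : ℝ) + 1) ≠ 0 := by positivity
    exact Complex.ofReal_ne_zero.2 this
  have htlim : Filter.Tendsto t Filter.atTop (𝓝[≠] 0) := by
    rw [tendsto_nhdsWithin_iff]
    refine ⟨?_, Filter.Eventually.of_forall ht0⟩
    have h1 : Filter.Tendsto (fun n : ℕ => ρ / ((n : ℝ) + 1)) Filter.atTop (𝓝 0) :=
      tendsto_const_div_atTop_nhds_zero_nat ρ |>.comp (Filter.tendsto_add_atTop_nat 1) |>.congr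
        (fun n => by simp)
    have h2 := (Complex.continuous_ofReal.tendsto 0).comp h1
    rw [Complex.ofReal_zero] at h2
    exact h2
  have hmem : ∀ n, z₀ + t n ∈ Metric.ball (0 : ℂ) r₀ := by
    intro n
    apply hsub
    rw [Metric.mem_closedBall, dist_eq_norm, add_sub_cancel_left, ht]
    simp only [Complex.norm_real, Real.norm_eq_abs]
    rw [abs_of_pos (by positivity)]
    have h1 : ρ / ((n : ℝ) + 1) ≤ ρ := div_le_self hρ.le (by
      have : (0 : ℝ) ≤ (n : ℝ) := Nat.cast_nonneg n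
      linarith)
    linarith
  refine measurable_of_tendsto_metrizable
    (f := fun n θ => (t n)⁻¹ • (x (z₀ + t n) θ - x z₀ θ)) (fun n => ?_) ?_
  · have c0 : Continuous fun θ => x (z₀ + t n) θ - x z₀ θ :=
      (hx.continuous (hmem n)).sub (hx.continuous hz)
    have c1 : Continuous fun θ => (t n)⁻¹ • (x (z₀ + t n) θ - x z₀ θ) := c0.const_smul ((t n)⁻¹)
    exact c1.measurable
  · rw [tendsto_pi_nhds]
    intro θ
    exact (hx.hasDerivAt hz θ).tendsto_slope_zero.comp htlim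

theorem HolFam.hasDerivAt_fc (hx : HolFam x r₀) {z₀ : ℂ} (hz : z₀ ∈ Metric.ball (0 : ℂ) r₀) (k : ℤ) :
    HasDerivAt (fun z => fc (x z) k) (fc (fun θ => deriv (fun y => x y θ) z₀) k) z₀ := by
  obtain ⟨ρ, C, hρ, hsub, hC⟩ := hx.exists_bound hz
  have hsub1 : Metric.ball z₀ ρ ⊆ Metric.ball 0 r₀ :=
    (Metric.ball_subset_closedBall.trans (Metric.closedBall_subset_closedBall (by linarith))).trans
      hsub
  have key := (intervalIntegral.hasDerivAt_integral_of_dominated_loc_of_deriv_le (𝕜 := ℂ)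
    (μ := volume) (a := 0) (b := 2 * π)
    (F := fun z θ => ech (-k) θ * x z θ)
    (F' := fun z θ => ech (-k) θ * deriv (fun y => x y θ) z) (x₀ := z₀)
    (bound := fun _ => C / ρ) (s := Metric.ball z₀ ρ) (Metric.ball_mem_nhds z₀ hρ) ?_ ?_ ?_ ?_ ?_ ?_).2
  · unfold fc pavg
    exact key.const_smul ((2 * π)⁻¹ : ℝ)
  · filter_upwards [Metric.ball_mem_nhds z₀ hρ] with z hz'
    exact ((continuous_ech _).mul (hx.continuous (hsub1 hz'))).aestronglyMeasurable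
  · exact ((continuous_ech _).mul (hx.continuous hz)).intervalIntegrable _ _
  · exact ((continuous_ech _).measurable.mul (hx.measurable_deriv hz)).aestronglyMeasurable
  · refine Filter.Eventually.of_forall fun θ hθ w hw => ?_
    rw [Set.uIoc_of_le two_pi_pos'.le] at hθ
    rw [norm_mul, norm_ech, one_mul]
    have hsub2 : Metric.ball w ρ ⊆ Metric.closedBall z₀ (2 * ρ) := by
      intro y hy
      rw [Metric.mem_closedBall]
      have h1 := Metric.mem_ball.1 hy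
      have h2 := Metric.mem_ball.1 hw
      have h3 := dist_triangle y w z₀
      linarith
    have := norm_iteratedDeriv_le_of_bound (G := fun y => x y θ) (c := w) hρ
      ((hx.hol θ).mono (hsub2.trans hsub)) (fun y hy => hC y (hsub2 hy) θ ⟨hθ.1.le, hθ.2⟩) 1
    simpa using this
  · exact intervalIntegrable_const
  · exact Filter.Eventually.of_forall fun θ _ w hw => (hx.hasDerivAt (hsub1 hw) θ).const_mul _

theorem HolFam.differentiableOn_fc (hx : HolFam x r₀) (k : ℤ) :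
    DifferentiableOn ℂ (fun z => fc (x z) k) (Metric.ball 0 r₀) := fun _ hz =>
  (hx.hasDerivAt_fc hz k).differentiableAt.differentiableWithinAt

theorem HolFam.deriv_fc (hx : HolFam x r₀) {z₀ : ℂ} (hz : z₀ ∈ Metric.ball (0 : ℂ) r₀) (k : ℤ) :
    deriv (fun z => fc (x z) k) z₀ = fc (fun θ => deriv (fun y => x y θ) z₀) k :=
  (hx.hasDerivAt_fc hz k).deriv

end holFam

section wvec

/-- the weighted vector `(√|k| c_k)_{k ∈ S}` over a finite set of frequencies. -/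
noncomputable def wvec (S : Finset ℤ) (c : ℤ → ℂ) : EuclideanSpace ℂ S :=
  WithLp.toLp 2 fun k : S => ((Real.sqrt |((k : ℤ) : ℝ)| : ℝ) : ℂ) * c k

theorem norm_sq_wvec (S : Finset ℤ) (c : ℤ → ℂ) :
    ‖wvec S c‖ ^ 2 = ∑ k ∈ S, |(k : ℝ)| * ‖c k‖ ^ 2 := by
  rw [EuclideanSpace.norm_sq_eq, ← Finset.sum_coe_sort S fun k : ℤ => |(k : ℝ)| * ‖c k‖ ^ 2]
  refine Finset.sum_congr rfl fun k _ => ?_
  simp only [wvec]
  rw [norm_mul, mul_pow, Complex.norm_real, Real.norm_eq_abs, sq_abs, Real.sq_sqrt (abs_nonneg _)]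

theorem wvec_sub (S : Finset ℤ) (c d : ℤ → ℂ) :
    wvec S (fun k => c k - d k) = wvec S c - wvec S d := by
  ext k
  simp [wvec, mul_sub]

theorem hasDerivAt_wvec (S : Finset ℤ) {c : ℂ → ℤ → ℂ} {c' : ℤ → ℂ} {z : ℂ}
    (h : ∀ k, HasDerivAt (fun y => c y k) (c' k) z) :
    HasDerivAt (fun y => wvec S (c y)) (wvec S c') z := by
  have h1 : HasDerivAt (fun y => fun k : S => ((Real.sqrt |((k : ℤ) : ℝ)| : ℝ) : ℂ) * c y k)
      (fun k : S => ((Real.sqrt |((k : ℤ) : ℝ)| : ℝ) : ℂ) * c' k) z :=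
    hasDerivAt_pi.2 fun k => (h k).const_mul _
  exact ((EuclideanSpace.equiv S ℂ).symm.hasFDerivAt).comp_hasDerivAt z h1

end wvec

section cauchyD

variable {x : ℂ → ℝ → ℂ} {r₀ : ℝ}

theorem HolFam.norm_wvec_le (hx : HolFam x r₀) {M : ℝ}
    (hlip : ∀ z ∈ Metric.ball (0 : ℂ) r₀, CLip (x z))
    (hM : ∀ z ∈ Metric.ball (0 : ℂ) r₀, hsq (x z) ≤ M) (S : Finset ℤ) {z : ℂ}
    (hz : z ∈ Metric.ball (0 : ℂ) r₀) : ‖wvec S (fc (x z))‖ ^ 2 ≤ M := by
  rw [norm_sq_wvec]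
  refine le_trans ?_ (hM z hz)
  exact (hlip z hz).summable_hsq.sum_le_tsum S fun k _ => by positivity

/-- **Cauchy estimates in the seminorm `D`**. -/
theorem HolFam.hsq_deriv_le (hx : HolFam x r₀) (hr : 0 < r₀) {M : ℝ}
    (hlip : ∀ z ∈ Metric.ball (0 : ℂ) r₀, CLip (x z))
    (hV : ∀ z ∈ Metric.ball (0 : ℂ) r₀, Continuous fun θ => deriv (fun y => x y θ) z)
    (hM : ∀ z ∈ Metric.ball (0 : ℂ) r₀, hsq (x z) ≤ M) :
    hsq (fun θ => deriv (fun y => x y θ) 0) ≤ M / r₀ ^ 2 ∧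
    ∀ z : ℂ, ‖z‖ ≤ r₀ / 2 →
      hsq (fun θ => deriv (fun y => x y θ) z - deriv (fun y => x y θ) 0) ≤
        64 * M * ‖z‖ ^ 2 / r₀ ^ 4 := by
  have h0 : (0 : ℂ) ∈ Metric.ball (0 : ℂ) r₀ := by simpa using hr
  have hM0 : 0 ≤ M := (hsq_nonneg _).trans (hM 0 h0)
  have hG : ∀ S : Finset ℤ, ∀ z ∈ Metric.ball (0 : ℂ) r₀,
      HasDerivAt (fun y => wvec S (fc (x y))) (wvec S (fc fun θ => deriv (fun y => x y θ) z)) z :=
    fun S z hz => hasDerivAt_wvec S fun k => hx.hasDerivAt_fc hz k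
  have hb : ∀ S : Finset ℤ, ∀ z ∈ Metric.ball (0 : ℂ) r₀, ‖wvec S (fc (x z))‖ ≤ Real.sqrt M :=
    fun S z hz => Real.le_sqrt_of_sq_le (hx.norm_wvec_le hlip hM S hz)
  have key := fun S : Finset ℤ => norm_deriv_sub_le_vec hr
    (fun z hz => (hG S z hz).differentiableAt.differentiableWithinAt) (hb S)
  constructor
  · unfold hsq
    refine tsum_le_of_sum_le' (by positivity) fun S => ?_
    have h1 := (key S).1
    rw [(hG S 0 h0).deriv] at h1
    rw [← norm_sq_wvec]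
    calc ‖wvec S (fc fun θ => deriv (fun y => x y θ) 0)‖ ^ 2 ≤ (Real.sqrt M / r₀) ^ 2 := by
          gcongr
      _ = M / r₀ ^ 2 := by rw [div_pow, Real.sq_sqrt hM0]
  · intro z hz
    have hzb : z ∈ Metric.ball (0 : ℂ) r₀ := by
      rw [mem_ball_zero_iff]
      linarith
    unfold hsq
    refine tsum_le_of_sum_le' (by positivity) fun S => ?_
    have h1 := (key S).2 z hz
    rw [(hG S 0 h0).deriv, (hG S z hzb).deriv, ← wvec_sub] at h1
    rw [← norm_sq_wvec]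
    have e1 : fc (fun θ => deriv (fun y => x y θ) z - deriv (fun y => x y θ) 0) =
        fun k => fc (fun θ => deriv (fun y => x y θ) z) k - fc (fun θ => deriv (fun y => x y θ) 0) k := by
      funext k
      exact fc_sub (hV z hzb) (hV 0 h0) k
    rw [e1]
    calc _ ≤ (8 * Real.sqrt M * ‖z‖ / r₀ ^ 2) ^ 2 := by gcongr
      _ = 64 * M * ‖z‖ ^ 2 / r₀ ^ 4 := by
        rw [div_pow, mul_pow, mul_pow, Real.sq_sqrt hM0]
        ring

end cauchyD

section parsevalDisc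

variable {f : ℂ → ℂ}

/-- one sided Parseval for `HolSm`. -/
theorem HolSm.hasSum_sq_nat (hf : HolSm f) :
    HasSum (fun n : ℕ => ‖fc (bd f) (n : ℤ)‖ ^ 2) (pavg fun θ => ‖bd f θ‖ ^ 2) := by
  have h := hasSum_sq_fc hf.cSm_bd.continuous
  refine (Function.Injective.hasSum_iff (g := fun n : ℕ => (n : ℤ)) Nat.cast_injective
    fun k hk => ?_).2 h
  rcases lt_or_ge k 0 with hk0 | hk0
  · rw [hf.fc_neg hk0]
    simp
  · exact absurd ⟨k.toNat, Int.toNat_of_nonneg hk0⟩ hk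

theorem HolSm.rapidN_dilate (hf : HolSm f) {s : ℝ} (h0 : 0 ≤ s) (h1 : s ≤ 1) :
    RapidN fun n : ℕ => (s : ℂ) ^ n * fc (bd f) (n : ℤ) := by
  intro N
  obtain ⟨C, hC⟩ := hf.rapidN N
  refine ⟨C, fun k => le_trans ?_ (hC k)⟩
  refine mul_le_mul_of_nonneg_left ?_ (by positivity)
  rw [norm_mul, norm_pow, Complex.norm_real, Real.norm_eq_abs, abs_of_nonneg h0]
  exact mul_le_of_le_one_left (norm_nonneg _) (pow_le_one₀ h0 h1)

theorem HolSm.bd_dilate_eq (hf : HolSm f) {s : ℝ} (h0 : 0 ≤ s) (h1 : s ≤ 1) :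
    bd (fun ζ => f (s * ζ)) = bd (psum fun n : ℕ => (s : ℂ) ^ n * fc (bd f) (n : ℤ)) := by
  funext θ
  have s1 := hf.hasSum (mul_circleMap_mem_closedBall h0 h1 θ)
  have s2 := (hf.rapidN_dilate h0 h1).hasSum_psum (circleMap_mem_closedBall θ)
  refine s1.unique ?_
  have e2 : (fun n : ℕ => fc (bd f) (n : ℤ) * ((s : ℂ) * circleMap 0 1 θ) ^ n) =
      fun n : ℕ => (s : ℂ) ^ n * fc (bd f) (n : ℤ) * circleMap 0 1 θ ^ n := by
    funext n
    rw [mul_pow]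
    ring
  rw [e2]
  exact s2

/-- Parseval on the circle of radius `s ≤ 1`. -/
theorem HolSm.hasSum_sq_dilate (hf : HolSm f) {s : ℝ} (h0 : 0 ≤ s) (h1 : s ≤ 1) :
    HasSum (fun n : ℕ => s ^ (2 * n) * ‖fc (bd f) (n : ℤ)‖ ^ 2)
      (pavg fun θ => ‖bd (fun ζ => f (s * ζ)) θ‖ ^ 2) := by
  have hr := hf.rapidN_dilate h0 h1
  have h := hr.holSm_psum.hasSum_sq_nat
  rw [← hf.bd_dilate_eq h0 h1] at h
  have e : (fun n : ℕ => ‖fc (bd fun ζ => f (s * ζ)) (n : ℤ)‖ ^ 2) =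
      fun n : ℕ => s ^ (2 * n) * ‖fc (bd f) (n : ℤ)‖ ^ 2 := by
    funext n
    rw [hf.bd_dilate_eq h0 h1, hr.fc_bd_psum_nat, norm_mul, norm_pow, Complex.norm_real,
      Real.norm_eq_abs, abs_of_nonneg h0, mul_pow, ← pow_mul, mul_comm n 2]
  rw [← e]
  exact h

theorem HolSm.fc_zero_eq (hf : HolSm f) : fc (bd f) 0 = f 0 := by
  rw [fc_zero_index, hf.center]

theorem HolSm.fc_one_eq (hf : HolSm f) : fc (bd f) 1 = deriv f 0 := by
  rw [hf.deriv_eq (by simp), dsm, psum_zero_arg]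
  simp

/-- the circle mean of `|f|²` on a smaller circle: the first two terms and a remainder. -/
theorem HolSm.pavg_sq_dilate_le (hf : HolSm f) {s : ℝ} (h0 : 0 ≤ s) (h1 : s ≤ 1) :
    pavg (fun θ => ‖bd (fun ζ => f (s * ζ)) θ‖ ^ 2) ≤
      ‖f 0‖ ^ 2 + s ^ 2 * ‖deriv f 0‖ ^ 2 + s ^ 4 * pavg fun θ => ‖bd f θ‖ ^ 2 := by
  have hs := hf.hasSum_sq_dilate h0 h1
  have hp := hf.hasSum_sq_nat
  rw [← hs.tsum_eq, ← hs.summable.sum_add_tsum_nat_add 2, Finset.sum_range_succ,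
    Finset.sum_range_one]
  have e0 : s ^ (2 * 0) * ‖fc (bd f) ((0 : ℕ) : ℤ)‖ ^ 2 = ‖f 0‖ ^ 2 := by
    simp [hf.fc_zero_eq]
  have e1 : s ^ (2 * 1) * ‖fc (bd f) ((1 : ℕ) : ℤ)‖ ^ 2 = s ^ 2 * ‖deriv f 0‖ ^ 2 := by
    simp [hf.fc_one_eq]
  rw [e0, e1]
  refine add_le_add le_rfl ?_
  have hle : ∀ n : ℕ, s ^ (2 * (n + 2)) * ‖fc (bd f) ((n + 2 : ℕ) : ℤ)‖ ^ 2 ≤
      s ^ 4 * ‖fc (bd f) ((n + 2 : ℕ) : ℤ)‖ ^ 2 := by
    intro n
    refine mul_le_mul_of_nonneg_right ?_ (sq_nonneg _)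
    exact pow_le_pow_of_le_one h0 h1 (by omega)
  have hs2 : Summable fun n : ℕ => ‖fc (bd f) ((n + 2 : ℕ) : ℤ)‖ ^ 2 :=
    (summable_nat_add_iff 2).2 hp.summable
  calc ∑' n : ℕ, s ^ (2 * (n + 2)) * ‖fc (bd f) ((n + 2 : ℕ) : ℤ)‖ ^ 2
      ≤ ∑' n : ℕ, s ^ 4 * ‖fc (bd f) ((n + 2 : ℕ) : ℤ)‖ ^ 2 :=
        Summable.tsum_le_tsum hle ((summable_nat_add_iff 2).2 hs.summable) (hs2.mul_left _)
    _ = s ^ 4 * ∑' n : ℕ, ‖fc (bd f) ((n + 2 : ℕ) : ℤ)‖ ^ 2 := tsum_mul_left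
    _ ≤ s ^ 4 * pavg fun θ => ‖bd f θ‖ ^ 2 := by
        refine mul_le_mul_of_nonneg_left ?_ (by positivity)
        rw [← hp.tsum_eq, ← hp.summable.sum_add_tsum_nat_add 2]
        have : 0 ≤ ∑ i ∈ Finset.range 2, ‖fc (bd f) ((i : ℕ) : ℤ)‖ ^ 2 :=
          Finset.sum_nonneg fun i _ => sq_nonneg _
        linarith

/-- the same for a function holomorphic in `B(0, r₀)` and two radii `r ≤ ρ < r₀`. -/
theorem pavg_sq_circle_le {h : ℂ → ℂ} {r₀ r ρ : ℝ} (hh : DifferentiableOn ℂ h (Metric.ball 0 r₀))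
    (h0 : 0 < r) (h1 : r ≤ ρ) (h2 : ρ < r₀) :
    pavg (fun φ => ‖h (circleMap 0 r φ)‖ ^ 2) ≤
      ‖h 0‖ ^ 2 + r ^ 2 * ‖deriv h 0‖ ^ 2 +
        (r / ρ) ^ 4 * pavg fun φ => ‖h (circleMap 0 ρ φ)‖ ^ 2 := by
  have hρ : 0 < ρ := h0.trans_le h1
  have hf : HolSm fun ζ => h (ρ * ζ) := by
    refine HolSm.of_differentiableOn (r := r₀ / ρ) ((one_lt_div hρ).2 h2) ?_
    refine hh.comp ((differentiable_id.const_mul (ρ : ℂ)).differentiableOn) ?_
    intro ζ hζ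
    rw [mem_ball_zero_iff] at hζ ⊢
    rw [norm_mul, Complex.norm_real, Real.norm_eq_abs, abs_of_pos hρ]
    rwa [lt_div_iff₀' hρ] at hζ
  have key := hf.pavg_sq_dilate_le (s := r / ρ) (by positivity) ((div_le_one hρ).2 h1)
  have e1 : (fun θ => ‖bd (fun ζ => (fun ζ => h (ρ * ζ)) ((r / ρ : ℝ) * ζ)) θ‖ ^ 2) =
      fun φ => ‖h (circleMap 0 r φ)‖ ^ 2 := by
    funext θ
    simp only [bd]
    congr 3
    rw [circleMap_zero_eq r, ← ech_one]
    push_cast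
    have : (ρ : ℂ) ≠ 0 := by exact_mod_cast hρ.ne'
    field_simp
  have e2 : (fun θ => ‖bd (fun ζ => h (ρ * ζ)) θ‖ ^ 2) =
      fun φ => ‖h (circleMap 0 ρ φ)‖ ^ 2 := by
    funext θ
    simp only [bd]
    rw [circleMap_zero_eq ρ, ← ech_one]
  have e3 : deriv (fun ζ => h (ρ * ζ)) 0 = ρ * deriv h 0 := by
    rw [deriv_comp_mul_left]
    simp
  rw [e1, e2, e3] at key
  refine key.trans (le_of_eq ?_)
  simp only [mul_zero, norm_mul, Complex.norm_real, Real.norm_eq_abs, abs_of_pos hρ]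
  field_simp

end parsevalDisc

section avgD

variable {x : ℂ → ℝ → ℂ} {r₀ : ℝ}

theorem circleMap_mem_ball_of_lt {r : ℝ} (h0 : 0 ≤ r) (h1 : r < r₀) (φ : ℝ) :
    circleMap 0 r φ ∈ Metric.ball (0 : ℂ) r₀ := by
  rw [mem_ball_zero_iff, norm_circleMap_zero', abs_of_nonneg h0]
  exact h1

theorem HolFam.continuous_fc_circle (hx : HolFam x r₀) {r : ℝ} (h0 : 0 ≤ r) (h1 : r < r₀) (k : ℤ) :
    Continuous fun φ => fc (x (circleMap 0 r φ)) k :=
  (hx.differentiableOn_fc k).continuousOn.comp_continuous (continuous_circleMap 0 r)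
    (circleMap_mem_ball_of_lt h0 h1)

/-- finite sums of the circle means. -/
theorem HolFam.sum_pavg_le (hx : HolFam x r₀) {M : ℝ}
    (hlip : ∀ z ∈ Metric.ball (0 : ℂ) r₀, CLip (x z))
    (hlip0 : CLip fun θ => deriv (fun y => x y θ) 0)
    (hM : ∀ z ∈ Metric.ball (0 : ℂ) r₀, hsq (x z) ≤ M) {r ρ : ℝ} (h0 : 0 < r) (h1 : r ≤ ρ)
    (h2 : ρ < r₀) (S : Finset ℤ) :
    ∑ k ∈ S, pavg (fun φ => |(k : ℝ)| * ‖fc (x (circleMap 0 r φ)) k‖ ^ 2) ≤
      hsq (x 0) + r ^ 2 * hsq (fun θ => deriv (fun y => x y θ) 0) + (r / ρ) ^ 4 * M := by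
  have hρ : 0 < ρ := h0.trans_le h1
  have hz0 : (0 : ℂ) ∈ Metric.ball (0 : ℂ) r₀ := by simpa using hρ.trans h2
  have hc : ∀ k : ℤ, Continuous fun φ => |(k : ℝ)| * ‖fc (x (circleMap 0 ρ φ)) k‖ ^ 2 := fun k =>
    continuous_const.mul ((hx.continuous_fc_circle hρ.le h2 k).norm.pow 2)
  have s1 : ∀ k ∈ S, pavg (fun φ => |(k : ℝ)| * ‖fc (x (circleMap 0 r φ)) k‖ ^ 2) ≤
      |(k : ℝ)| * ‖fc (x 0) k‖ ^ 2 +
        r ^ 2 * (|(k : ℝ)| * ‖fc (fun θ => deriv (fun y => x y θ) 0) k‖ ^ 2) +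
        (r / ρ) ^ 4 * pavg (fun φ => |(k : ℝ)| * ‖fc (x (circleMap 0 ρ φ)) k‖ ^ 2) := by
    intro k _
    have := pavg_sq_circle_le (hx.differentiableOn_fc k) h0 h1 h2
    rw [hx.deriv_fc hz0] at this
    rw [pavg_const_mul_real, pavg_const_mul_real]
    have h3 := mul_le_mul_of_nonneg_left this (abs_nonneg (k : ℝ))
    refine h3.trans (le_of_eq ?_)
    ring
  refine (Finset.sum_le_sum s1).trans ?_
  rw [Finset.sum_add_distrib, Finset.sum_add_distrib, ← Finset.mul_sum, ← Finset.mul_sum]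
  have t1 : ∑ k ∈ S, |(k : ℝ)| * ‖fc (x 0) k‖ ^ 2 ≤ hsq (x 0) :=
    (hlip 0 hz0).summable_hsq.sum_le_tsum S fun k _ => by positivity
  have t2 : ∑ k ∈ S, |(k : ℝ)| * ‖fc (fun θ => deriv (fun y => x y θ) 0) k‖ ^ 2 ≤
      hsq (fun θ => deriv (fun y => x y θ) 0) :=
    hlip0.summable_hsq.sum_le_tsum S fun k _ => by positivity
  have t3 : ∑ k ∈ S, pavg (fun φ => |(k : ℝ)| * ‖fc (x (circleMap 0 ρ φ)) k‖ ^ 2) ≤ M := by
    rw [← pavg_sum S (fun k φ => |(k : ℝ)| * ‖fc (x (circleMap 0 ρ φ)) k‖ ^ 2) fun k _ => hc k]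
    refine pavg_le_of_le (continuous_finsetSum S fun k _ => hc k) fun φ => ?_
    have hz := circleMap_mem_ball_of_lt hρ.le h2 φ
    exact ((hlip _ hz).summable_hsq.sum_le_tsum S fun k _ => by positivity).trans (hM _ hz)
  have p1 : 0 ≤ r ^ 2 := by positivity
  have p2 : 0 ≤ (r / ρ) ^ 4 := by positivity
  have := mul_le_mul_of_nonneg_left t2 p1
  have := mul_le_mul_of_nonneg_left t3 p2
  linarith

/-- **Parseval in `z`**: the circle mean in `z` of `D(x_z)²`. -/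
theorem HolFam.pavg_hsq_le (hx : HolFam x r₀) (hr : 0 < r₀) {M : ℝ}
    (hlip : ∀ z ∈ Metric.ball (0 : ℂ) r₀, CLip (x z))
    (hlip0 : CLip fun θ => deriv (fun y => x y θ) 0)
    (hM : ∀ z ∈ Metric.ball (0 : ℂ) r₀, hsq (x z) ≤ M) {r : ℝ} (h0 : 0 < r) (h1 : r ≤ r₀ / 2) :
    IntervalIntegrable (fun φ => hsq (x (circleMap 0 r φ))) volume 0 (2 * π) ∧
    pavg (fun φ => hsq (x (circleMap 0 r φ))) ≤
      hsq (x 0) + r ^ 2 * hsq (fun θ => deriv (fun y => x y θ) 0) + 2 * M * r ^ 4 / r₀ ^ 4 := by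
  have hrr : r < r₀ := by linarith
  have hz0 : (0 : ℂ) ∈ Metric.ball (0 : ℂ) r₀ := by simpa using hr
  have hM0 : 0 ≤ M := (hsq_nonneg _).trans (hM 0 hz0)
  set F : ℤ → ℝ → ℝ := fun k φ => |(k : ℝ)| * ‖fc (x (circleMap 0 r φ)) k‖ ^ 2 with hF
  have hFc : ∀ k, Continuous (F k) := fun k =>
    continuous_const.mul ((hx.continuous_fc_circle h0.le hrr k).norm.pow 2)
  have hF0 : ∀ k φ, 0 ≤ F k φ := fun k φ => by positivity
  have hsum : ∀ φ, HasSum (fun k => F k φ) (hsq (x (circleMap 0 r φ))) := fun φ =>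
    (hlip _ (circleMap_mem_ball_of_lt h0.le hrr φ)).summable_hsq.hasSum
  have hmeas : Measurable fun φ => hsq (x (circleMap 0 r φ)) := by
    refine measurable_of_tendsto_metrizable' (Filter.atTop : Filter (Finset ℤ))
      (f := fun S φ => ∑ k ∈ S, F k φ) (fun S => ?_) ?_
    · exact (continuous_finsetSum S fun k _ => hFc k).measurable
    · rw [tendsto_pi_nhds]
      exact fun φ => hsum φ
  have hint : IntervalIntegrable (fun φ => hsq (x (circleMap 0 r φ))) volume 0 (2 * π) := by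
    rw [intervalIntegrable_iff]
    refine Measure.integrableOn_of_bounded (M := M) (by
      rw [Set.uIoc_of_le two_pi_pos'.le]
      exact measure_Ioc_lt_top.ne) hmeas.aestronglyMeasurable ?_
    refine Filter.Eventually.of_forall fun φ => ?_
    rw [Real.norm_eq_abs, abs_of_nonneg (hsq_nonneg _)]
    exact hM _ (circleMap_mem_ball_of_lt h0.le hrr φ)
  refine ⟨hint, ?_⟩
  set B : ℝ := hsq (x 0) + r ^ 2 * hsq (fun θ => deriv (fun y => x y θ) 0) +
    (r / (9 / 10 * r₀)) ^ 4 * M with hB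
  have hfin : ∀ S : Finset ℤ, ∑ k ∈ S, pavg (F k) ≤ B := fun S =>
    hx.sum_pavg_le hlip hlip0 hM h0 (by linarith) (by linarith) S
  have hBle : B ≤ hsq (x 0) + r ^ 2 * hsq (fun θ => deriv (fun y => x y θ) 0) +
      2 * M * r ^ 4 / r₀ ^ 4 := by
    rw [hB]
    refine add_le_add le_rfl ?_
    rw [div_pow, mul_pow]
    have h3 : 0 < r₀ ^ 4 := by positivity
    rw [div_mul_eq_mul_div, div_le_div_iff₀ (by positivity) h3]
    have h4 : 0 ≤ r ^ 4 * M * r₀ ^ 4 := by positivity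
    nlinarith
  refine le_trans ?_ hBle
  -- exchange of the sum and the mean
  have hsI : Summable fun k => ∫ φ in Set.Ioc (0 : ℝ) (2 * π), ‖F k φ‖ := by
    refine summable_of_sum_le (c := 2 * π * B) (fun k => integral_nonneg fun φ => norm_nonneg _)
      fun S => ?_
    have e1 : ∀ k, ∫ φ in Set.Ioc (0 : ℝ) (2 * π), ‖F k φ‖ = 2 * π * pavg (F k) := by
      intro k
      unfold pavg
      rw [intervalIntegral.integral_of_le two_pi_pos'.le, smul_eq_mul, ← mul_assoc,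
        mul_inv_cancel₀ two_pi_pos'.ne', one_mul]
      exact integral_congr_ae (Filter.Eventually.of_forall fun φ => by
        simp only [Real.norm_eq_abs, abs_of_nonneg (hF0 k φ)])
    simp only [e1]
    rw [← Finset.mul_sum]
    exact mul_le_mul_of_nonneg_left (hfin S) two_pi_pos'.le
  have hHS := hasSum_integral_of_summable_integral_norm (μ := volume.restrict (Set.Ioc (0 : ℝ) (2 * π)))
    (F := F) (fun k => (hFc k).integrableOn_Ioc) hsI
  have e2 : (fun φ => ∑' k, F k φ) = fun φ => hsq (x (circleMap 0 r φ)) := by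
    funext φ
    exact (hsum φ).tsum_eq
  rw [e2] at hHS
  have hHS2 : HasSum (fun k => pavg (F k)) (pavg fun φ => hsq (x (circleMap 0 r φ))) := by
    unfold pavg
    simp only [intervalIntegral.integral_of_le two_pi_pos'.le, smul_eq_mul]
    exact hHS.mul_left _
  exact hasSum_le_of_sum_le hHS2 hfin

end avgD

section meanValue

/-- `∂F/∂ζ` of a function on `ℂ`. -/
noncomputable def dzC (F : ℂ → ℂ) (z : ℂ) : ℂ :=
  (1 / 2 : ℂ) * (fderiv ℝ F z 1 - Complex.I * fderiv ℝ F z Complex.I)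

theorem fderiv_ofReal_comp' (Φ : ℂ → ℝ) (y : ℂ) :
    fderiv ℝ (fun x => (Φ x : ℂ)) y = Complex.ofRealCLM.comp (fderiv ℝ Φ y) := by
  by_cases h : DifferentiableAt ℝ Φ y
  · exact (Complex.ofRealCLM.hasFDerivAt.comp y h.hasFDerivAt).fderiv
  · have h2 : ¬ DifferentiableAt ℝ (fun x => (Φ x : ℂ)) y := by
      intro h3
      apply h
      have := Complex.reCLM.differentiableAt.comp y h3
      exact this
    rw [fderiv_zero_of_not_differentiableAt h, fderiv_zero_of_not_differentiableAt h2]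
    simp

theorem dzC_ofReal (Φ : ℂ → ℝ) :
    dzC (fun x => (Φ x : ℂ)) = fun y => (1 / 2 : ℂ) *
      (((fderiv ℝ Φ y 1 : ℝ) : ℂ) - Complex.I * ((fderiv ℝ Φ y Complex.I : ℝ) : ℂ)) := by
  funext y
  unfold dzC
  rw [fderiv_ofReal_comp']
  rfl

/-- `Re ∂̄∂Φ = Δ Φ / 4`. -/
theorem re_dbarC_dzC {Φ : ℂ → ℝ} {z : ℂ} (h : DifferentiableAt ℝ (fderiv ℝ Φ) z) :
    (dbarC (dzC fun x => (Φ x : ℂ)) z).re = Laplacian.laplacian Φ z / 4 := by
  rw [ls_laplacian_eq, dzC_ofReal]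
  set H := fderiv ℝ (fderiv ℝ Φ) z with hH
  have hD : HasFDerivAt (fderiv ℝ Φ) H z := h.hasFDerivAt
  have h1 : ∀ v : ℂ, HasFDerivAt (fun y => ((fderiv ℝ Φ y v : ℝ) : ℂ))
      (Complex.ofRealCLM.comp ((ContinuousLinearMap.apply ℝ ℝ v).comp H)) z := fun v =>
    Complex.ofRealCLM.hasFDerivAt.comp z ((ContinuousLinearMap.apply ℝ ℝ v).hasFDerivAt.comp z hD)
  have h2 : HasFDerivAt (fun y => (1 / 2 : ℂ) *
      (((fderiv ℝ Φ y 1 : ℝ) : ℂ) - Complex.I * ((fderiv ℝ Φ y Complex.I : ℝ) : ℂ)))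
      ((1 / 2 : ℂ) • (Complex.ofRealCLM.comp ((ContinuousLinearMap.apply ℝ ℝ (1 : ℂ)).comp H) -
        Complex.I • Complex.ofRealCLM.comp ((ContinuousLinearMap.apply ℝ ℝ Complex.I).comp H))) z :=
    ((h1 1).sub ((h1 Complex.I).const_mul Complex.I)).const_mul (1 / 2 : ℂ)
  unfold dbarC
  rw [h2.fderiv]
  simp
  ring

theorem laplacian_normSq (z : ℂ) : Laplacian.laplacian (fun x : ℂ => ‖x‖ ^ 2) z = 4 := by
  have e : fderiv ℝ (fun x : ℂ => ‖x‖ ^ 2) = ⇑((2 : ℝ) • (innerSL ℝ (E := ℂ))) := by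
    funext x
    rw [fderiv_norm_sq_apply]
    ext v
    simp
    ring
  rw [ls_laplacian_eq, e, ContinuousLinearMap.fderiv]
  simp only [smul_apply, smul_eq_mul]
  have i1 : (innerSL ℝ (1 : ℂ)) (1 : ℂ) = 1 := by
    rw [innerSL_apply_apply]
    simp
  have i2 : (innerSL ℝ Complex.I) Complex.I = 1 := by
    rw [innerSL_apply_apply]
    simp
  rw [i1, i2]
  norm_num

theorem laplacian_comp_smul {Φ : ℂ → ℝ} {r : ℝ} {ζ : ℂ}
    (h : DifferentiableAt ℝ (fderiv ℝ Φ) (r • ζ)) :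
    Laplacian.laplacian (fun η => Φ (r • η)) ζ = r ^ 2 * Laplacian.laplacian Φ (r • ζ) := by
  rw [ls_laplacian_eq, ls_laplacian_eq]
  have e1 : fderiv ℝ (fun η => Φ (r • η)) = fun η => r • fderiv ℝ Φ (r • η) := by
    funext η
    exact fderiv_comp_smul r
  have h2 : DifferentiableAt ℝ (fun η : ℂ => fderiv ℝ Φ (r • η)) ζ :=
    DifferentiableAt.comp ζ h (differentiableAt_id.const_smul r)
  rw [e1, fderiv_fun_const_smul h2, fderiv_comp_smul]
  simp
  ring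

/-- mean value inequality: `Re ∂̄∂Φ ≤ Λ` on `B(0, r₀)` implies `avg_{|z| = r} Φ ≤ Φ(0) + Λ r²`. -/
theorem pavg_le_of_lap_le {Φ : ℂ → ℝ} {r₀ Λ : ℝ}
    (hΦ : ContDiffOn ℝ 2 Φ (Metric.ball 0 r₀))
    (hΛ : ∀ z ∈ Metric.ball (0 : ℂ) r₀, (dbarC (dzC fun x => (Φ x : ℂ)) z).re ≤ Λ)
    {r : ℝ} (h0 : 0 < r) (h1 : r < r₀) :
    pavg (fun θ => Φ (circleMap 0 r θ)) ≤ Φ 0 + Λ * r ^ 2 := by
  have hmem : ∀ ζ ∈ Metric.ball (0 : ℂ) (r₀ / r), r • ζ ∈ Metric.ball (0 : ℂ) r₀ := by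
    intro ζ hζ
    rw [mem_ball_zero_iff] at hζ ⊢
    rw [norm_smul, Real.norm_eq_abs, abs_of_pos h0]
    rwa [lt_div_iff₀' h0] at hζ
  have hat : ∀ z ∈ Metric.ball (0 : ℂ) r₀, ContDiffAt ℝ 2 Φ z := fun z hz =>
    hΦ.contDiffAt (Metric.isOpen_ball.mem_nhds hz)
  have hdd : ∀ z ∈ Metric.ball (0 : ℂ) r₀, DifferentiableAt ℝ (fderiv ℝ Φ) z := fun z hz =>
    ((hat z hz).fderiv_right (m := 1) (by norm_num)).differentiableAt one_ne_zero
  have hu : ∀ ζ ∈ Metric.ball (0 : ℂ) (r₀ / r), ContDiffAt ℝ 2 (fun η : ℂ => Φ (r • η)) ζ :=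
    fun ζ hζ => ContDiffAt.comp ζ (hat _ (hmem ζ hζ)) (contDiffAt_id.const_smul r)
  have hq : ∀ ζ : ℂ, ContDiffAt ℝ 2 ((Λ * r ^ 2) • fun x : ℂ => ‖x‖ ^ 2) ζ := fun ζ =>
    ContDiffAt.const_smul (Λ * r ^ 2) ((contDiff_norm_sq ℝ).contDiffAt)
  have key := submean_of_laplacian_nonneg
    (g := ((Λ * r ^ 2) • fun x : ℂ => ‖x‖ ^ 2) - fun η : ℂ => Φ (r • η))
    (Ω := Metric.ball (0 : ℂ) (r₀ / r)) Metric.isOpen_ball
    (fun ζ hζ => ((hq ζ).sub (hu ζ hζ)).contDiffWithinAt)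
    (Metric.closedBall_subset_ball ((one_lt_div h0).2 h1))
    (fun ζ hζ => by
      rw [(hq ζ).laplacian_sub (hu ζ hζ),
        InnerProductSpace.laplacian_smul _ (contDiff_norm_sq ℝ).contDiffAt, laplacian_normSq,
        laplacian_comp_smul (hdd _ (hmem ζ hζ))]
      have h3 := hΛ _ (hmem ζ hζ)
      rw [re_dbarC_dzC (hdd _ (hmem ζ hζ))] at h3
      have h4 : 0 ≤ r ^ 2 := by positivity
      simp only [smul_eq_mul]
      nlinarith)
  have hc : Continuous fun θ : ℝ => Φ (circleMap 0 r θ) :=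
    hΦ.continuousOn.comp_continuous (continuous_circleMap 0 r) fun θ => by
      rw [mem_ball_zero_iff, norm_circleMap_zero', abs_of_pos h0]
      exact h1
  have e1 : ∀ θ : ℝ, (((Λ * r ^ 2) • fun x : ℂ => ‖x‖ ^ 2) - fun η : ℂ => Φ (r • η))
      (Complex.exp ((θ : ℂ) * Complex.I)) = Λ * r ^ 2 - Φ (circleMap 0 r θ) := by
    intro θ
    simp only [Pi.sub_apply, Pi.smul_apply, smul_eq_mul, Complex.norm_exp_ofReal_mul_I, one_pow,
      mul_one, circleMap_zero, Complex.real_smul]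
  simp only [e1] at key
  rw [intervalIntegral.integral_sub intervalIntegrable_const (hc.intervalIntegrable _ _),
    intervalIntegral.integral_const, mul_sub] at key
  simp only [Pi.sub_apply, Pi.smul_apply, smul_eq_mul, norm_zero, smul_zero, sub_zero] at key
  unfold pavg
  rw [smul_eq_mul]
  have e2 : (2 * π)⁻¹ * (2 * π * (Λ * r ^ 2)) = Λ * r ^ 2 := by
    have := two_pi_pos'
    field_simp
  rw [e2] at key
  have e3 : (0 : ℝ) ^ 2 = 0 := by norm_num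
  rw [e3, mul_zero, zero_sub] at key
  linarith

end meanValue

end Claimed.Agent.R316.B14
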