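import Claimed.Agent.R316.B14.DiscB

/-!
# B14, leaf A: area integrals on the unit disc.  Area formula for `D`, Stokes, Bessel for the
monomials, and the normalised solution of `∂̄` (replaces [GT, Thm 9.15, Lemma 9.17, Thm 8.13] and the
trace estimate in the proof of Lemma disc-deformation)

## Mathematics

* `hsq_eq_area`: `f = ∑ c_n ζ^n`, `∫_Δ |f'|² = ∫_0^1 2π r ∑ n² |c_n|² r^{2n-2} dr = π ∑ n |c_n|²`
  (polar coordinates, Parseval `hasSum_sq_fc` on each circle applied to `θ ↦ dsm f (r e^{iθ})`, whose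
  coefficients are `(n+1) c_{n+1} r^n`; exchange `∑`/`∫_0^1` by `hasSum_integral_of_summable_norm`
  or monotone convergence; all series converge normally since `c` is rapidly decreasing).
* `stokes_disc`: `I(r) = ∫_0^{2π} F(r e^{iθ}) r e^{iθ} dθ`.  Then
  `I'(r) = ∫ 2 r ∂̄F(r e^{iθ}) dθ` because
  `∂_θ (F(r e^{iθ}) e^{iθ}) = (∂_θ F) e^{iθ} + i F e^{iθ}` integrates to `0` and
  `∂̄ = (e^{iθ}/2)(∂_r + (i/r) ∂_θ)`.  FTC on `[0,1]`, `I(0) = 0`, then polar coordinates.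
  (differentiation under the integral: `intervalIntegral.hasDerivAt_integral_of_dominated_loc_of_deriv_le`
  or `hasDerivAt_integral_of_contDiff`-type lemmas.)
* `fc_neg_eq_integral`: Stokes for `F ζ^n`.
* `bessel_disc`: `∫_Δ ζ^n conj ζ^m = δ_{nm} π/(n+1)` (polar), then the usual finite Bessel inequality
  `0 ≤ ∫ |b - ∑_{n<N} λ_n conj ζ^n|²`, `λ_n = (n+1) β_n`, `β_n = π⁻¹ ∫ b ζ^n`.
* `dbar_normalize`: `Q - szego (bd Q)` has on the circle only the frequencies `-(n+1)`, `n ≥ 0`, with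
  coefficients `β_n = π⁻¹ ∫_Δ ∂̄Q ζ^n`; so `L²`-norm² `= ∑ |β_n|²` and `D² = ∑ (n+1) |β_n|²`, both
  `≤ π⁻¹ ∫_Δ |∂̄Q|²` by Bessel.
-/

set_option autoImplicit false
set_option linter.unusedSectionVars false
open scoped ContDiff ComplexOrder ComplexConjugate Matrix Real
open MeasureTheory

namespace Claimed.Agent.R316.B14

section stokes

variable {F : ℂ → ℂ} {R : ℝ}

/-- **Stokes on the disc**: `(2πi)⁻¹ ∮ F dζ = π⁻¹ ∫_Δ ∂̄F dA`. -/
theorem stokes_disc (hR : 1 < R) (hF : ContDiffOn ℝ 1 F (Metric.ball 0 R)) :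
    pavg (fun θ => ech 1 θ * bd F θ) = (π : ℂ)⁻¹ * ∫ z in Metric.ball (0 : ℂ) 1, dbarC F z :=
  stokes_closed (hF.mono (Metric.closedBall_subset_ball hR))

/-- negative Fourier coefficients of the boundary function through `∂̄F` (closed disc form). -/
theorem fc_neg_eq_integral_closed (hF : ContDiffOn ℝ 1 F (Metric.closedBall 0 1)) (n : ℕ) :
    fc (bd F) (-((n : ℤ) + 1)) = (π : ℂ)⁻¹ * ∫ z in Metric.ball (0 : ℂ) 1, dbarC F z * z ^ n := by
  have hG : ContDiffOn ℝ 1 (fun z => F z * z ^ n) (Metric.closedBall 0 1) :=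
    hF.mul (contDiff_id.pow n).contDiffOn
  have hS := stokes_closed hG
  have e1 : ∀ z ∈ Metric.ball (0 : ℂ) 1, dbarC (fun z => F z * z ^ n) z = dbarC F z * z ^ n := by
    intro z hz
    have h1 : DifferentiableAt ℝ F z := (hasFDerivAt_of_mem_ball hF hz).differentiableAt
    have h2 : DifferentiableAt ℂ (fun w : ℂ => w ^ n) z := (differentiableAt_id).pow n
    rw [dbarC_mul h1 (h2.restrictScalars ℝ), dbarC_eq_zero_of_differentiableAt h2, mul_zero,
      add_zero]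
  rw [setIntegral_congr_fun measurableSet_ball e1] at hS
  rw [← hS]
  unfold fc
  congr 1
  funext θ
  rw [neg_neg, add_comm, ech_add, ech_natCast]
  simp only [bd]
  ring

/-- negative Fourier coefficients of the boundary function through `∂̄F`. -/
theorem fc_neg_eq_integral (hR : 1 < R) (hF : ContDiffOn ℝ 1 F (Metric.ball 0 R)) (n : ℕ) :
    fc (bd F) (-((n : ℤ) + 1)) = (π : ℂ)⁻¹ * ∫ z in Metric.ball (0 : ℂ) 1, dbarC F z * z ^ n :=
  fc_neg_eq_integral_closed (hF.mono (Metric.closedBall_subset_ball hR)) n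

end stokes

section bessel

/-- the restriction of Lebesgue measure to the unit disc. -/
noncomputable abbrev muD : Measure ℂ := volume.restrict (Metric.ball (0 : ℂ) 1)

instance : IsFiniteMeasure muD := ⟨by
  rw [Measure.restrict_apply_univ]
  exact measure_ball_lt_top⟩

theorem memLp_two_of_continuousOn {b : ℂ → ℂ} (hb : ContinuousOn b (Metric.closedBall (0 : ℂ) 1)) :
    MemLp b 2 muD := by
  obtain ⟨C, hC⟩ := (isCompact_closedBall (0 : ℂ) 1).exists_bound_of_continuousOn hb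
  refine MemLp.of_bound ((hb.mono Metric.ball_subset_closedBall).aestronglyMeasurable
    measurableSet_ball) C ?_
  exact (ae_restrict_iff' measurableSet_ball).2
    (Filter.Eventually.of_forall fun z hz => hC z (Metric.ball_subset_closedBall hz))

theorem inner_toLp_eq {f g : ℂ → ℂ} (hf : MemLp f 2 muD) (hg : MemLp g 2 muD) :
    inner ℂ (hf.toLp f) (hg.toLp g) = ∫ z in Metric.ball (0 : ℂ) 1, g z * conj (f z) := by
  rw [L2.inner_def]
  refine integral_congr_ae ?_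
  filter_upwards [hf.coeFn_toLp, hg.coeFn_toLp] with z h1 h2
  rw [h1, h2, RCLike.inner_apply]

/-- the normalised anti-holomorphic monomials. -/
noncomputable def amon (n : ℕ) (z : ℂ) : ℂ := ((Real.sqrt (((n : ℝ) + 1) / π) : ℝ) : ℂ) * conj (z ^ n)

theorem continuous_amon (n : ℕ) : Continuous (amon n) := by
  unfold amon
  exact continuous_const.mul (Complex.continuous_conj.comp (continuous_id.pow n))

theorem memLp_amon (n : ℕ) : MemLp (amon n) 2 muD :=
  memLp_two_of_continuousOn (continuous_amon n).continuousOn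

theorem orthonormal_amon : Orthonormal ℂ fun n : ℕ => (memLp_amon n).toLp (amon n) := by
  rw [orthonormal_iff_ite]
  intro i j
  rw [inner_toLp_eq]
  have e1 : ∀ z : ℂ, amon j z * conj (amon i z) =
      (((Real.sqrt (((j : ℝ) + 1) / π) * Real.sqrt (((i : ℝ) + 1) / π) : ℝ)) : ℂ) *
        (z ^ i * conj (z ^ j)) := by
    intro z
    unfold amon
    simp only [map_mul, Complex.conj_ofReal, Complex.conj_conj]
    push_cast
    ring
  simp only [e1]
  rw [integral_const_mul, integral_ball_pow_mul_conj_pow]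
  split_ifs with h
  · subst h
    have hp : (0 : ℝ) ≤ ((i : ℝ) + 1) / π := by positivity
    rw [Real.mul_self_sqrt hp, ← Complex.ofReal_mul]
    have : ((i : ℝ) + 1) / π * (π / ((i : ℝ) + 1)) = 1 := by
      have := Real.pi_pos
      field_simp
    rw [this, Complex.ofReal_one]
  · rw [mul_zero]

/-- **Bessel inequality** for the anti-holomorphic monomials in `L²(Δ)`. -/
theorem bessel_disc {b : ℂ → ℂ} (hb : ContinuousOn b (Metric.closedBall (0 : ℂ) 1)) :
    Summable (fun n : ℕ =>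
      ((n : ℝ) + 1) * ‖(π : ℂ)⁻¹ * ∫ z in Metric.ball (0 : ℂ) 1, b z * z ^ n‖ ^ 2) ∧
    ∑' n : ℕ, ((n : ℝ) + 1) * ‖(π : ℂ)⁻¹ * ∫ z in Metric.ball (0 : ℂ) 1, b z * z ^ n‖ ^ 2 ≤
      π⁻¹ * ∫ z in Metric.ball (0 : ℂ) 1, ‖b z‖ ^ 2 := by
  have hB := memLp_two_of_continuousOn hb
  have h1 := orthonormal_amon.inner_products_summable (hB.toLp b)
  have h2 := orthonormal_amon.tsum_inner_products_le (hB.toLp b)
  have e1 : ∀ n : ℕ, ((n : ℝ) + 1) * ‖(π : ℂ)⁻¹ * ∫ z in Metric.ball (0 : ℂ) 1, b z * z ^ n‖ ^ 2 =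
      π⁻¹ * ‖inner ℂ ((memLp_amon n).toLp (amon n)) (hB.toLp b)‖ ^ 2 := by
    intro n
    rw [inner_toLp_eq]
    have e2 : ∀ z : ℂ, b z * conj (amon n z) =
        ((Real.sqrt (((n : ℝ) + 1) / π) : ℝ) : ℂ) * (b z * z ^ n) := by
      intro z
      unfold amon
      simp only [map_mul, Complex.conj_ofReal, Complex.conj_conj]
      ring
    simp only [e2]
    rw [integral_const_mul, norm_mul, norm_mul, mul_pow, mul_pow, Complex.norm_real, norm_inv,
      Complex.norm_real, Real.norm_eq_abs, Real.norm_eq_abs, sq_abs, abs_of_pos Real.pi_pos,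
      Real.sq_sqrt (by positivity)]
    have := Real.pi_pos
    field_simp
  have e3 : ‖hB.toLp b‖ ^ 2 = ∫ z in Metric.ball (0 : ℂ) 1, ‖b z‖ ^ 2 := by
    have h3 := inner_self_eq_norm_sq_to_K (𝕜 := ℂ) (hB.toLp b)
    rw [inner_toLp_eq] at h3
    have e4 : ∀ z : ℂ, b z * conj (b z) = ((‖b z‖ ^ 2 : ℝ) : ℂ) := by
      intro z
      rw [Complex.mul_conj, Complex.normSq_eq_norm_sq]
    simp only [e4] at h3
    have e5 : ∫ z in Metric.ball (0 : ℂ) 1, ((‖b z‖ ^ 2 : ℝ) : ℂ) =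
        ((∫ z in Metric.ball (0 : ℂ) 1, ‖b z‖ ^ 2 : ℝ) : ℂ) := integral_ofReal
    rw [e5] at h3
    apply Complex.ofReal_injective
    rw [Complex.ofReal_pow]
    exact h3.symm
  simp only [e1]
  refine ⟨h1.mul_left _, ?_⟩
  rw [tsum_mul_left, ← e3]
  exact mul_le_mul_of_nonneg_left h2 (by positivity)

end bessel

section normalize

variable {Q : ℂ → ℂ} {R : ℝ}

theorem cSm_bd_of_contDiffOn_closedBall (hQ : ContDiffOn ℝ ∞ Q (Metric.closedBall 0 1)) :
    CSm (bd Q) :=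
  ⟨bd_periodic Q, hQ.comp_contDiff (contDiff_circleMap 0 1) circleMap_mem_closedBall⟩

theorem tsum_neg_succ_eq (g : ℤ → ℝ) (hg : ∀ k : ℤ, 0 ≤ k → g k = 0) :
    ∑' n : ℕ, g (-((n : ℤ) + 1)) = ∑' k : ℤ, g k := by
  have hinj : Function.Injective (fun n : ℕ => -((n : ℤ) + 1)) := by
    intro a b h
    simpa using h
  refine hinj.tsum_eq ?_
  intro k hk
  have hk0 : k < 0 := by
    by_contra h
    exact hk (hg k (not_lt.1 h))
  refine ⟨(-k - 1).toNat, ?_⟩
  simp only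
  rw [Int.toNat_of_nonneg (by omega)]
  ring

/-- **normalised solution of `∂̄`**, closed disc form. -/
theorem dbar_normalize_closed (hQ : ContDiffOn ℝ ∞ Q (Metric.closedBall 0 1)) :
    HolSm (szego (bd Q)) ∧
    CSm (fun θ => bd Q θ - bd (szego (bd Q)) θ) ∧
    (∀ k : ℤ, 0 ≤ k → fc (fun θ => bd Q θ - bd (szego (bd Q)) θ) k = 0) ∧
    pavg (fun θ => ‖bd Q θ - bd (szego (bd Q)) θ‖ ^ 2) ≤
      π⁻¹ * ∫ z in Metric.ball (0 : ℂ) 1, ‖dbarC Q z‖ ^ 2 ∧
    hsq (fun θ => bd Q θ - bd (szego (bd Q)) θ) ≤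
      π⁻¹ * ∫ z in Metric.ball (0 : ℂ) 1, ‖dbarC Q z‖ ^ 2 := by
  have hq : CSm (bd Q) := cSm_bd_of_contDiffOn_closedBall hQ
  have hs : HolSm (szego (bd Q)) := holSm_szego hq
  have hd : CSm (fun θ => bd Q θ - bd (szego (bd Q)) θ) := hq.sub hs.cSm_bd
  have hfc : ∀ k : ℤ, fc (fun θ => bd Q θ - bd (szego (bd Q)) θ) k =
      if 0 ≤ k then 0 else fc (bd Q) k := by
    intro k
    rw [fc_sub hq.continuous hs.cSm_bd.continuous, fc_bd_szego hq]
    split_ifs <;> simp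
  have hQ1 : ContDiffOn ℝ 1 Q (Metric.closedBall 0 1) := hQ.of_le (by exact_mod_cast le_top)
  have hβ : ∀ n : ℕ, fc (fun θ => bd Q θ - bd (szego (bd Q)) θ) (-((n : ℤ) + 1)) =
      (π : ℂ)⁻¹ * ∫ z in Metric.ball (0 : ℂ) 1, dbarW Q z * z ^ n := by
    intro n
    rw [hfc, if_neg (by omega), fc_neg_eq_integral_closed hQ1]
    congr 1
    exact setIntegral_congr_fun measurableSet_ball fun z hz => by
      simp only [dbarW_eq_dbarC hz]
  obtain ⟨hsum, hle⟩ := bessel_disc (continuousOn_dbarW hQ1)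
  have hint : ∫ z in Metric.ball (0 : ℂ) 1, ‖dbarW Q z‖ ^ 2 =
      ∫ z in Metric.ball (0 : ℂ) 1, ‖dbarC Q z‖ ^ 2 :=
    setIntegral_congr_fun measurableSet_ball fun z hz => by
      simp only [dbarW_eq_dbarC hz]
  rw [hint] at hle
  refine ⟨hs, hd, fun k hk => by rw [hfc, if_pos hk], ?_, ?_⟩
  · rw [← (hasSum_sq_fc hd.continuous).tsum_eq,
      ← tsum_neg_succ_eq _ (fun k hk => by rw [hfc, if_pos hk]; simp)]
    simp only [hβ]
    refine le_trans ?_ hle
    have hcmp : ∀ n : ℕ, ‖(π : ℂ)⁻¹ * ∫ z in Metric.ball (0 : ℂ) 1, dbarW Q z * z ^ n‖ ^ 2 ≤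
        ((n : ℝ) + 1) * ‖(π : ℂ)⁻¹ * ∫ z in Metric.ball (0 : ℂ) 1, dbarW Q z * z ^ n‖ ^ 2 := by
      intro n
      have h1 : (1 : ℝ) ≤ (n : ℝ) + 1 := by
        have : (0 : ℝ) ≤ (n : ℝ) := Nat.cast_nonneg n
        linarith
      exact le_mul_of_one_le_left (sq_nonneg _) h1
    exact Summable.tsum_le_tsum hcmp
      (Summable.of_nonneg_of_le (fun n => sq_nonneg _) hcmp hsum) hsum
  · unfold hsq
    rw [← tsum_neg_succ_eq _ (fun k hk => by rw [hfc, if_pos hk]; simp)]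
    simp only [hβ]
    refine le_of_eq_of_le (tsum_congr fun n => ?_) hle
    congr 1
    push_cast
    rw [abs_neg]
    exact abs_of_nonneg (by positivity)

/-- **normalised solution of `∂̄`**.  If `Q` is smooth past the circle then
`Q' = Q - szego (bd Q)` (same `∂̄` in the open disc, since `szego (bd Q)` is `HolSm`) has boundary `L²` norm
and boundary `D` bounded by `π^{-1/2} ‖∂̄Q‖_{L²(Δ)}`. -/
theorem dbar_normalize (hR : 1 < R) (hQ : ContDiffOn ℝ ∞ Q (Metric.ball 0 R)) :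
    HolSm (szego (bd Q)) ∧
    CSm (fun θ => bd Q θ - bd (szego (bd Q)) θ) ∧
    (∀ k : ℤ, 0 ≤ k → fc (fun θ => bd Q θ - bd (szego (bd Q)) θ) k = 0) ∧
    pavg (fun θ => ‖bd Q θ - bd (szego (bd Q)) θ‖ ^ 2) ≤
      π⁻¹ * ∫ z in Metric.ball (0 : ℂ) 1, ‖dbarC Q z‖ ^ 2 ∧
    hsq (fun θ => bd Q θ - bd (szego (bd Q)) θ) ≤
      π⁻¹ * ∫ z in Metric.ball (0 : ℂ) 1, ‖dbarC Q z‖ ^ 2 :=
  dbar_normalize_closed (hQ.mono (Metric.closedBall_subset_ball hR))

end normalize

end Claimed.Agent.R316.B14
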