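import Claimed.Agent.R316.B14.HolSm

/-!
# B14, leaf A: area integrals on the unit disc.  Area formula for `D`, Stokes, Bessel for the
monomials, and the normalised solution of `∂̄` (replaces [GT, Thm 9.15, Lemma 9.17, Thm 8.13] and the
trace estimate in the proof of Lemma disc-deformation)

## Mathematics

* `hsq_eq_area`: `f = ∑ c_n ζ^n`, `∫_Δ |f'|² = ∫_0^1 2π r ∑ n² |c_n|² r^{2n-2} dr = π ∑ n |c_n|²`
  (polar coordinates, Parseval `hasSum_sq_fc` on each circle applied to `θ ↦ dsm f (r e^{iθ})`, whose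
  coefficients are `(n+1) c_{n+1} r^n`; exchange `∑`/`∫_0^1` by `hasSum_integral_of_summable_norm`
  or monotone convergence; all series converge normally since `c` is rapidly decreasing).
* `stokes_disc`: `I(r) = ∫_0^{2π} F(r e^{iθ}) r e^{iθ} dθ`.  Then
  `I'(r) = ∫ 2 r ∂̄F(r e^{iθ}) dθ` because
  `∂_θ (F(r e^{iθ}) e^{iθ}) = (∂_θ F) e^{iθ} + i F e^{iθ}` integrates to `0` and
  `∂̄ = (e^{iθ}/2)(∂_r + (i/r) ∂_θ)`.  FTC on `[0,1]`, `I(0) = 0`, then polar coordinates.
  (differentiation under the integral: `intervalIntegral.hasDerivAt_integral_of_dominated_loc_of_deriv_le`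
  or `hasDerivAt_integral_of_contDiff`-type lemmas.)
* `fc_neg_eq_integral`: Stokes for `F ζ^n`.
* `bessel_disc`: `∫_Δ ζ^n conj ζ^m = δ_{nm} π/(n+1)` (polar), then the usual finite Bessel inequality
  `0 ≤ ∫ |b - ∑_{n<N} λ_n conj ζ^n|²`, `λ_n = (n+1) β_n`, `β_n = π⁻¹ ∫ b ζ^n`.
* `dbar_normalize`: `Q - szego (bd Q)` has on the circle only the frequencies `-(n+1)`, `n ≥ 0`, with
  coefficients `β_n = π⁻¹ ∫_Δ ∂̄Q ζ^n`; so `L²`-norm² `= ∑ |β_n|²` and `D² = ∑ (n+1) |β_n|²`, both
  `≤ π⁻¹ ∫_Δ |∂̄Q|²` by Bessel.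
-/

set_option autoImplicit false
set_option linter.unusedSectionVars false
open scoped ContDiff ComplexOrder ComplexConjugate Matrix Real
open MeasureTheory

namespace Claimed.Agent.R316.B14

section dbarC

variable {F G : ℂ → ℂ} {z : ℂ}

theorem fderiv_real_apply_of_differentiableAt (h : DifferentiableAt ℂ F z) (v : ℂ) :
    fderiv ℝ F z v = v * deriv F z := by
  rw [h.fderiv_restrictScalars ℝ, ContinuousLinearMap.coe_restrictScalars']
  have : v = v • (1 : ℂ) := by simp
  conv_lhs => rw [this, map_smul]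
  rw [fderiv_apply_one_eq_deriv, smul_eq_mul]

theorem dbarC_eq_zero_of_differentiableAt (h : DifferentiableAt ℂ F z) : dbarC F z = 0 := by
  unfold dbarC
  rw [fderiv_real_apply_of_differentiableAt h, fderiv_real_apply_of_differentiableAt h]
  have := Complex.I_mul_I
  linear_combination (1 / 2 : ℂ) * deriv F z * this

theorem differentiableAt_of_dbarC_eq_zero (h : DifferentiableAt ℝ F z) (h0 : dbarC F z = 0) :
    DifferentiableAt ℂ F z := by
  refine differentiableAt_complex_iff_differentiableAt_real.2 ⟨h, ?_⟩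
  unfold dbarC at h0
  have h1 : fderiv ℝ F z 1 + Complex.I * fderiv ℝ F z Complex.I = 0 := by
    rcases mul_eq_zero.1 h0 with h2 | h2
    · norm_num at h2
    · exact h2
  rw [smul_eq_mul]
  have := Complex.I_mul_I
  linear_combination (-Complex.I) * h1 + (fderiv ℝ F z Complex.I) * this

theorem dbarC_add (hF : DifferentiableAt ℝ F z) (hG : DifferentiableAt ℝ G z) :
    dbarC (fun w => F w + G w) z = dbarC F z + dbarC G z := by
  unfold dbarC
  rw [fderiv_fun_add hF hG]
  simp only [add_apply]
  ring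

theorem dbarC_sub (hF : DifferentiableAt ℝ F z) (hG : DifferentiableAt ℝ G z) :
    dbarC (fun w => F w - G w) z = dbarC F z - dbarC G z := by
  unfold dbarC
  rw [fderiv_fun_sub hF hG]
  simp only [sub_apply]
  ring

theorem dbarC_mul (hF : DifferentiableAt ℝ F z) (hG : DifferentiableAt ℝ G z) :
    dbarC (fun w => F w * G w) z = dbarC F z * G z + F z * dbarC G z := by
  unfold dbarC
  rw [fderiv_fun_mul hF hG]
  simp only [add_apply, smul_apply, smul_eq_mul]
  ring

theorem dbarC_sum {α : Type} (s : Finset α) {f : α → ℂ → ℂ}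
    (hf : ∀ i ∈ s, DifferentiableAt ℝ (f i) z) :
    dbarC (fun w => ∑ i ∈ s, f i w) z = ∑ i ∈ s, dbarC (f i) z := by
  unfold dbarC
  rw [fderiv_fun_sum hf]
  simp only [sum_apply, Finset.mul_sum, ← Finset.sum_add_distrib, mul_add]

theorem dbarC_conj (h : DifferentiableAt ℂ F z) :
    dbarC (fun w => conj (F w)) z = conj (deriv F z) := by
  have h1 : HasFDerivAt (fun w => conj (F w))
      ((Complex.conjCLE : ℂ →L[ℝ] ℂ).comp (fderiv ℝ F z)) z :=
    (Complex.conjCLE : ℂ →L[ℝ] ℂ).hasFDerivAt.comp z (h.restrictScalars ℝ).hasFDerivAt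
  unfold dbarC
  rw [h1.fderiv]
  simp only [ContinuousLinearMap.comp_apply, ContinuousLinearEquiv.coe_coe, Complex.conjCLE_apply]
  rw [fderiv_real_apply_of_differentiableAt h, fderiv_real_apply_of_differentiableAt h, map_mul,
    map_mul, Complex.conj_I, map_one]
  have := Complex.I_mul_I
  linear_combination (-(1 / 2 : ℂ)) * conj (deriv F z) * this

theorem dbarC_congr (h : F =ᶠ[nhds z] G) : dbarC F z = dbarC G z := by
  unfold dbarC
  rw [h.fderiv_eq]

end dbarC

section polar

variable {E : Type} [NormedAddCommGroup E] [NormedSpace ℝ E]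

theorem integrableOn_ball_of_continuousOn {F : ℂ → E}
    (hF : ContinuousOn F (Metric.closedBall (0 : ℂ) 1)) : IntegrableOn F (Metric.ball (0 : ℂ) 1) :=
  (hF.integrableOn_compact (isCompact_closedBall 0 1)).mono_set Metric.ball_subset_closedBall

/-- a function which is continuous and bounded on the open disc is integrable. -/
theorem integrableOn_ball_of_bounded {F : ℂ → E} (hF : ContinuousOn F (Metric.ball (0 : ℂ) 1))
    {C : ℝ} (hC : ∀ z ∈ Metric.ball (0 : ℂ) 1, ‖F z‖ ≤ C) :
    IntegrableOn F (Metric.ball (0 : ℂ) 1) := by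
  have : IsFiniteMeasure (volume.restrict (Metric.ball (0 : ℂ) 1)) :=
    ⟨by rw [Measure.restrict_apply_univ]; exact measure_ball_lt_top⟩
  exact Integrable.of_bound (hF.aestronglyMeasurable measurableSet_ball) C
    ((ae_restrict_iff' measurableSet_ball).2 (Filter.Eventually.of_forall hC))

theorem polarCoord_symm_eq_circleMap (r θ : ℝ) :
    Complex.polarCoord.symm (r, θ) = circleMap 0 r θ := by
  rw [Complex.polarCoord_symm_apply, circleMap, Complex.exp_mul_I, Complex.ofReal_cos,
    Complex.ofReal_sin, zero_add]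

theorem continuous_circleMap_prod : Continuous fun p : ℝ × ℝ => circleMap 0 p.1 p.2 := by
  unfold circleMap
  fun_prop

theorem norm_circleMap_zero' (r θ : ℝ) : ‖circleMap 0 r θ‖ = |r| := by
  simp [circleMap]

theorem circleMap_mem_closedBall_of_mem {r : ℝ} (hr : r ∈ Set.Icc (0 : ℝ) 1) (θ : ℝ) :
    circleMap 0 r θ ∈ Metric.closedBall (0 : ℂ) 1 := by
  rw [mem_closedBall_zero_iff, norm_circleMap_zero', abs_of_nonneg hr.1]
  exact hr.2

theorem continuousOn_comp_circleMap {F : ℂ → E}
    (hF : ContinuousOn F (Metric.closedBall (0 : ℂ) 1)) :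
    ContinuousOn (fun p : ℝ × ℝ => F (circleMap 0 p.1 p.2)) (Set.Icc (0 : ℝ) 1 ×ˢ Set.univ) :=
  hF.comp continuous_circleMap_prod.continuousOn fun p hp =>
    circleMap_mem_closedBall_of_mem hp.1 p.2

theorem circleMap_periodic' (r : ℝ) : Function.Periodic (circleMap 0 r) (2 * π) :=
  periodic_circleMap 0 r

/-- polar coordinates on the unit disc. -/
theorem integral_ball_polar {F : ℂ → E} (hF : ContinuousOn F (Metric.closedBall (0 : ℂ) 1)) :
    ∫ z in Metric.ball (0 : ℂ) 1, F z =
      ∫ r in (0 : ℝ)..1, (2 * π * r) • pavg fun θ => F (circleMap 0 r θ) := by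
  have hΦc : ContinuousOn (fun p : ℝ × ℝ => p.1 • F (circleMap 0 p.1 p.2))
      (Set.Icc (0 : ℝ) 1 ×ˢ Set.univ) :=
    continuous_fst.continuousOn.smul (continuousOn_comp_circleMap hF)
  have hint : IntegrableOn (fun p : ℝ × ℝ => p.1 • F (circleMap 0 p.1 p.2))
      (Set.Ioo (0 : ℝ) 1 ×ˢ Set.Ioo (-π) π) (volume.prod volume) := by
    have h1 : IntegrableOn (fun p : ℝ × ℝ => p.1 • F (circleMap 0 p.1 p.2))
        (Set.Icc (0 : ℝ) 1 ×ˢ Set.Icc (-π) π) (volume.prod volume) :=
      (hΦc.mono (Set.prod_mono le_rfl (Set.subset_univ _))).integrableOn_compact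
        (isCompact_Icc.prod isCompact_Icc)
    exact h1.mono_set (Set.prod_mono Set.Ioo_subset_Icc_self Set.Ioo_subset_Icc_self)
  rw [← integral_indicator measurableSet_ball, ← Complex.integral_comp_polarCoord_symm]
  have h3 : ∀ p ∈ polarCoord.target,
      p.1 • (Metric.ball (0 : ℂ) 1).indicator F (Complex.polarCoord.symm p) =
      (Set.Iio (1 : ℝ) ×ˢ (Set.univ : Set ℝ)).indicator
        (fun p : ℝ × ℝ => p.1 • F (circleMap 0 p.1 p.2)) p := by
    rintro ⟨r, θ⟩ hp
    rw [polarCoord_target] at hp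
    have hr : 0 < r := hp.1
    rw [polarCoord_symm_eq_circleMap]
    by_cases h1 : r < 1
    · rw [Set.indicator_of_mem, Set.indicator_of_mem]
      · exact ⟨h1, Set.mem_univ _⟩
      · rw [mem_ball_zero_iff, norm_circleMap_zero', abs_of_pos hr]
        exact h1
    · rw [Set.indicator_of_notMem, Set.indicator_of_notMem, smul_zero]
      · exact fun h => h1 h.1
      · rw [mem_ball_zero_iff, norm_circleMap_zero', abs_of_pos hr]
        exact h1
  rw [setIntegral_congr_fun polarCoord.open_target.measurableSet h3,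
    setIntegral_indicator (measurableSet_Iio.prod MeasurableSet.univ), polarCoord_target,
    Set.prod_inter_prod, Set.inter_univ, Set.Ioi_inter_Iio, Measure.volume_eq_prod,
    setIntegral_prod _ hint, intervalIntegral.integral_of_le zero_le_one,
    integral_Ioc_eq_integral_Ioo]
  refine setIntegral_congr_fun measurableSet_Ioo fun r _ => ?_
  have hper : Function.Periodic (fun θ => F (circleMap 0 r θ)) (2 * π) := fun θ => by
    simp only [circleMap_periodic' r θ]
  simp only
  rw [pavg_eq_integral hper (-π), ← integral_Ioc_eq_integral_Ioo,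
    ← intervalIntegral.integral_of_le (by linarith [Real.pi_pos]), intervalIntegral.integral_smul,
    smul_smul]
  have e1 : -π + 2 * π = π := by ring
  have e2 : 2 * π * r * (2 * π)⁻¹ = r := by
    field_simp
  rw [e1, e2]

theorem volume_ball_one : (volume (Metric.ball (0 : ℂ) 1)).toReal = π := by
  rw [Complex.volume_ball]
  simp

theorem circleMap_zero_eq (r θ : ℝ) : circleMap 0 r θ = (r : ℂ) * ech 1 θ := by
  simp [circleMap, ech]

theorem circleMap_zero_pow (r θ : ℝ) (n : ℕ) :
    circleMap 0 r θ ^ n = (r : ℂ) ^ n * ech (n : ℤ) θ := by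
  rw [circleMap_zero_eq, mul_pow, ech_natCast, ech_one]

/-- orthogonality of the monomials. -/
theorem integral_ball_pow_mul_conj_pow (n m : ℕ) :
    ∫ z in Metric.ball (0 : ℂ) 1, z ^ n * conj (z ^ m) =
      if n = m then ((π / (n + 1) : ℝ) : ℂ) else 0 := by
  have hc : ContinuousOn (fun z : ℂ => z ^ n * conj (z ^ m)) (Metric.closedBall (0 : ℂ) 1) :=
    ((continuous_pow n).mul (Complex.continuous_conj.comp (continuous_pow m))).continuousOn
  rw [integral_ball_polar hc]
  have h1 : ∀ r : ℝ, pavg (fun θ => circleMap 0 r θ ^ n * conj (circleMap 0 r θ ^ m)) =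
      (r : ℂ) ^ (n + m) * if n = m then 1 else 0 := by
    intro r
    have e : ∀ θ, circleMap 0 r θ ^ n * conj (circleMap 0 r θ ^ m) =
        (r : ℂ) ^ (n + m) * ech ((n : ℤ) - m) θ := by
      intro θ
      rw [circleMap_zero_pow, circleMap_zero_pow, map_mul, map_pow, Complex.conj_ofReal, ech_sub,
        pow_add]
      ring
    simp only [e]
    rw [pavg_const_mul, pavg_ech]
    congr 1
    by_cases h : n = m
    · simp [h]
    · have : (n : ℤ) - m ≠ 0 := by omega
      simp [h, this]
  simp only [h1]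
  by_cases h : n = m
  · subst h
    simp only [if_true, mul_one]
    have e : ∀ r : ℝ, (2 * π * r) • (r : ℂ) ^ (n + n) = (((2 * π) * r ^ (2 * n + 1) : ℝ) : ℂ) := by
      intro r
      rw [Complex.real_smul]
      push_cast
      ring
    simp only [e]
    rw [intervalIntegral.integral_ofReal, intervalIntegral.integral_const_mul, integral_pow]
    congr 1
    push_cast
    field_simp
    ring
  · simp [h]

end polar

end Claimed.Agent.R316.B14
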