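import Claimed.Agent.R316.B14.DiscA

/-!
# B14, leaf A: area integrals on the unit disc.  Area formula for `D`, Stokes, Bessel for the
monomials, and the normalised solution of `∂̄` (replaces [GT, Thm 9.15, Lemma 9.17, Thm 8.13] and the
trace estimate in the proof of Lemma disc-deformation)

## Mathematics

* `hsq_eq_area`: `f = ∑ c_n ζ^n`, `∫_Δ |f'|² = ∫_0^1 2π r ∑ n² |c_n|² r^{2n-2} dr = π ∑ n |c_n|²`
  (polar coordinates, Parseval `hasSum_sq_fc` on each circle applied to `θ ↦ dsm f (r e^{iθ})`, whose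
  coefficients are `(n+1) c_{n+1} r^n`; exchange `∑`/`∫_0^1` by `hasSum_integral_of_summable_norm`
  or monotone convergence; all series converge normally since `c` is rapidly decreasing).
* `stokes_disc`: `I(r) = ∫_0^{2π} F(r e^{iθ}) r e^{iθ} dθ`.  Then
  `I'(r) = ∫ 2 r ∂̄F(r e^{iθ}) dθ` because
  `∂_θ (F(r e^{iθ}) e^{iθ}) = (∂_θ F) e^{iθ} + i F e^{iθ}` integrates to `0` and
  `∂̄ = (e^{iθ}/2)(∂_r + (i/r) ∂_θ)`.  FTC on `[0,1]`, `I(0) = 0`, then polar coordinates.
  (differentiation under the integral: `intervalIntegral.hasDerivAt_integral_of_dominated_loc_of_deriv_le`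
  or `hasDerivAt_integral_of_contDiff`-type lemmas.)
* `fc_neg_eq_integral`: Stokes for `F ζ^n`.
* `bessel_disc`: `∫_Δ ζ^n conj ζ^m = δ_{nm} π/(n+1)` (polar), then the usual finite Bessel inequality
  `0 ≤ ∫ |b - ∑_{n<N} λ_n conj ζ^n|²`, `λ_n = (n+1) β_n`, `β_n = π⁻¹ ∫ b ζ^n`.
* `dbar_normalize`: `Q - szego (bd Q)` has on the circle only the frequencies `-(n+1)`, `n ≥ 0`, with
  coefficients `β_n = π⁻¹ ∫_Δ ∂̄Q ζ^n`; so `L²`-norm² `= ∑ |β_n|²` and `D² = ∑ (n+1) |β_n|²`, both
  `≤ π⁻¹ ∫_Δ |∂̄Q|²` by Bessel.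
-/

set_option autoImplicit false
set_option linter.unusedSectionVars false
open scoped ContDiff ComplexOrder ComplexConjugate Matrix Real
open MeasureTheory

namespace Claimed.Agent.R316.B14

section stokesClosed

variable {F : ℂ → ℂ}

/-- `∂̄` computed with the derivative within the closed disc (continuous up to the circle). -/
noncomputable def dbarW (F : ℂ → ℂ) (z : ℂ) : ℂ :=
  (1 / 2 : ℂ) * (fderivWithin ℝ F (Metric.closedBall 0 1) z 1 +
    Complex.I * fderivWithin ℝ F (Metric.closedBall 0 1) z Complex.I)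

theorem uniqueDiffOn_closedBall_real : UniqueDiffOn ℝ (Metric.closedBall (0 : ℂ) 1) :=
  uniqueDiffOn_convex (convex_closedBall 0 1)
    ⟨0, by rw [interior_closedBall (0 : ℂ) one_ne_zero]; simp⟩

theorem closedBall_mem_nhds_of_mem_ball {z : ℂ} (hz : z ∈ Metric.ball (0 : ℂ) 1) :
    Metric.closedBall (0 : ℂ) 1 ∈ nhds z :=
  Filter.mem_of_superset (Metric.isOpen_ball.mem_nhds hz) Metric.ball_subset_closedBall

theorem dbarW_eq_dbarC {z : ℂ} (hz : z ∈ Metric.ball (0 : ℂ) 1) : dbarW F z = dbarC F z := by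
  unfold dbarW dbarC
  rw [fderivWithin_of_mem_nhds (closedBall_mem_nhds_of_mem_ball hz)]

theorem continuousOn_fderivWithin_closedBall (hF : ContDiffOn ℝ 1 F (Metric.closedBall 0 1)) :
    ContinuousOn (fderivWithin ℝ F (Metric.closedBall 0 1)) (Metric.closedBall 0 1) :=
  hF.continuousOn_fderivWithin uniqueDiffOn_closedBall_real le_rfl

theorem continuousOn_dbarW (hF : ContDiffOn ℝ 1 F (Metric.closedBall 0 1)) :
    ContinuousOn (dbarW F) (Metric.closedBall 0 1) := by
  have hW := continuousOn_fderivWithin_closedBall hF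
  unfold dbarW
  exact continuousOn_const.mul ((hW.clm_apply continuousOn_const).add
    (continuousOn_const.mul (hW.clm_apply continuousOn_const)))

theorem hasFDerivAt_of_mem_ball (hF : ContDiffOn ℝ 1 F (Metric.closedBall 0 1)) {z : ℂ}
    (hz : z ∈ Metric.ball (0 : ℂ) 1) :
    HasFDerivAt F (fderivWithin ℝ F (Metric.closedBall 0 1) z) z :=
  ((hF.differentiableOn one_ne_zero z
    (Metric.ball_subset_closedBall hz)).hasFDerivWithinAt).hasFDerivAt
    (closedBall_mem_nhds_of_mem_ball hz)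

theorem clm_apply_eq (A : ℂ →L[ℝ] ℂ) (w : ℂ) :
    A w = (w.re : ℂ) * A 1 + (w.im : ℂ) * A Complex.I := by
  have h : w = w.re • (1 : ℂ) + w.im • Complex.I := by
    simp [Complex.real_smul, Complex.re_add_im]
  conv_lhs => rw [h, map_add, map_smul, map_smul]
  simp [Complex.real_smul]

theorem clm_unit_identity (A : ℂ →L[ℝ] ℂ) {e : ℂ} (he : ‖e‖ = 1) :
    e * (A e + Complex.I * A (e * Complex.I)) = A 1 + Complex.I * A Complex.I := by
  rw [clm_apply_eq A e, clm_apply_eq A (e * Complex.I)]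
  have h1 : ((e.re : ℂ)) ^ 2 + ((e.im : ℂ)) ^ 2 = 1 := by
    have h2 : e.re ^ 2 + e.im ^ 2 = 1 := by
      have := Complex.sq_norm e
      rw [he, Complex.normSq_apply] at this
      nlinarith
    exact_mod_cast h2
  have h3 : e = (e.re : ℂ) + (e.im : ℂ) * Complex.I := (Complex.re_add_im e).symm
  have h4 : (e * Complex.I).re = - e.im := by simp
  have h5 : (e * Complex.I).im = e.re := by simp
  rw [h4, h5]
  have hI := Complex.I_mul_I
  push_cast
  generalize A 1 = a at *
  generalize A Complex.I = b at *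
  rw [h3]
  simp only [Complex.add_re, Complex.add_im, Complex.ofReal_re, Complex.ofReal_im, Complex.mul_re,
    Complex.mul_im, Complex.I_re, Complex.I_im, mul_zero, mul_one, sub_zero, add_zero, zero_add]
  generalize (e.re : ℂ) = x at *
  generalize (e.im : ℂ) = y at *
  linear_combination (a + Complex.I * b) * h1 + (x * y * b - y ^ 2 * a) * hI

/-- auxiliary linear maps on the `(r, θ)` plane. -/
noncomputable def fstC : ℝ × ℝ →L[ℝ] ℂ := Complex.ofRealCLM.comp (ContinuousLinearMap.fst ℝ ℝ ℝ)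

noncomputable def sndC : ℝ × ℝ →L[ℝ] ℂ := Complex.ofRealCLM.comp (ContinuousLinearMap.snd ℝ ℝ ℝ)

/-- `e^{iθ}` on the `(r, θ)` plane. -/
noncomputable def expP (x : ℝ × ℝ) : ℂ := Complex.exp ((x.2 : ℂ) * Complex.I)

noncomputable def expP' (x : ℝ × ℝ) : ℝ × ℝ →L[ℝ] ℂ := expP x • (Complex.I • sndC)

/-- `r e^{iθ}` on the `(r, θ)` plane. -/
noncomputable def polP (x : ℝ × ℝ) : ℂ := (x.1 : ℂ) * expP x

noncomputable def polP' (x : ℝ × ℝ) : ℝ × ℝ →L[ℝ] ℂ := (x.1 : ℂ) • expP' x + expP x • fstC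

theorem hasFDerivAt_expP (x : ℝ × ℝ) : HasFDerivAt expP (expP' x) x :=
  ((sndC.hasFDerivAt (x := x)).mul_const Complex.I).cexp

theorem hasFDerivAt_polP (x : ℝ × ℝ) : HasFDerivAt polP (polP' x) x :=
  (fstC.hasFDerivAt (x := x)).mul (hasFDerivAt_expP x)

theorem polP_eq (x : ℝ × ℝ) : polP x = circleMap 0 x.1 x.2 := by
  rw [circleMap_zero]
  rfl

theorem norm_expP (x : ℝ × ℝ) : ‖expP x‖ = 1 := Complex.norm_exp_ofReal_mul_I _

theorem continuous_expP : Continuous expP := by
  unfold expP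
  fun_prop

theorem continuous_polP : Continuous polP := by
  unfold polP
  exact (Complex.continuous_ofReal.comp continuous_fst).mul continuous_expP

theorem polP'_apply_one (x : ℝ × ℝ) : polP' x (1, 0) = expP x := by
  simp [polP', expP', fstC, sndC]

theorem polP'_apply_two (x : ℝ × ℝ) : polP' x (0, 1) = x.1 • (expP x * Complex.I) := by
  simp [polP', expP', fstC, sndC]

theorem expP'_apply_two (x : ℝ × ℝ) : expP' x (0, 1) = expP x * Complex.I := by
  simp [expP', sndC]

theorem polP_mem_closedBall {x : ℝ × ℝ} (hx : x.1 ∈ Set.Icc (0 : ℝ) 1) :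
    polP x ∈ Metric.closedBall (0 : ℂ) 1 := by
  rw [polP_eq]
  exact circleMap_mem_closedBall_of_mem hx _

theorem polP_mem_ball {x : ℝ × ℝ} (hx : x.1 ∈ Set.Ioo (0 : ℝ) 1) :
    polP x ∈ Metric.ball (0 : ℂ) 1 := by
  rw [polP_eq, mem_ball_zero_iff, norm_circleMap_zero', abs_of_pos hx.1]
  exact hx.2

/-- **Stokes on the closed disc**, iterated integral form. -/
theorem stokes_iterated (hF : ContDiffOn ℝ 1 F (Metric.closedBall 0 1)) :
    ∫ r in (0 : ℝ)..1, ∫ θ in (0 : ℝ)..(2 * π), 2 * (r : ℂ) * dbarW F (circleMap 0 r θ) =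
      ∫ θ in (0 : ℝ)..(2 * π), bd F θ * ech 1 θ := by
  set W := fderivWithin ℝ F (Metric.closedBall 0 1) with hWdef
  have hW := continuousOn_fderivWithin_closedBall hF
  have hFc : ContinuousOn F (Metric.closedBall 0 1) := hF.continuousOn
  set f : ℝ × ℝ → ℂ := fun x => F (polP x) * polP x with hf
  set g : ℝ × ℝ → ℂ := fun x => Complex.I * (F (polP x) * expP x) with hg
  set f' : ℝ × ℝ → ℝ × ℝ →L[ℝ] ℂ := fun x =>
    F (polP x) • polP' x + polP x • ((W (polP x)).comp (polP' x)) with hf'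
  set g' : ℝ × ℝ → ℝ × ℝ →L[ℝ] ℂ := fun x =>
    Complex.I • (F (polP x) • expP' x + expP x • ((W (polP x)).comp (polP' x))) with hg'
  have hdiv : ∀ x, f' x (1, 0) + g' x (0, 1) = 2 * (x.1 : ℂ) * dbarW F (polP x) := by
    intro x
    have h1 := clm_unit_identity (W (polP x)) (norm_expP x)
    have hsm : W (polP x) (x.1 • (expP x * Complex.I)) =
        (x.1 : ℂ) * W (polP x) (expP x * Complex.I) := by
      rw [map_smul, Complex.real_smul]
    simp only [hf', hg', add_apply, smul_apply, ContinuousLinearMap.comp_apply, polP'_apply_one,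
      polP'_apply_two, expP'_apply_two, hsm, smul_eq_mul]
    unfold dbarW
    rw [← hWdef, ← h1]
    have hI := Complex.I_mul_I
    unfold polP
    linear_combination (F ((x.1 : ℂ) * expP x) * expP x) * hI
  have hmaps : Set.MapsTo polP (Set.Icc (0 : ℝ) 1 ×ˢ Set.Icc (0 : ℝ) (2 * π))
      (Metric.closedBall (0 : ℂ) 1) := fun x hx => polP_mem_closedBall hx.1
  have hFP : ContinuousOn (fun x => F (polP x)) (Set.Icc (0 : ℝ) 1 ×ˢ Set.Icc (0 : ℝ) (2 * π)) :=
    hFc.comp continuous_polP.continuousOn hmaps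
  have hder : ∀ x ∈ Set.Ioo (0 : ℝ) 1 ×ˢ Set.Ioo (0 : ℝ) (2 * π),
      HasFDerivAt (fun x => F (polP x)) ((W (polP x)).comp (polP' x)) x := fun x hx =>
    (hasFDerivAt_of_mem_ball hF (polP_mem_ball hx.1)).comp x (hasFDerivAt_polP x)
  have key := integral2_divergence_prod_of_hasFDerivAt_off_countable f g f' g' 0 0 1 (2 * π) ∅
    Set.countable_empty
    (by
      rw [Set.uIcc_of_le zero_le_one, Set.uIcc_of_le two_pi_pos'.le]
      exact hFP.mul continuous_polP.continuousOn)
    (by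
      rw [Set.uIcc_of_le zero_le_one, Set.uIcc_of_le two_pi_pos'.le]
      exact continuousOn_const.mul (hFP.mul continuous_expP.continuousOn))
    (by
      rw [min_eq_left zero_le_one, max_eq_right zero_le_one, min_eq_left two_pi_pos'.le,
        max_eq_right two_pi_pos'.le, Set.sdiff_empty]
      intro x hx
      exact (hder x hx).mul (hasFDerivAt_polP x))
    (by
      rw [min_eq_left zero_le_one, max_eq_right zero_le_one, min_eq_left two_pi_pos'.le,
        max_eq_right two_pi_pos'.le, Set.sdiff_empty]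
      intro x hx
      exact ((hder x hx).mul (hasFDerivAt_expP x)).const_mul Complex.I)
    (by
      rw [Set.uIcc_of_le zero_le_one, Set.uIcc_of_le two_pi_pos'.le]
      simp only [hdiv]
      refine ContinuousOn.integrableOn_compact (isCompact_Icc.prod isCompact_Icc) ?_
      exact (continuousOn_const.mul
        (Complex.continuous_ofReal.comp continuous_fst).continuousOn).mul
        ((continuousOn_dbarW hF).comp continuous_polP.continuousOn hmaps))
  simp only [hdiv] at key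
  have e1 : ∀ r : ℝ, g (r, 2 * π) = g (r, 0) := by
    intro r
    have : expP (r, 2 * π) = expP (r, 0) := by
      unfold expP
      simp only [Complex.ofReal_zero, zero_mul, Complex.exp_zero]
      push_cast
      exact Complex.exp_two_pi_mul_I
    simp only [hg, polP, this]
  have e2 : ∀ θ : ℝ, f (0, θ) = 0 := by
    intro θ
    simp [hf, polP]
  have e3 : ∀ θ : ℝ, f (1, θ) = bd F θ * ech 1 θ := by
    intro θ
    simp only [hf, polP_eq, bd, ech_one]
  simp only [e1, e2, e3, polP_eq, sub_self, zero_add, intervalIntegral.integral_zero, sub_zero]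
    at key
  exact key

/-- **Stokes on the closed disc**: `(2πi)⁻¹ ∮ F dζ = π⁻¹ ∫_Δ ∂̄F dA` for `F ∈ C¹(closed disc)`. -/
theorem stokes_closed (hF : ContDiffOn ℝ 1 F (Metric.closedBall 0 1)) :
    pavg (fun θ => ech 1 θ * bd F θ) = (π : ℂ)⁻¹ * ∫ z in Metric.ball (0 : ℂ) 1, dbarC F z := by
  have h1 := stokes_iterated hF
  have h2 : ∫ z in Metric.ball (0 : ℂ) 1, dbarC F z = ∫ z in Metric.ball (0 : ℂ) 1, dbarW F z :=
    setIntegral_congr_fun measurableSet_ball fun z hz => (dbarW_eq_dbarC hz).symm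
  rw [h2, integral_ball_polar (continuousOn_dbarW hF)]
  have e1 : ∀ r : ℝ, ∫ θ in (0 : ℝ)..(2 * π), 2 * (r : ℂ) * dbarW F (circleMap 0 r θ) =
      2 * ((2 * π * r) • pavg fun θ => dbarW F (circleMap 0 r θ)) := by
    intro r
    rw [intervalIntegral.integral_const_mul]
    unfold pavg
    rw [smul_smul, Complex.real_smul]
    have e2 : 2 * π * r * (2 * π)⁻¹ = r := by
      field_simp
    rw [e2]
    ring
  simp only [e1] at h1
  rw [intervalIntegral.integral_const_mul] at h1
  have e3 : (fun θ => ech 1 θ * bd F θ) = fun θ => bd F θ * ech 1 θ := by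
    funext θ
    ring
  have e4 : pavg (fun θ => bd F θ * ech 1 θ) =
      (2 * π)⁻¹ • ∫ θ in (0 : ℝ)..(2 * π), bd F θ * ech 1 θ := rfl
  rw [e3, e4, ← h1, Complex.real_smul]
  have hpi : (π : ℂ) ≠ 0 := by exact_mod_cast Real.pi_ne_zero
  push_cast
  field_simp

end stokesClosed

section area

variable {f : ℂ → ℂ}

theorem HolSm.integrableOn_deriv_sq (hf : HolSm f) :
    IntegrableOn (fun z => ‖deriv f z‖ ^ 2) (Metric.ball (0 : ℂ) 1) := by
  have h1 : IntegrableOn (fun z => ‖dsm f z‖ ^ 2) (Metric.ball (0 : ℂ) 1) :=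
    integrableOn_ball_of_continuousOn ((hf.holSm_dsm.continuousOn.norm).pow 2)
  refine h1.congr_fun (fun z hz => ?_) measurableSet_ball
  simp only [hf.deriv_eq hz]

/-- **area formula**: `D(f)² = π⁻¹ ∫_Δ |f'|² dA`. -/
theorem HolSm.hsq_eq_area (hf : HolSm f) :
    hsq (bd f) = π⁻¹ * ∫ z in Metric.ball (0 : ℂ) 1, ‖deriv f z‖ ^ 2 := by
  have hd := hf.holSm_dsm
  have hF : ContDiffOn ℝ 1 (fun z => conj (f z) * dsm f z) (Metric.closedBall 0 1) := by
    have h1 : ContDiffOn ℝ 1 f (Metric.closedBall 0 1) :=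
      hf.contDiffOn.of_le (by exact_mod_cast le_top)
    have h2 : ContDiffOn ℝ 1 (dsm f) (Metric.closedBall 0 1) :=
      hd.contDiffOn.of_le (by exact_mod_cast le_top)
    exact (Complex.conjCLE.contDiff.comp_contDiffOn h1).mul h2
  have hS := stokes_closed hF
  have e1 : ∀ z ∈ Metric.ball (0 : ℂ) 1,
      dbarC (fun z => conj (f z) * dsm f z) z = ((‖deriv f z‖ ^ 2 : ℝ) : ℂ) := by
    intro z hz
    have hfz : DifferentiableAt ℂ f z := (hf.hasDerivAt hz).differentiableAt
    have hdz : DifferentiableAt ℂ (dsm f) z := (hd.hasDerivAt hz).differentiableAt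
    have hcz : DifferentiableAt ℝ (fun w => conj (f w)) z :=
      Complex.conjCLE.differentiableAt.comp z (hfz.restrictScalars ℝ)
    rw [dbarC_mul hcz (hdz.restrictScalars ℝ), dbarC_conj hfz,
      dbarC_eq_zero_of_differentiableAt hdz, mul_zero, add_zero, hf.deriv_eq hz, mul_comm,
      Complex.mul_conj, Complex.normSq_eq_norm_sq]
  rw [setIntegral_congr_fun measurableSet_ball e1] at hS
  have e3 : ∫ z in Metric.ball (0 : ℂ) 1, ((‖deriv f z‖ ^ 2 : ℝ) : ℂ) =
      ((∫ z in Metric.ball (0 : ℂ) 1, ‖deriv f z‖ ^ 2 : ℝ) : ℂ) := integral_ofReal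
  rw [e3] at hS
  have hB := hsq_eq_pavg_deriv_of_nonneg hf.cSm_bd (fun k hk => hf.fc_neg hk)
  have e2 : (fun θ => deriv (bd f) θ * conj (bd f θ)) =
      fun θ => Complex.I * (ech 1 θ * bd (fun z => conj (f z) * dsm f z) θ) := by
    funext θ
    rw [hf.deriv_bd, ech_one]
    simp only [bd]
    ring
  rw [e2, pavg_const_mul, hS, ← mul_assoc, neg_mul, Complex.I_mul_I, neg_neg, one_mul] at hB
  exact_mod_cast hB

/-- column form. -/
theorem hsqV_eq_area {ι : Type} [Fintype ι] {Z : ℂ → ι → ℂ} (hZ : ∀ i, HolSm fun ζ => Z ζ i) :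
    hsqV (bd Z) = π⁻¹ * ∫ z in Metric.ball (0 : ℂ) 1, ∑ i, ‖deriv (fun ζ => Z ζ i) z‖ ^ 2 := by
  rw [integral_finsetSum _ fun i _ => (hZ i).integrableOn_deriv_sq, Finset.mul_sum]
  unfold hsqV
  exact Finset.sum_congr rfl fun i _ => (hZ i).hsq_eq_area

end area

end Claimed.Agent.R316.B14
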