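import Claimed.Agent.R316.B14.FejerA

/-!
# B14, leaf J: Fejér means of scalar and matrix functions
(eq. (var:fejer-error) and the test columns `l_i(ζ) = ζ^{P+1} S_P(ζ) e_i` of Section 5.3)

## Plan

* kernel: `fejK P t = (P+1)⁻¹ ‖∑_{j ≤ P} ech j t‖² = ∑_{|k| ≤ P} (1 - |k|/(P+1)) ech k t`
  (`fejK_eq_sum`: expand the square as a double sum of `ech (j - l)` and count the pairs with `j - l = k`;
  an induction on `P` is an alternative).  `fejK ≥ 0`, `pavg (fejK P) = 1` (`pavg_ech`).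
* `fejer_eq_pavg`: `fc a k * ech k θ = pavg_t (ech k (θ - t) a t) = pavg_t (ech k t a (θ - t))` (`pavg_shift`,
  `pavg_comp_neg`), sum over `k`.
* positivity statements: `qf (fejerM P S θ) v = pavg_t (fejK P t * qf (S (θ - t)) v)`.
* `frobSq_fejerM_le`: Jensen/Cauchy-Schwarz: `‖pavg (K a)‖² ≤ pavg K · pavg (K ‖a‖²)` entrywise, sum.
* error: `fc (fejer P a - a) k = - min(|k|/(P+1), 1) fc a k`; Parseval; `min(x,1)² ≤ x`.
* `fejerPoly`: on the circle `ζ^{(k+P+1).toNat} = ech (k+P+1) θ`.  Its coefficients are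
  `w_k fc a k` at frequency `k + P + 1 ∈ [1, 2P+1]`, so `D² = ∑ (k+P+1) w_k² |a_k|² ≤ (2P+1) ∑ |a_k|²`.
-/

set_option autoImplicit false
set_option linter.unusedSectionVars false
open scoped ContDiff ComplexOrder ComplexConjugate Matrix Real
open MeasureTheory

namespace Claimed.Agent.R316.B14

open Claimed.Agent.R316

section matrix

variable {ι : Type} [Fintype ι] [DecidableEq ι] {S : ℝ → Matrix ι ι ℂ} (P : ℕ)

theorem continuous_comp_sub {a : ℝ → ℂ} (ha : Continuous a) (θ : ℝ) :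
    Continuous fun t => a (θ - t) := ha.comp (continuous_const.sub continuous_id)

theorem continuous_form_comp_sub (hS : ∀ i j, Continuous fun θ => S θ i j) (θ : ℝ) (v : ι → ℂ) :
    Continuous fun t => ∑ j, ∑ k, conj (v j) * S (θ - t) j k * v k :=
  continuous_finsetSum _ fun j _ => continuous_finsetSum _ fun k _ =>
    (continuous_const.mul (continuous_comp_sub (hS j k) θ)).mul continuous_const

theorem continuous_qf_comp_sub (hS : ∀ i j, Continuous fun θ => S θ i j) (θ : ℝ) (v : ι → ℂ) :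
    Continuous fun t => qf (S (θ - t)) v := by
  simp only [qf_eq_sum]
  exact Complex.continuous_re.comp (continuous_form_comp_sub hS θ v)

theorem qf_fejerM (hS : ∀ i j, Continuous fun θ => S θ i j)
    (hp : ∀ i j, Function.Periodic (fun θ => S θ i j) (2 * π)) (θ : ℝ) (v : ι → ℂ) :
    qf (fejerM P S θ) v = pavg fun t => fejK P t * qf (S (θ - t)) v := by
  have cK : Continuous fun t => ((fejK P t : ℝ) : ℂ) :=
    Complex.continuous_ofReal.comp (continuous_fejK P)
  have e1 : ∀ t, fejK P t * qf (S (θ - t)) v =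
      (((fejK P t : ℝ) : ℂ) * ∑ j, ∑ k, conj (v j) * S (θ - t) j k * v k).re := by
    intro t
    rw [Complex.re_ofReal_mul, qf_eq_sum]
  simp only [e1]
  have cKf : Continuous fun t => ((fejK P t : ℝ) : ℂ) *
      ∑ j, ∑ k, conj (v j) * S (θ - t) j k * v k := cK.mul (continuous_form_comp_sub hS θ v)
  rw [← pavg_re cKf, qf_eq_sum]
  congr 1
  simp only [Finset.mul_sum]
  rw [pavg_sum Finset.univ
    (fun j t => ∑ k, ((fejK P t : ℝ) : ℂ) * (conj (v j) * S (θ - t) j k * v k))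
    fun j _ => continuous_finsetSum _ fun k _ => cK.mul
      ((continuous_const.mul (continuous_comp_sub (hS j k) θ)).mul continuous_const)]
  refine Finset.sum_congr rfl fun j _ => ?_
  rw [pavg_sum Finset.univ
    (fun k t => ((fejK P t : ℝ) : ℂ) * (conj (v j) * S (θ - t) j k * v k))
    fun k _ => cK.mul
      ((continuous_const.mul (continuous_comp_sub (hS j k) θ)).mul continuous_const)]
  refine Finset.sum_congr rfl fun k _ => ?_
  have e2 : ∀ t, ((fejK P t : ℝ) : ℂ) * (conj (v j) * S (θ - t) j k * v k) =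
      (conj (v j) * v k) * (((fejK P t : ℝ) : ℂ) * S (θ - t) j k) := by
    intro t
    ring
  simp only [e2]
  rw [pavg_const_mul]
  have e3 : fejerM P S θ j k = pavg fun t => ((fejK P t : ℝ) : ℂ) * S (θ - t) j k :=
    fejer_eq_pavg P (hS j k) (hp j k) θ
  rw [e3]
  ring

theorem fejerM_isHermitian (hH : ∀ θ, (S θ).IsHermitian) (θ : ℝ) :
    (fejerM P S θ).IsHermitian := by
  ext i j
  have h1 : (fejerM P S θ)ᴴ i j = conj (fejer P (fun t => S t j i) θ) := rfl
  rw [h1, ← fejer_conj]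
  have e : (fun t => conj (S t j i)) = fun t => S t i j := by
    funext t
    exact congrFun (congrFun (hH t) i) j
  rw [e]
  rfl

theorem fejerM_posSemidef (hS : ∀ i j, Continuous fun θ => S θ i j)
    (hp : ∀ i j, Function.Periodic (fun θ => S θ i j) (2 * π)) (h : ∀ θ, (S θ).PosSemidef) (θ : ℝ) :
    (fejerM P S θ).PosSemidef := by
  rw [posSemidef_iff_qf (fejerM_isHermitian P (fun θ => (h θ).isHermitian) θ)]
  intro v
  rw [qf_fejerM P hS hp]
  exact pavg_nonneg fun t => mul_nonneg (fejK_nonneg P t) (qf_nonneg (h _) v)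

theorem fejerM_loewner_le (hS : ∀ i j, Continuous fun θ => S θ i j)
    (hp : ∀ i j, Function.Periodic (fun θ => S θ i j) (2 * π)) {C : ℝ}
    (h : ∀ θ, (((C : ℝ) : ℂ) • (1 : Matrix ι ι ℂ) - S θ).PosSemidef) (θ : ℝ) :
    (((C : ℝ) : ℂ) • (1 : Matrix ι ι ℂ) - fejerM P S θ).PosSemidef := by
  have hC : (((C : ℝ) : ℂ) • (1 : Matrix ι ι ℂ)).IsHermitian :=
    isHermitian_smul_real C Matrix.isHermitian_one
  have hH : ∀ θ, (S θ).IsHermitian := fun θ => isHermitian_of_loewner_right hC (h θ)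
  rw [posSemidef_sub_iff_qf (fejerM_isHermitian P hH θ) hC]
  intro v
  rw [qf_fejerM P hS hp, qf_smul, ← nsq_eq_qf_one]
  have c1 : Continuous fun t => fejK P t * qf (S (θ - t)) v :=
    (continuous_fejK P).mul (continuous_qf_comp_sub hS θ v)
  have c2 : Continuous fun t => (C * nsq v) * fejK P t := continuous_const.mul (continuous_fejK P)
  have h1 := pavg_mono c1 c2 (fun t => by
    rw [mul_comm]
    exact mul_le_mul_of_nonneg_right (qf_le_of_loewner (h _) v) (fejK_nonneg P t))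
  rwa [pavg_const_mul_real, pavg_fejK, mul_one] at h1

/-- Jensen for the Fejér mean. -/
theorem normSq_fejer_le {a : ℝ → ℂ} (ha : Continuous a) (hp : Function.Periodic a (2 * π))
    (θ : ℝ) : ‖fejer P a θ‖ ^ 2 ≤ pavg fun t => fejK P t * ‖a (θ - t)‖ ^ 2 := by
  rw [fejer_eq_pavg P ha hp]
  have cs : Continuous fun t => ((Real.sqrt (fejK P t) : ℝ) : ℂ) :=
    Complex.continuous_ofReal.comp (Real.continuous_sqrt.comp (continuous_fejK P))
  have hc := continuous_comp_sub ha θ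
  have cs2 : Continuous fun t => ((Real.sqrt (fejK P t) : ℝ) : ℂ) * a (θ - t) := cs.mul hc
  have h1 := norm_pavg_mul_le cs cs2
  have e1 : ∀ t, ((Real.sqrt (fejK P t) : ℝ) : ℂ) * (((Real.sqrt (fejK P t) : ℝ) : ℂ) * a (θ - t)) =
      ((fejK P t : ℝ) : ℂ) * a (θ - t) := by
    intro t
    rw [← mul_assoc, ← Complex.ofReal_mul, Real.mul_self_sqrt (fejK_nonneg P t)]
  have e2 : ∀ t, ‖((Real.sqrt (fejK P t) : ℝ) : ℂ)‖ ^ 2 = fejK P t := by
    intro t
    rw [Complex.norm_real, Real.norm_eq_abs, sq_abs, Real.sq_sqrt (fejK_nonneg P t)]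
  have e3 : ∀ t, ‖((Real.sqrt (fejK P t) : ℝ) : ℂ) * a (θ - t)‖ ^ 2 =
      fejK P t * ‖a (θ - t)‖ ^ 2 := by
    intro t
    rw [norm_mul, mul_pow, e2]
  simp only [e1, e2, e3] at h1
  have e4 : pavg (fun t => fejK P t) = 1 := pavg_fejK P
  rw [e4, Real.sqrt_one, one_mul] at h1
  have h0 : 0 ≤ pavg fun t => fejK P t * ‖a (θ - t)‖ ^ 2 :=
    pavg_nonneg fun t => mul_nonneg (fejK_nonneg P t) (sq_nonneg _)
  calc ‖pavg fun t => ((fejK P t : ℝ) : ℂ) * a (θ - t)‖ ^ 2
      ≤ Real.sqrt (pavg fun t => fejK P t * ‖a (θ - t)‖ ^ 2) ^ 2 := by gcongr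
    _ = _ := Real.sq_sqrt h0

theorem frobSq_fejerM_le (hS : ∀ i j, Continuous fun θ => S θ i j)
    (hp : ∀ i j, Function.Periodic (fun θ => S θ i j) (2 * π)) {C : ℝ}
    (h : ∀ θ, frobSq (S θ) ≤ C) (θ : ℝ) : frobSq (fejerM P S θ) ≤ C := by
  have c0 : ∀ i j, Continuous fun t => fejK P t * ‖S (θ - t) i j‖ ^ 2 := fun i j =>
    (continuous_fejK P).mul (((continuous_comp_sub (hS i j) θ).norm).pow 2)
  have h1 : frobSq (fejerM P S θ) ≤ pavg fun t => fejK P t * frobSq (S (θ - t)) := by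
    unfold frobSq
    simp only [Finset.mul_sum]
    rw [pavg_sum Finset.univ (fun i t => ∑ j, fejK P t * ‖S (θ - t) i j‖ ^ 2)
      fun i _ => continuous_finsetSum _ fun j _ => c0 i j]
    refine Finset.sum_le_sum fun i _ => ?_
    rw [pavg_sum Finset.univ (fun j t => fejK P t * ‖S (θ - t) i j‖ ^ 2) fun j _ => c0 i j]
    exact Finset.sum_le_sum fun j _ => normSq_fejer_le P (hS i j) (hp i j) θ
  refine h1.trans ?_
  have c1 : Continuous fun t => fejK P t * frobSq (S (θ - t)) := by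
    unfold frobSq
    exact (continuous_fejK P).mul (continuous_finsetSum _ fun i _ =>
      continuous_finsetSum _ fun j _ => ((continuous_comp_sub (hS i j) θ).norm).pow 2)
  have c2 : Continuous fun t => C * fejK P t := continuous_const.mul (continuous_fejK P)
  have h2 := pavg_mono c1 c2 (fun t => by
    rw [mul_comm]
    exact mul_le_mul_of_nonneg_right (h _) (fejK_nonneg P t))
  rwa [pavg_const_mul_real, pavg_fejK, mul_one] at h2

/-- **(var:fejer-error)**, matrix form. -/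
theorem pavg_frobSq_fejerM_sub_le (hS : ∀ i j, CLip fun θ => S θ i j) :
    pavg (fun θ => frobSq (fejerM P S θ - S θ)) ≤ hsqM S / ((P : ℝ) + 1) := by
  have c0 : ∀ i j, Continuous fun θ => ‖(fejerM P S θ - S θ) i j‖ ^ 2 := fun i j =>
    (((cSm_fejer P _).continuous.sub (hS i j).continuous).norm).pow 2
  unfold frobSq hsqM
  rw [pavg_sum Finset.univ (fun i θ => ∑ j, ‖(fejerM P S θ - S θ) i j‖ ^ 2)
    fun i _ => continuous_finsetSum _ fun j _ => c0 i j, Finset.sum_div]
  refine Finset.sum_le_sum fun i _ => ?_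
  rw [pavg_sum Finset.univ (fun j θ => ‖(fejerM P S θ - S θ) i j‖ ^ 2) fun j _ => c0 i j,
    Finset.sum_div]
  exact Finset.sum_le_sum fun j _ => pavg_fejer_sub_sq_le P (hS i j)

theorem bd_fejerPolyM (S : ℝ → Matrix ι ι ℂ) (θ : ℝ) :
    bd (fejerPolyM P S) θ = ech ((P : ℤ) + 1) θ • fejerM P S θ := by
  ext i j
  exact bd_fejerPoly P _ θ

theorem fejerPolyM_zero (S : ℝ → Matrix ι ι ℂ) : fejerPolyM P S 0 = 0 := by
  ext i j
  exact fejerPoly_zero P _

theorem holSm_fejerPolyM (S : ℝ → Matrix ι ι ℂ) (i j : ι) :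
    HolSm fun ζ => fejerPolyM P S ζ i j := holSm_fejerPoly P _

/-- `D(l_i)² ≤ (2P+1) sup ‖S‖_F²` summed over the columns. -/
theorem hsqM_bd_fejerPolyM_le (hS : ∀ i j, Continuous fun θ => S θ i j) :
    hsqM (bd (fejerPolyM P S)) ≤ (2 * (P : ℝ) + 1) * pavg fun θ => frobSq (S θ) := by
  have c0 : ∀ i j, Continuous fun θ => ‖S θ i j‖ ^ 2 := fun i j => ((hS i j).norm).pow 2
  unfold frobSq hsqM
  rw [pavg_sum Finset.univ (fun i θ => ∑ j, ‖S θ i j‖ ^ 2)
    fun i _ => continuous_finsetSum _ fun j _ => c0 i j, Finset.mul_sum]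
  refine Finset.sum_le_sum fun i _ => ?_
  rw [pavg_sum Finset.univ (fun j θ => ‖S θ i j‖ ^ 2) fun j _ => c0 i j, Finset.mul_sum]
  exact Finset.sum_le_sum fun j _ => hsq_bd_fejerPoly_le P (hS i j)

end matrix

end Claimed.Agent.R316.B14
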