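import Claimed.Agent.R316.B14.HolSm

/-!
# B14, leaf J: Fejér means of scalar and matrix functions
(eq. (var:fejer-error) and the test columns `l_i(ζ) = ζ^{P+1} S_P(ζ) e_i` of Section 5.3)

## Plan

* kernel: `fejK P t = (P+1)⁻¹ ‖∑_{j ≤ P} ech j t‖² = ∑_{|k| ≤ P} (1 - |k|/(P+1)) ech k t`
  (`fejK_eq_sum`: expand the square as a double sum of `ech (j - l)` and count the pairs with `j - l = k`;
  an induction on `P` is an alternative).  `fejK ≥ 0`, `pavg (fejK P) = 1` (`pavg_ech`).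
* `fejer_eq_pavg`: `fc a k * ech k θ = pavg_t (ech k (θ - t) a t) = pavg_t (ech k t a (θ - t))` (`pavg_shift`,
  `pavg_comp_neg`), sum over `k`.
* positivity statements: `qf (fejerM P S θ) v = pavg_t (fejK P t * qf (S (θ - t)) v)`.
* `frobSq_fejerM_le`: Jensen/Cauchy-Schwarz: `‖pavg (K a)‖² ≤ pavg K · pavg (K ‖a‖²)` entrywise, sum.
* error: `fc (fejer P a - a) k = - min(|k|/(P+1), 1) fc a k`; Parseval; `min(x,1)² ≤ x`.
* `fejerPoly`: on the circle `ζ^{(k+P+1).toNat} = ech (k+P+1) θ`.  Its coefficients are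
  `w_k fc a k` at frequency `k + P + 1 ∈ [1, 2P+1]`, so `D² = ∑ (k+P+1) w_k² |a_k|² ≤ (2P+1) ∑ |a_k|²`.
-/

set_option autoImplicit false
open scoped ContDiff ComplexOrder ComplexConjugate Matrix Real
open MeasureTheory

namespace Claimed.Agent.R316.B14

open Claimed.Agent.R316

/-- the Fejér kernel. -/
noncomputable def fejK (P : ℕ) (t : ℝ) : ℝ :=
  ((P : ℝ) + 1)⁻¹ * ‖∑ j ∈ Finset.range (P + 1), ech (j : ℤ) t‖ ^ 2

/-- Fejér mean of a matrix function, entrywise. -/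
noncomputable def fejerM {ι κ : Type} (P : ℕ) (S : ℝ → Matrix ι κ ℂ) (θ : ℝ) : Matrix ι κ ℂ :=
  fun i j => fejer P (fun t => S t i j) θ

/-- the matrix polynomial `ζ^{P+1} S_P(ζ)`. -/
noncomputable def fejerPolyM {ι κ : Type} (P : ℕ) (S : ℝ → Matrix ι κ ℂ) (ζ : ℂ) : Matrix ι κ ℂ :=
  fun i j => fejerPoly P (fun t => S t i j) ζ

section kernel

/-- symmetric sums over `[-P, P] ⊆ ℤ`. -/
theorem sum_Icc_symm {M : Type} [AddCommMonoid M] (F : ℤ → M) (P : ℕ) :
    ∑ k ∈ Finset.Icc (-(P : ℤ)) P, F k =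
      F 0 + ∑ i ∈ Finset.range P, (F ((i : ℤ) + 1) + F (-((i : ℤ) + 1))) := by
  induction P with
  | zero => simp
  | succ P ih =>
    have e : Finset.Icc (-((P + 1 : ℕ) : ℤ)) ((P + 1 : ℕ) : ℤ) =
        insert ((P : ℤ) + 1) (insert (-((P : ℤ) + 1)) (Finset.Icc (-(P : ℤ)) P)) := by
      ext k
      simp only [Finset.mem_Icc, Finset.mem_insert]
      push_cast
      omega
    rw [e, Finset.sum_insert, Finset.sum_insert, ih, Finset.sum_range_succ]
    · abel
    · simp only [Finset.mem_Icc]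
      omega
    · simp only [Finset.mem_Icc, Finset.mem_insert]
      omega

theorem sum_Icc_comp_neg {M : Type} [AddCommMonoid M] (F : ℤ → M) (P : ℕ) :
    ∑ k ∈ Finset.Icc (-(P : ℤ)) P, F (-k) = ∑ k ∈ Finset.Icc (-(P : ℤ)) P, F k := by
  rw [sum_Icc_symm, sum_Icc_symm F]
  simp only [neg_zero, neg_neg]
  congr 1
  exact Finset.sum_congr rfl fun i _ => add_comm _ _

/-- the square of the Dirichlet sum. -/
theorem normSq_geom_eq (n : ℕ) (t : ℝ) :
    ((‖∑ j ∈ Finset.range n, ech (j : ℤ) t‖ ^ 2 : ℝ) : ℂ) =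
      ∑ k ∈ Finset.range n, ((n : ℂ) - k) * (ech (k : ℤ) t + ech (-(k : ℤ)) t) - n := by
  induction n with
  | zero => simp
  | succ n ih =>
    have hA : ∑ j ∈ Finset.range n, ech ((j : ℤ) - n) t =
        (∑ j ∈ Finset.range n, ech (j : ℤ) t) * conj (ech (n : ℤ) t) := by
      simp only [ech_sub]
      rw [Finset.sum_mul]
    have hB : ∑ j ∈ Finset.range n, ech ((n : ℤ) - j) t =
        ech (n : ℤ) t * conj (∑ j ∈ Finset.range n, ech (j : ℤ) t) := by
      simp only [ech_sub]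
      rw [map_sum, Finset.mul_sum]
    have h1 : ((‖∑ j ∈ Finset.range (n + 1), ech (j : ℤ) t‖ ^ 2 : ℝ) : ℂ) =
        ((‖∑ j ∈ Finset.range n, ech (j : ℤ) t‖ ^ 2 : ℝ) : ℂ) +
          ∑ j ∈ Finset.range n, (ech ((j : ℤ) - n) t + ech ((n : ℤ) - j) t) + 1 := by
      rw [← Complex.normSq_eq_norm_sq, ← Complex.normSq_eq_norm_sq, ← Complex.mul_conj,
        ← Complex.mul_conj, Finset.sum_range_succ, map_add, Finset.sum_add_distrib, hA, hB]
      have := ech_mul_conj (n : ℤ) t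
      linear_combination this
    have h2 : ∑ j ∈ Finset.range n, (ech ((j : ℤ) - n) t + ech ((n : ℤ) - j) t) =
        ∑ i ∈ Finset.range n, (ech (((i + 1 : ℕ) : ℤ)) t + ech (-(((i + 1 : ℕ) : ℤ))) t) := by
      rw [← Finset.sum_range_reflect]
      refine Finset.sum_congr rfl fun i hi => ?_
      have hi' := Finset.mem_range.1 hi
      have e1 : ((n - 1 - i : ℕ) : ℤ) = (n : ℤ) - 1 - i := by omega
      rw [e1, add_comm]
      congr 2 <;> push_cast <;> ring
    have h3 := Finset.sum_range_succ' (fun k : ℕ => ech (k : ℤ) t + ech (-(k : ℤ)) t) n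
    have h3' := Finset.sum_range_succ (fun k : ℕ => ech (k : ℤ) t + ech (-(k : ℤ)) t) n
    have h4 : ∑ k ∈ Finset.range n, (((n + 1 : ℕ) : ℂ) - k) * (ech (k : ℤ) t + ech (-(k : ℤ)) t) =
        ∑ k ∈ Finset.range n, ((n : ℂ) - k) * (ech (k : ℤ) t + ech (-(k : ℤ)) t) +
          ∑ k ∈ Finset.range n, (ech (k : ℤ) t + ech (-(k : ℤ)) t) := by
      rw [← Finset.sum_add_distrib]
      refine Finset.sum_congr rfl fun k _ => ?_
      push_cast
      ring
    rw [h1, h2, ih, Finset.sum_range_succ, h4]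
    simp only [Nat.cast_zero, neg_zero, ech_zero] at h3
    rw [h3'] at h3
    push_cast
    push_cast at h3
    linear_combination (-1 : ℂ) * h3

theorem fejK_nonneg (P : ℕ) (t : ℝ) : 0 ≤ fejK P t := by
  unfold fejK
  positivity

theorem continuous_fejK (P : ℕ) : Continuous (fejK P) := by
  unfold fejK
  exact continuous_const.mul
    (((continuous_finsetSum _ fun j _ => continuous_ech _).norm).pow 2)

theorem fejK_periodic (P : ℕ) : Function.Periodic (fejK P) (2 * π) := by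
  intro t
  unfold fejK
  simp only [ech_periodic _ t]

theorem fejK_eq_sum (P : ℕ) (t : ℝ) :
    ((fejK P t : ℝ) : ℂ) =
      ∑ k ∈ Finset.Icc (-(P : ℤ)) P, (((1 - |(k : ℝ)| / (P + 1) : ℝ)) : ℂ) * ech k t := by
  have hP : ((P : ℂ) + 1) ≠ 0 := by
    have : ((P : ℂ) + 1) = ((P + 1 : ℕ) : ℂ) := by push_cast; ring
    rw [this]
    exact Nat.cast_ne_zero.2 (Nat.succ_ne_zero P)
  unfold fejK
  rw [Complex.ofReal_mul, normSq_geom_eq, sum_Icc_symm, Finset.sum_range_succ']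
  simp only [Int.cast_zero, abs_zero, zero_div, sub_zero, Complex.ofReal_one, one_mul, ech_zero,
    Nat.cast_zero, neg_zero]
  have e : ∀ i : ℕ, (((1 - |(((i : ℤ) + 1 : ℤ) : ℝ)| / ((P : ℝ) + 1) : ℝ)) : ℂ) *
      ech ((i : ℤ) + 1) t + (((1 - |((-((i : ℤ) + 1) : ℤ) : ℝ)| / ((P : ℝ) + 1) : ℝ)) : ℂ) *
      ech (-((i : ℤ) + 1)) t = ((P : ℂ) + 1)⁻¹ * ((((P + 1 : ℕ) : ℂ) - ((i + 1 : ℕ) : ℂ)) *
        (ech (((i + 1 : ℕ) : ℤ)) t + ech (-(((i + 1 : ℕ) : ℤ))) t)) := by
    intro i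
    have h1 : |(((i : ℤ) + 1 : ℤ) : ℝ)| = (i : ℝ) + 1 := by
      push_cast
      exact abs_of_nonneg (by positivity)
    have h2 : |((-((i : ℤ) + 1) : ℤ) : ℝ)| = (i : ℝ) + 1 := by
      push_cast
      rw [abs_neg]
      exact abs_of_nonneg (by positivity)
    rw [h1, h2]
    push_cast
    field_simp
  simp only [e]
  rw [← Finset.mul_sum]
  push_cast
  field_simp
  ring

theorem pavg_fejK (P : ℕ) : pavg (fejK P) = 1 := by
  unfold fejK
  rw [pavg_const_mul_real, pavg_normSq_geom]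
  push_cast
  field_simp

end kernel

section scalar

variable {a : ℝ → ℂ} (P : ℕ)

/-- the Fejér weights. -/
noncomputable def fejW (P : ℕ) (k : ℤ) : ℝ := max (1 - |(k : ℝ)| / (P + 1)) 0

theorem fejW_nonneg (k : ℤ) : 0 ≤ fejW P k := le_max_right _ _

theorem fejW_le_one (k : ℤ) : fejW P k ≤ 1 := by
  unfold fejW
  have : 0 ≤ |(k : ℝ)| / ((P : ℝ) + 1) := by positivity
  exact max_le (by linarith) zero_le_one

theorem fejW_of_mem {k : ℤ} (hk : k ∈ Finset.Icc (-(P : ℤ)) P) :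
    fejW P k = 1 - |(k : ℝ)| / (P + 1) := by
  unfold fejW
  refine max_eq_left ?_
  have h1 : |k| ≤ (P : ℤ) := by
    rw [Finset.mem_Icc] at hk
    exact abs_le.2 hk
  have h2 : |(k : ℝ)| ≤ (P : ℝ) := by exact_mod_cast h1
  rw [sub_nonneg, div_le_one (by positivity)]
  linarith

theorem fejW_of_not_mem {k : ℤ} (hk : k ∉ Finset.Icc (-(P : ℤ)) P) : fejW P k = 0 := by
  unfold fejW
  refine max_eq_right ?_
  have h1 : (P : ℤ) + 1 ≤ |k| := by
    rw [Finset.mem_Icc] at hk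
    by_contra hcon
    apply hk
    have : |k| ≤ (P : ℤ) := by omega
    exact abs_le.1 this
  have h2 : (P : ℝ) + 1 ≤ |(k : ℝ)| := by exact_mod_cast h1
  rw [sub_nonpos, one_le_div (by positivity)]
  exact h2

theorem cSm_fejer (a : ℝ → ℂ) : CSm (fejer P a) := by
  unfold fejer
  exact CSm.sum _ fun k _ => (cSm_ech k).const_mul _

theorem fc_fejer (a : ℝ → ℂ) (k : ℤ) :
    fc (fejer P a) k = (((max (1 - |(k : ℝ)| / (P + 1)) 0 : ℝ)) : ℂ) * fc a k := by
  unfold fejer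
  rw [fc_sum (Finset.Icc (-(P : ℤ)) P)
    (fun j θ => (((1 - |(j : ℝ)| / (P + 1) : ℝ)) : ℂ) * fc a j * ech j θ)
    fun j _ => continuous_const.mul (continuous_ech j)]
  simp only [fc_const_mul, fc_ech, mul_ite, mul_one, mul_zero]
  rw [Finset.sum_ite_eq]
  by_cases hk : k ∈ Finset.Icc (-(P : ℤ)) P
  · rw [if_pos hk]
    have := fejW_of_mem P hk
    unfold fejW at this
    rw [this]
  · rw [if_neg hk]
    have := fejW_of_not_mem P hk
    unfold fejW at this
    rw [this]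
    simp

theorem fc_fejer' (a : ℝ → ℂ) (k : ℤ) : fc (fejer P a) k = ((fejW P k : ℝ) : ℂ) * fc a k :=
  fc_fejer P a k

theorem pavg_ech_mul_comp_sub (hp : Function.Periodic a (2 * π)) (k : ℤ) (θ : ℝ) :
    pavg (fun t => ech k t * a (θ - t)) = fc a k * ech k θ := by
  have hb : Function.Periodic (fun t => ech k t * a (θ - t)) (2 * π) := by
    intro t
    have e : θ - (t + 2 * π) = θ - t - 2 * π := by ring
    simp only [ech_periodic k t, e, hp.sub_eq (θ - t)]
  have hb' : Function.Periodic (fun r => ech k (-r) * a (θ - -r)) (2 * π) := by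
    intro t
    have e : -(t + 2 * π) = -t - 2 * π := by ring
    have e2 : θ - (-t - 2 * π) = θ - -t + 2 * π := by ring
    simp only [e, (ech_periodic k).sub_eq (-t), e2, hp (θ - -t)]
  rw [← pavg_comp_neg hb, ← pavg_shift hb' (-θ)]
  unfold fc
  rw [← pavg_mul_const]
  congr 1
  funext s
  have e1 : -(s + -θ) = θ + -s := by ring
  have e2 : θ - (θ + -s) = s := by ring
  rw [e1, e2, ech_add_arg, ech_neg_arg]
  ring

/-- the Fejér mean is the convolution with the Fejér kernel. -/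
theorem fejer_eq_pavg (ha : Continuous a) (hp : Function.Periodic a (2 * π)) (θ : ℝ) :
    fejer P a θ = pavg fun t => ((fejK P t : ℝ) : ℂ) * a (θ - t) := by
  simp only [fejK_eq_sum, Finset.sum_mul]
  have hc : Continuous fun t => a (θ - t) := ha.comp (continuous_const.sub continuous_id)
  rw [pavg_sum (Finset.Icc (-(P : ℤ)) P)
    (fun k t => (((1 - |(k : ℝ)| / (P + 1) : ℝ)) : ℂ) * ech k t * a (θ - t))
    fun k _ => (continuous_const.mul (continuous_ech k)).mul hc]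
  unfold fejer
  refine Finset.sum_congr rfl fun k _ => ?_
  simp only [mul_assoc]
  rw [pavg_const_mul, pavg_ech_mul_comp_sub hp]

theorem norm_fejer_le (ha : Continuous a) (hp : Function.Periodic a (2 * π)) {C : ℝ}
    (h : ∀ θ, ‖a θ‖ ≤ C) (θ : ℝ) : ‖fejer P a θ‖ ≤ C := by
  rw [fejer_eq_pavg P ha hp]
  refine (norm_pavg_le_pavg_norm _).trans ?_
  have hc : Continuous fun t => a (θ - t) := ha.comp (continuous_const.sub continuous_id)
  have c1 : Continuous fun t => ‖((fejK P t : ℝ) : ℂ) * a (θ - t)‖ :=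
    ((Complex.continuous_ofReal.comp (continuous_fejK P)).mul hc).norm
  have c2 : Continuous fun t => C * fejK P t := continuous_const.mul (continuous_fejK P)
  have h1 := pavg_mono c1 c2 (fun t => by
    rw [norm_mul, Complex.norm_real, Real.norm_eq_abs, abs_of_nonneg (fejK_nonneg P t), mul_comm]
    exact mul_le_mul_of_nonneg_right (h _) (fejK_nonneg P t))
  rwa [pavg_const_mul_real, pavg_fejK, mul_one] at h1

theorem fejer_conj (a : ℝ → ℂ) (θ : ℝ) :
    fejer P (fun t => conj (a t)) θ = conj (fejer P a θ) := by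
  unfold fejer
  rw [map_sum, ← sum_Icc_comp_neg]
  refine Finset.sum_congr rfl fun k _ => ?_
  rw [fc_conj, neg_neg, map_mul, map_mul, Complex.conj_ofReal, ech_neg]
  push_cast
  rw [abs_neg]

/-- **(var:fejer-error)**. -/
theorem pavg_fejer_sub_sq_le (ha : CLip a) :
    pavg (fun θ => ‖fejer P a θ - a θ‖ ^ 2) ≤ hsq a / ((P : ℝ) + 1) := by
  have hc : Continuous fun θ => fejer P a θ - a θ := (cSm_fejer P a).continuous.sub ha.continuous
  have h1 := hasSum_sq_fc hc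
  rw [← h1.tsum_eq, hsq, div_eq_mul_inv, ← tsum_mul_right]
  refine h1.summable.tsum_le_tsum (fun k => ?_) (ha.summable_hsq.mul_right _)
  rw [fc_sub (cSm_fejer P a).continuous ha.continuous, fc_fejer']
  have e : ((fejW P k : ℝ) : ℂ) * fc a k - fc a k = (((fejW P k - 1 : ℝ)) : ℂ) * fc a k := by
    push_cast
    ring
  rw [e, norm_mul, Complex.norm_real, Real.norm_eq_abs, mul_pow, sq_abs]
  have h2 : (fejW P k - 1) ^ 2 ≤ |(k : ℝ)| * ((P : ℝ) + 1)⁻¹ := by
    have hx : 0 ≤ |(k : ℝ)| * ((P : ℝ) + 1)⁻¹ := by positivity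
    have h3 := fejW_nonneg P k
    have h4 := fejW_le_one P k
    have h5 : 1 - |(k : ℝ)| * ((P : ℝ) + 1)⁻¹ ≤ fejW P k := by
      unfold fejW
      rw [← div_eq_mul_inv]
      exact le_max_left _ _
    nlinarith
  calc (fejW P k - 1) ^ 2 * ‖fc a k‖ ^ 2 ≤ |(k : ℝ)| * ((P : ℝ) + 1)⁻¹ * ‖fc a k‖ ^ 2 := by
        gcongr
    _ = _ := by ring

theorem hsq_fejer_le (ha : CLip a) : hsq (fejer P a) ≤ hsq a := by
  unfold hsq
  refine (cSm_fejer P a).cLip.summable_hsq.tsum_le_tsum (fun k => ?_) ha.summable_hsq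
  rw [fc_fejer', norm_mul, Complex.norm_real, Real.norm_eq_abs, abs_of_nonneg (fejW_nonneg P k),
    mul_pow]
  have h1 : fejW P k ^ 2 ≤ 1 := pow_le_one₀ (fejW_nonneg P k) (fejW_le_one P k)
  have h2 : fejW P k ^ 2 * ‖fc a k‖ ^ 2 ≤ 1 * ‖fc a k‖ ^ 2 :=
    mul_le_mul_of_nonneg_right h1 (sq_nonneg _)
  rw [one_mul] at h2
  exact mul_le_mul_of_nonneg_left h2 (abs_nonneg _)

theorem differentiable_fejerPoly (a : ℝ → ℂ) : Differentiable ℂ (fejerPoly P a) := by
  unfold fejerPoly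
  exact Differentiable.fun_sum fun k _ => (differentiable_id.pow _).const_mul _

theorem holSm_fejerPoly (a : ℝ → ℂ) : HolSm (fejerPoly P a) :=
  HolSm.of_differentiableOn one_lt_two (differentiable_fejerPoly P a).differentiableOn

theorem fejerPoly_zero (a : ℝ → ℂ) : fejerPoly P a 0 = 0 := by
  unfold fejerPoly
  refine Finset.sum_eq_zero fun k hk => ?_
  rw [Finset.mem_Icc] at hk
  have : (k + P + 1).toNat ≠ 0 := by omega
  rw [zero_pow this, mul_zero]

theorem bd_fejerPoly (a : ℝ → ℂ) (θ : ℝ) :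
    bd (fejerPoly P a) θ = ech ((P : ℤ) + 1) θ * fejer P a θ := by
  unfold bd fejerPoly fejer
  rw [Finset.mul_sum]
  refine Finset.sum_congr rfl fun k hk => ?_
  rw [Finset.mem_Icc] at hk
  rw [← ech_natCast, Int.toNat_of_nonneg (by omega), add_assoc, ech_add]
  ring

theorem hsq_bd_fejerPoly_le (ha : Continuous a) :
    hsq (bd (fejerPoly P a)) ≤ (2 * (P : ℝ) + 1) * pavg fun θ => ‖a θ‖ ^ 2 := by
  have h1 := hasSum_sq_fc ha
  have e : bd (fejerPoly P a) = fun θ => ech ((P : ℤ) + 1) θ * fejer P a θ :=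
    funext fun θ => bd_fejerPoly P a θ
  rw [← h1.tsum_eq, ← tsum_mul_left, hsq, e,
    ← (Equiv.addRight ((P : ℤ) + 1)).tsum_eq fun k : ℤ =>
      |(k : ℝ)| * ‖fc (fun θ => ech ((P : ℤ) + 1) θ * fejer P a θ) k‖ ^ 2]
  have hterm : ∀ k : ℤ, |(((Equiv.addRight ((P : ℤ) + 1)) k : ℤ) : ℝ)| *
      ‖fc (fun θ => ech ((P : ℤ) + 1) θ * fejer P a θ) ((Equiv.addRight ((P : ℤ) + 1)) k)‖ ^ 2 ≤
      (2 * (P : ℝ) + 1) * ‖fc a k‖ ^ 2 := by
    intro k
    rw [fc_ech_mul, Equiv.coe_addRight, add_sub_cancel_right, fc_fejer', norm_mul,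
      Complex.norm_real, Real.norm_eq_abs, abs_of_nonneg (fejW_nonneg P k), mul_pow]
    by_cases hk : k ∈ Finset.Icc (-(P : ℤ)) P
    · have h2 : fejW P k ^ 2 ≤ 1 := pow_le_one₀ (fejW_nonneg P k) (fejW_le_one P k)
      have h3 : |((k + ((P : ℤ) + 1) : ℤ) : ℝ)| ≤ 2 * (P : ℝ) + 1 := by
        rw [Finset.mem_Icc] at hk
        have h4 : |k + ((P : ℤ) + 1)| ≤ 2 * (P : ℤ) + 1 := by
          rw [abs_le]
          constructor <;> omega
        exact_mod_cast h4
      calc |((k + ((P : ℤ) + 1) : ℤ) : ℝ)| * (fejW P k ^ 2 * ‖fc a k‖ ^ 2)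
          ≤ (2 * (P : ℝ) + 1) * (1 * ‖fc a k‖ ^ 2) := by gcongr
        _ = _ := by ring
    · rw [fejW_of_not_mem P hk]
      simp
      positivity
  refine Summable.tsum_le_tsum hterm ?_ (h1.summable.mul_left _)
  exact Summable.of_nonneg_of_le (fun k => by positivity) hterm (h1.summable.mul_left _)

end scalar

end Claimed.Agent.R316.B14
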