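import Claimed.Agent.R316.B14.HalfSobC

/-!
# B14, leaf D: the half Sobolev seminorm.  Difference quotient formula and boundary calculus
(eq. (disc:half-sobolev), (var:boundary-calculus), (var:log-energy-identity) of the paper)

## Plan

1. **Kernel.** `dqK θ = 2 - 2 cos θ = 4 sin² (θ/2)`; Jordan (`Real.mul_le_sin`) gives
   `dqK θ ≥ (4/π²) min(θ, 2π-θ)²` on `[0, 2π]`.  For `g` admissible, periodicity in the first slot
   gives `g (t+θ) t ≤ K min(θ, 2π-θ)` for `θ ∈ [0,2π]`, hence `g (t+θ) t ^ 2 / dqK θ ≤ K² π²/4`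
   (`DQAdm.bound`).  `θ ↦ pavg (fun t => g (t+θ) t ^ 2)` is continuous
   (`intervalIntegral.continuous_parametric_intervalIntegral_of_continuous`), so the outer integrand
   is measurable and bounded: `DQAdm.intervalIntegrable`.
2. **`dq` is an `L²` norm**: monotone; Minkowski from Cauchy-Schwarz for the positive symmetric
   bilinear form `⟪g, g'⟫ = pavg_θ (pavg_t (g g') / dqK θ)` (discriminant argument or
   `inner_mul_le_norm_mul_norm`-free: `2 x y ≤ λ x² + λ⁻¹ y²`).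
3. **Fejér kernel integral** `pavg (fun θ => ‖ech k θ - 1‖^2 / dqK θ) = |k|`: for `θ ∉ 2πℤ`,
   `(ech k θ - 1) = (ech 1 θ - 1) ∑_{j<k} ech j θ` (geometric sum, `k ≥ 0`; `k < 0` by conjugation),
   so the integrand is a.e. `‖∑_{j<|k|} ech j θ‖² = ∑_{j,l} ech (j-l) θ`, average `|k|` (`pavg_ech`).
4. **Formula** `hsq_eq_dqsq`: by `fc_shift`, `fc_sub`, Parseval,
   `pavg_t ‖a (t+θ) - a t‖² = ∑_k ‖ech k θ - 1‖² ‖fc a k‖²`.  Partial sums over finite `S ⊆ ℤ`: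
   `∑_{k∈S} |k| ‖fc a k‖² = pavg_θ (∑_{k∈S} ... / dqK θ) ≤ dqsq (..)`: summability
   (`summable_of_sum_le`).  Equality: `hasSum_integral_of_summable_norm` /
   `integral_tsum` / dominated convergence (dominating function = the full quotient, bounded).
5. Everything else in the file is a corollary of 2, 4 or of Cauchy-Schwarz for series
   (`Summable.tsum_mul_le..`, `inner_le_nnorm_mul_nnorm` on `lp`, or the elementary
   `tsum_mul_le_sqrt_tsum_mul_sqrt_tsum`-type lemma `Real.inner_le_Lp_mul_Lq_tsum_of_nonneg`).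
-/

set_option autoImplicit false
open scoped ContDiff ComplexOrder ComplexConjugate Matrix Real
open MeasureTheory

namespace Claimed.Agent.R316.B14

open Claimed.Agent.R316

section calculus

variable {a b : ℝ → ℂ}

/-- master lemma (scalar form): domination of increments. -/
theorem hD_le_of_dist_le {ι : Type} [Fintype ι] {f : ι → ℝ → ℂ} (hf : ∀ i, CLip (f i))
    (hb : CLip b) {A : ι → ℝ} (hA : ∀ i, 0 ≤ A i)
    (h : ∀ s t, ‖b s - b t‖ ≤ ∑ i, A i * ‖f i s - f i t‖) : hD b ≤ ∑ i, A i * hD (f i) := by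
  rw [hD_eq_dq hb]
  have hadm : ∀ i ∈ Finset.univ, DQAdm fun s t => A i * ‖f i s - f i t‖ :=
    fun i _ => (hf i).dqAdm.const_mul (hA i)
  refine (dq_mono hb.dqAdm (DQAdm.sum Finset.univ hadm) h).trans ?_
  refine (dq_sum_le Finset.univ hadm).trans (le_of_eq ?_)
  refine Finset.sum_congr rfl fun i _ => ?_
  rw [dq_const_mul (hA i), hD_eq_dq (hf i)]

/-- `D(Ψ ∘ a) ≤ Lip(Ψ) D(a)`. -/
theorem hD_comp_le (ha : CLip a) (hb : CLip b) {K : ℝ} (hK : 0 ≤ K)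
    (h : ∀ s t, ‖b s - b t‖ ≤ K * ‖a s - a t‖) : hD b ≤ K * hD a := by
  rw [hD_eq_dq hb, hD_eq_dq ha, ← dq_const_mul hK]
  exact dq_mono hb.dqAdm (ha.dqAdm.const_mul hK) h

/-- vector form of `D(Ψ ∘ a) ≤ Lip(Ψ) D(a)`. -/
theorem hDV_comp_le {ι κ : Type} [Fintype ι] [Fintype κ] {f : ℝ → ι → ℂ} {e : ℝ → κ → ℂ}
    (hf : ∀ i, CLip fun θ => f θ i) (he : ∀ j, CLip fun θ => e θ j) {K : ℝ} (hK : 0 ≤ K)
    (h : ∀ s t, dist2 e s t ≤ K * dist2 f s t) : hDV e ≤ K * hDV f := by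
  rw [hDV_eq_dq he, hDV_eq_dq hf, ← dq_const_mul hK]
  exact dq_mono (dqAdm_dist2 he) ((dqAdm_dist2 hf).const_mul hK) h

/-- scalar function of a vector. -/
theorem hD_comp_vec_le {ι : Type} [Fintype ι] {f : ℝ → ι → ℂ} (hf : ∀ i, CLip fun θ => f θ i)
    (hb : CLip b) {K : ℝ} (hK : 0 ≤ K) (h : ∀ s t, ‖b s - b t‖ ≤ K * dist2 f s t) :
    hD b ≤ K * hDV f := by
  rw [hD_eq_dq hb, hDV_eq_dq hf, ← dq_const_mul hK]
  exact dq_mono hb.dqAdm ((dqAdm_dist2 hf).const_mul hK) h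

/-- matrix form (e.g. matrix clipping, functional calculus). -/
theorem hDM_comp_le {ι κ ι' κ' : Type} [Fintype ι] [Fintype κ] [Fintype ι'] [Fintype κ']
    {A : ℝ → Matrix ι κ ℂ} {B : ℝ → Matrix ι' κ' ℂ} (hA : ∀ i j, CLip fun θ => A θ i j)
    (hB : ∀ i j, CLip fun θ => B θ i j) {K : ℝ} (hK : 0 ≤ K)
    (h : ∀ s t, distF B s t ≤ K * distF A s t) : hDM B ≤ K * hDM A := by
  rw [hDM_eq_dq hB, hDM_eq_dq hA, ← dq_const_mul hK]
  exact dq_mono (dqAdm_distF hB) ((dqAdm_distF hA).const_mul hK) h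

theorem hD_add_le (ha : CLip a) (hb : CLip b) : hD (fun θ => a θ + b θ) ≤ hD a + hD b := by
  rw [hD_eq_dq (ha.add hb), hD_eq_dq ha, hD_eq_dq hb]
  refine (dq_mono (ha.add hb).dqAdm (ha.dqAdm.add hb.dqAdm) fun s t => ?_).trans
    (dq_add_le ha.dqAdm hb.dqAdm)
  calc ‖a s + b s - (a t + b t)‖ = ‖(a s - a t) + (b s - b t)‖ := by congr 1; ring
    _ ≤ _ := norm_add_le _ _

theorem hD_neg (a : ℝ → ℂ) : hD (fun θ => - a θ) = hD a := by
  rw [hD, hsq_neg, hD]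

theorem hD_sub_le (ha : CLip a) (hb : CLip b) : hD (fun θ => a θ - b θ) ≤ hD a + hD b := by
  have h := hD_add_le ha hb.neg
  rw [hD_neg] at h
  simpa only [sub_eq_add_neg] using h

theorem hD_sum_le {α : Type} (s : Finset α) {f : α → ℝ → ℂ} (hf : ∀ i ∈ s, CLip (f i)) :
    hD (fun θ => ∑ i ∈ s, f i θ) ≤ ∑ i ∈ s, hD (f i) := by
  rw [hD_eq_dq (CLip.sum s hf)]
  have hadm : ∀ i ∈ s, DQAdm fun x t => ‖f i x - f i t‖ := fun i hi => (hf i hi).dqAdm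
  refine (dq_mono (CLip.sum s hf).dqAdm (DQAdm.sum s hadm) fun x t => ?_).trans ?_
  · rw [← Finset.sum_sub_distrib]
    exact norm_sum_le _ _
  · refine (dq_sum_le s hadm).trans (le_of_eq ?_)
    exact Finset.sum_congr rfl fun i hi => (hD_eq_dq (hf i hi)).symm

/-- `D(ab) ≤ ‖a‖_∞ D(b) + ‖b‖_∞ D(a)`. -/
theorem hD_mul_le (ha : CLip a) (hb : CLip b) {A B : ℝ} (hA : ∀ θ, ‖a θ‖ ≤ A)
    (hB : ∀ θ, ‖b θ‖ ≤ B) : hD (fun θ => a θ * b θ) ≤ A * hD b + B * hD a := by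
  have hA0 : 0 ≤ A := (norm_nonneg _).trans (hA 0)
  have hB0 : 0 ≤ B := (norm_nonneg _).trans (hB 0)
  rw [hD_eq_dq (ha.mul hb), hD_eq_dq ha, hD_eq_dq hb, ← dq_const_mul hA0, ← dq_const_mul hB0]
  refine (dq_mono (ha.mul hb).dqAdm ((hb.dqAdm.const_mul hA0).add (ha.dqAdm.const_mul hB0))
    fun s t => ?_).trans (dq_add_le (hb.dqAdm.const_mul hA0) (ha.dqAdm.const_mul hB0))
  calc ‖a s * b s - a t * b t‖ = ‖a s * (b s - b t) + b t * (a s - a t)‖ := by congr 1; ring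
    _ ≤ ‖a s * (b s - b t)‖ + ‖b t * (a s - a t)‖ := norm_add_le _ _
    _ = ‖a s‖ * ‖b s - b t‖ + ‖b t‖ * ‖a s - a t‖ := by rw [norm_mul, norm_mul]
    _ ≤ A * ‖b s - b t‖ + B * ‖a s - a t‖ := by
        gcongr
        · exact hA s
        · exact hB t

theorem sqrt_frobSq_mul_le {ι κ μ : Type} [Fintype ι] [Fintype κ] [Fintype μ] (A : Matrix ι κ ℂ)
    (B : Matrix κ μ ℂ) :
    Real.sqrt (frobSq (A * B)) ≤ Real.sqrt (frobSq A) * Real.sqrt (frobSq B) := by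
  have h0 : 0 ≤ frobSq A := Finset.sum_nonneg fun _ _ => Finset.sum_nonneg fun _ _ => sq_nonneg _
  rw [← Real.sqrt_mul h0]
  exact Real.sqrt_le_sqrt (frobSq_mul_le A B)

theorem sqrt_nsq_mulVec_le {ι κ : Type} [Fintype ι] [Fintype κ] (A : Matrix ι κ ℂ) (v : κ → ℂ) :
    Real.sqrt (nsq (A *ᵥ v)) ≤ Real.sqrt (frobSq A) * Real.sqrt (nsq v) := by
  have h0 : 0 ≤ frobSq A := Finset.sum_nonneg fun _ _ => Finset.sum_nonneg fun _ _ => sq_nonneg _
  rw [← Real.sqrt_mul h0]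
  exact Real.sqrt_le_sqrt (nsq_mulVec_le A v)

theorem CLip.matMul {ι κ μ : Type} [Fintype κ] {A : ℝ → Matrix ι κ ℂ}
    {B : ℝ → Matrix κ μ ℂ} (hA : ∀ i j, CLip fun θ => A θ i j) (hB : ∀ i j, CLip fun θ => B θ i j)
    (i : ι) (j : μ) : CLip fun θ => (A θ * B θ) i j := by
  simp only [Matrix.mul_apply]
  exact CLip.sum _ fun k _ => (hA i k).mul (hB k j)

theorem CLip.mulVec {ι κ : Type} [Fintype κ] {A : ℝ → Matrix ι κ ℂ}
    {v : ℝ → κ → ℂ} (hA : ∀ i j, CLip fun θ => A θ i j) (hv : ∀ j, CLip fun θ => v θ j)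
    (i : ι) : CLip fun θ => (A θ *ᵥ v θ) i := by
  simp only [Matrix.mulVec, dotProduct]
  exact CLip.sum _ fun k _ => (hA i k).mul (hv k)

/-- matrix product, Frobenius bounds. -/
theorem hDM_mul_le {ι κ μ : Type} [Fintype ι] [Fintype κ] [Fintype μ] {A : ℝ → Matrix ι κ ℂ}
    {B : ℝ → Matrix κ μ ℂ} (hA : ∀ i j, CLip fun θ => A θ i j) (hB : ∀ i j, CLip fun θ => B θ i j)
    {α β : ℝ} (hα0 : 0 ≤ α) (hβ0 : 0 ≤ β) (hα : ∀ θ, frobSq (A θ) ≤ α ^ 2)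
    (hβ : ∀ θ, frobSq (B θ) ≤ β ^ 2) :
    hDM (fun θ => A θ * B θ) ≤ α * hDM B + β * hDM A := by
  have hAB := CLip.matMul hA hB
  rw [hDM_eq_dq hAB, hDM_eq_dq hA, hDM_eq_dq hB, ← dq_const_mul hα0, ← dq_const_mul hβ0]
  refine (dq_mono (dqAdm_distF hAB) (((dqAdm_distF hB).const_mul hα0).add
    ((dqAdm_distF hA).const_mul hβ0)) fun s t => ?_).trans
    (dq_add_le ((dqAdm_distF hB).const_mul hα0) ((dqAdm_distF hA).const_mul hβ0))
  have e : A s * B s - A t * B t = A s * (B s - B t) + (A s - A t) * B t := by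
    rw [Matrix.mul_sub, Matrix.sub_mul]
    abel
  have h1 : Real.sqrt (frobSq (A s)) ≤ α := Real.sqrt_le_iff.2 ⟨hα0, hα s⟩
  have h2 : Real.sqrt (frobSq (B t)) ≤ β := Real.sqrt_le_iff.2 ⟨hβ0, hβ t⟩
  unfold distF
  rw [e]
  calc Real.sqrt (frobSq (A s * (B s - B t) + (A s - A t) * B t))
      ≤ Real.sqrt (frobSq (A s * (B s - B t))) + Real.sqrt (frobSq ((A s - A t) * B t)) :=
        sqrt_frobSq_add_le _ _
    _ ≤ Real.sqrt (frobSq (A s)) * Real.sqrt (frobSq (B s - B t)) +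
        Real.sqrt (frobSq (A s - A t)) * Real.sqrt (frobSq (B t)) :=
        add_le_add (sqrt_frobSq_mul_le _ _) (sqrt_frobSq_mul_le _ _)
    _ ≤ α * Real.sqrt (frobSq (B s - B t)) + β * Real.sqrt (frobSq (A s - A t)) := by
        rw [mul_comm (Real.sqrt (frobSq (A s - A t)))]
        gcongr

/-- matrix times column. -/
theorem hDV_mulVec_le {ι κ : Type} [Fintype ι] [Fintype κ] {A : ℝ → Matrix ι κ ℂ}
    {v : ℝ → κ → ℂ} (hA : ∀ i j, CLip fun θ => A θ i j) (hv : ∀ j, CLip fun θ => v θ j)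
    {α β : ℝ} (hα0 : 0 ≤ α) (hβ0 : 0 ≤ β) (hα : ∀ θ, frobSq (A θ) ≤ α ^ 2)
    (hβ : ∀ θ, nsq (v θ) ≤ β ^ 2) :
    hDV (fun θ => A θ *ᵥ v θ) ≤ α * hDV v + β * hDM A := by
  have hAv := CLip.mulVec hA hv
  rw [hDV_eq_dq hAv, hDM_eq_dq hA, hDV_eq_dq hv, ← dq_const_mul hα0, ← dq_const_mul hβ0]
  refine (dq_mono (dqAdm_dist2 hAv) (((dqAdm_dist2 hv).const_mul hα0).add
    ((dqAdm_distF hA).const_mul hβ0)) fun s t => ?_).trans
    (dq_add_le ((dqAdm_dist2 hv).const_mul hα0) ((dqAdm_distF hA).const_mul hβ0))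
  have e : A s *ᵥ v s - A t *ᵥ v t = A s *ᵥ (v s - v t) + (A s - A t) *ᵥ v t := by
    rw [Matrix.mulVec_sub, Matrix.sub_mulVec]
    abel
  have h1 : Real.sqrt (frobSq (A s)) ≤ α := Real.sqrt_le_iff.2 ⟨hα0, hα s⟩
  have h2 : Real.sqrt (nsq (v t)) ≤ β := Real.sqrt_le_iff.2 ⟨hβ0, hβ t⟩
  unfold distF dist2
  rw [e]
  calc Real.sqrt (nsq (A s *ᵥ (v s - v t) + (A s - A t) *ᵥ v t))
      ≤ Real.sqrt (nsq (A s *ᵥ (v s - v t))) + Real.sqrt (nsq ((A s - A t) *ᵥ v t)) :=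
        sqrt_nsq_add_le _ _
    _ ≤ Real.sqrt (frobSq (A s)) * Real.sqrt (nsq (v s - v t)) +
        Real.sqrt (frobSq (A s - A t)) * Real.sqrt (nsq (v t)) :=
        add_le_add (sqrt_nsq_mulVec_le _ _) (sqrt_nsq_mulVec_le _ _)
    _ ≤ α * Real.sqrt (nsq (v s - v t)) + β * Real.sqrt (frobSq (A s - A t)) := by
        rw [mul_comm (Real.sqrt (frobSq (A s - A t)))]
        gcongr

/-- scalar times vector. -/
theorem hDV_smul_le {ι : Type} [Fintype ι] {v : ℝ → ι → ℂ} (ha : CLip a)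
    (hv : ∀ j, CLip fun θ => v θ j) {α β : ℝ} (hα0 : 0 ≤ α) (hβ0 : 0 ≤ β) (hα : ∀ θ, ‖a θ‖ ≤ α)
    (hβ : ∀ θ, nsq (v θ) ≤ β ^ 2) :
    hDV (fun θ => a θ • v θ) ≤ α * hDV v + β * hD a := by
  have hav : ∀ j, CLip fun θ => (a θ • v θ) j := fun j => ha.mul (hv j)
  rw [hDV_eq_dq hav, hD_eq_dq ha, hDV_eq_dq hv, ← dq_const_mul hα0, ← dq_const_mul hβ0]
  refine (dq_mono (dqAdm_dist2 hav) (((dqAdm_dist2 hv).const_mul hα0).add
    (ha.dqAdm.const_mul hβ0)) fun s t => ?_).trans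
    (dq_add_le ((dqAdm_dist2 hv).const_mul hα0) (ha.dqAdm.const_mul hβ0))
  have e : a s • v s - a t • v t = a s • (v s - v t) + (a s - a t) • v t := by
    rw [smul_sub, sub_smul]
    abel
  have h2 : Real.sqrt (nsq (v t)) ≤ β := Real.sqrt_le_iff.2 ⟨hβ0, hβ t⟩
  unfold dist2
  rw [e]
  calc Real.sqrt (nsq (a s • (v s - v t) + (a s - a t) • v t))
      ≤ Real.sqrt (nsq (a s • (v s - v t))) + Real.sqrt (nsq ((a s - a t) • v t)) :=
        sqrt_nsq_add_le _ _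
    _ = ‖a s‖ * Real.sqrt (nsq (v s - v t)) + ‖a s - a t‖ * Real.sqrt (nsq (v t)) := by
        rw [sqrt_nsq_smul, sqrt_nsq_smul]
    _ ≤ α * Real.sqrt (nsq (v s - v t)) + β * ‖a s - a t‖ := by
        rw [mul_comm ‖a s - a t‖]
        gcongr
        exact hα s

theorem hsqM_conjTranspose {ι κ : Type} [Fintype ι] [Fintype κ] (A : ℝ → Matrix ι κ ℂ) :
    hsqM (fun θ => (A θ)ᴴ) = hsqM A := by
  unfold hsqM
  rw [Finset.sum_comm]
  refine Finset.sum_congr rfl fun i _ => Finset.sum_congr rfl fun j _ => ?_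
  exact hsq_conj fun θ => A θ i j

theorem hsq_le_hsqV {ι : Type} [Fintype ι] (a : ℝ → ι → ℂ) (i : ι) :
    hsq (fun θ => a θ i) ≤ hsqV a :=
  Finset.single_le_sum (f := fun i => hsq fun θ => a θ i) (fun _ _ => hsq_nonneg _)
    (Finset.mem_univ i)

theorem hsq_le_hsqM {ι κ : Type} [Fintype ι] [Fintype κ] (A : ℝ → Matrix ι κ ℂ) (i : ι) (j : κ) :
    hsq (fun θ => A θ i j) ≤ hsqM A := by
  refine le_trans ?_ (Finset.single_le_sum (f := fun i => ∑ j, hsq fun θ => A θ i j)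
    (fun _ _ => Finset.sum_nonneg fun _ _ => hsq_nonneg _) (Finset.mem_univ i))
  exact Finset.single_le_sum (f := fun j => hsq fun θ => A θ i j) (fun _ _ => hsq_nonneg _)
    (Finset.mem_univ j)

end calculus

end Claimed.Agent.R316.B14
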