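import Claimed.Agent.R316.Pack010

/-!
# B14, leaf D: the half Sobolev seminorm.  Difference quotient formula and boundary calculus
(eq. (disc:half-sobolev), (var:boundary-calculus), (var:log-energy-identity) of the paper)

## Plan

1. **Kernel.** `dqK θ = 2 - 2 cos θ = 4 sin² (θ/2)`; Jordan (`Real.mul_le_sin`) gives
   `dqK θ ≥ (4/π²) min(θ, 2π-θ)²` on `[0, 2π]`.  For `g` admissible, periodicity in the first slot
   gives `g (t+θ) t ≤ K min(θ, 2π-θ)` for `θ ∈ [0,2π]`, hence `g (t+θ) t ^ 2 / dqK θ ≤ K² π²/4`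
   (`DQAdm.bound`).  `θ ↦ pavg (fun t => g (t+θ) t ^ 2)` is continuous
   (`intervalIntegral.continuous_parametric_intervalIntegral_of_continuous`), so the outer integrand
   is measurable and bounded: `DQAdm.intervalIntegrable`.
2. **`dq` is an `L²` norm**: monotone; Minkowski from Cauchy-Schwarz for the positive symmetric
   bilinear form `⟪g, g'⟫ = pavg_θ (pavg_t (g g') / dqK θ)` (discriminant argument or
   `inner_mul_le_norm_mul_norm`-free: `2 x y ≤ λ x² + λ⁻¹ y²`).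
3. **Fejér kernel integral** `pavg (fun θ => ‖ech k θ - 1‖^2 / dqK θ) = |k|`: for `θ ∉ 2πℤ`,
   `(ech k θ - 1) = (ech 1 θ - 1) ∑_{j<k} ech j θ` (geometric sum, `k ≥ 0`; `k < 0` by conjugation),
   so the integrand is a.e. `‖∑_{j<|k|} ech j θ‖² = ∑_{j,l} ech (j-l) θ`, average `|k|` (`pavg_ech`).
4. **Formula** `hsq_eq_dqsq`: by `fc_shift`, `fc_sub`, Parseval,
   `pavg_t ‖a (t+θ) - a t‖² = ∑_k ‖ech k θ - 1‖² ‖fc a k‖²`.  Partial sums over finite `S ⊆ ℤ`:
   `∑_{k∈S} |k| ‖fc a k‖² = pavg_θ (∑_{k∈S} ... / dqK θ) ≤ dqsq (..)`: summability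
   (`summable_of_sum_le`).  Equality: `hasSum_integral_of_summable_norm` /
   `integral_tsum` / dominated convergence (dominating function = the full quotient, bounded).
5. Everything else in the file is a corollary of 2, 4 or of Cauchy-Schwarz for series
   (`Summable.tsum_mul_le..`, `inner_le_nnorm_mul_nnorm` on `lp`, or the elementary
   `tsum_mul_le_sqrt_tsum_mul_sqrt_tsum`-type lemma `Real.inner_le_Lp_mul_Lq_tsum_of_nonneg`).
-/

set_option autoImplicit false
open scoped ContDiff ComplexOrder ComplexConjugate Matrix Real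
open MeasureTheory

namespace Claimed.Agent.R316.B14

open Claimed.Agent.R316

section fourierSide

variable {a b : ℝ → ℂ}

theorem hsq_const (c : ℂ) : hsq (fun _ => c) = 0 := by
  unfold hsq
  have h : ∀ k : ℤ, |(k : ℝ)| * ‖fc (fun _ => c) k‖ ^ 2 = 0 := by
    intro k
    rw [fc_const]
    by_cases hk : k = 0
    · simp [hk]
    · simp [hk]
  simp only [h, tsum_zero]

theorem hsq_add_const (ha : Continuous a) (c : ℂ) : hsq (fun θ => a θ + c) = hsq a := by
  unfold hsq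
  refine tsum_congr fun k => ?_
  rw [fc_add ha continuous_const, fc_const]
  by_cases hk : k = 0
  · simp [hk]
  · simp [hk]

theorem hsq_const_mul (c : ℂ) (a : ℝ → ℂ) : hsq (fun θ => c * a θ) = ‖c‖ ^ 2 * hsq a := by
  unfold hsq
  rw [← tsum_mul_left]
  refine tsum_congr fun k => ?_
  rw [fc_const_mul, norm_mul]
  ring

theorem hD_const_mul (c : ℂ) (a : ℝ → ℂ) : hD (fun θ => c * a θ) = ‖c‖ * hD a := by
  rw [hD, hsq_const_mul, Real.sqrt_mul (sq_nonneg _), Real.sqrt_sq (norm_nonneg _), hD]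

theorem hsq_neg (a : ℝ → ℂ) : hsq (fun θ => - a θ) = hsq a := by
  unfold hsq
  simp only [fc_neg, norm_neg]

theorem tsum_abs_comp_neg (f : ℤ → ℝ) :
    ∑' k : ℤ, |(k : ℝ)| * f (-k) = ∑' k : ℤ, |(k : ℝ)| * f k := by
  rw [← (Equiv.neg ℤ).tsum_eq fun k : ℤ => |(k : ℝ)| * f k]
  refine tsum_congr fun k => ?_
  simp

theorem hsq_conj (a : ℝ → ℂ) : hsq (fun θ => conj (a θ)) = hsq a := by
  unfold hsq
  simp only [fc_conj, Complex.norm_conj]
  exact tsum_abs_comp_neg fun k => ‖fc a k‖ ^ 2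

theorem hsq_shift (hp : Function.Periodic a (2 * π)) (τ : ℝ) : hsq (fun θ => a (θ + τ)) = hsq a := by
  unfold hsq
  simp only [fc_shift hp, norm_mul, norm_ech, one_mul]

theorem hsq_comp_neg (hp : Function.Periodic a (2 * π)) : hsq (fun θ => a (-θ)) = hsq a := by
  unfold hsq
  simp only [fc_comp_neg hp]
  exact tsum_abs_comp_neg fun k => ‖fc a k‖ ^ 2

theorem hsq_ech (k : ℤ) : hsq (ech k) = |(k : ℝ)| := by
  unfold hsq
  rw [tsum_eq_single k]
  · simp [fc_ech]
  · intro j hj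
    simp [fc_ech, hj]

theorem hsq_re_add_im (ha : CLip a) :
    hsq a = hsq (fun θ => (((a θ).re : ℝ) : ℂ)) + hsq fun θ => (((a θ).im : ℝ) : ℂ) := by
  rw [hsq_eq_dqsq ha, hsq_eq_dqsq ha.re, hsq_eq_dqsq ha.im]
  have h := dqsq_sqrt_sum_sq (Finset.univ : Finset Bool)
    (f := fun i s t => if i then ‖(((a s).re : ℝ) : ℂ) - (((a t).re : ℝ) : ℂ)‖
      else ‖(((a s).im : ℝ) : ℂ) - (((a t).im : ℝ) : ℂ)‖) (by
      intro i _
      cases i
      · simpa using ha.im.dqAdm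
      · simpa using ha.re.dqAdm)
  simp only [Fintype.sum_bool, if_true, Bool.false_eq_true, if_false] at h
  rw [← h]
  congr 1
  funext s t
  rw [← Complex.ofReal_sub, ← Complex.ofReal_sub, Complex.norm_real, Complex.norm_real,
    Real.norm_eq_abs, Real.norm_eq_abs, sq_abs, sq_abs, ← Complex.sub_re, ← Complex.sub_im,
    Complex.norm_eq_sqrt_sq_add_sq]

/-- Cauchy-Schwarz for series of nonnegative terms. -/
theorem tsum_mul_le_sqrt_mul_sqrt {α : Type} {x y : α → ℝ} (hx : Summable fun k => x k ^ 2)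
    (hy : Summable fun k => y k ^ 2) :
    ∑' k, x k * y k ≤ Real.sqrt (∑' k, x k ^ 2) * Real.sqrt (∑' k, y k ^ 2) := by
  refine tsum_le_of_sum_le' (by positivity) fun s => ?_
  refine (Real.sum_mul_le_sqrt_mul_sqrt s x y).trans ?_
  gcongr
  · exact hx.sum_le_tsum s fun _ _ => sq_nonneg _
  · exact hy.sum_le_tsum s fun _ _ => sq_nonneg _

theorem CLip.summable_abs_mul (ha : CLip a) (hb : CLip b) :
    Summable fun k : ℤ => |(k : ℝ)| * (‖fc a k‖ * ‖fc b k‖) := by
  refine Summable.of_nonneg_of_le (fun k => by positivity) (fun k => ?_)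
    (ha.summable_hsq.add hb.summable_hsq)
  have h1 : ‖fc a k‖ * ‖fc b k‖ ≤ ‖fc a k‖ ^ 2 + ‖fc b k‖ ^ 2 := by
    nlinarith [sq_nonneg (‖fc a k‖ - ‖fc b k‖), sq_nonneg (‖fc a k‖ + ‖fc b k‖)]
  calc |(k : ℝ)| * (‖fc a k‖ * ‖fc b k‖) ≤ |(k : ℝ)| * (‖fc a k‖ ^ 2 + ‖fc b k‖ ^ 2) := by gcongr
    _ = _ := by ring

theorem CLip.tsum_abs_mul_le (ha : CLip a) (hb : CLip b) :
    ∑' k : ℤ, |(k : ℝ)| * (‖fc a k‖ * ‖fc b k‖) ≤ hD a * hD b := by
  have e : ∀ (c : ℝ → ℂ) (k : ℤ), (Real.sqrt |(k : ℝ)| * ‖fc c k‖) ^ 2 = |(k : ℝ)| * ‖fc c k‖ ^ 2 := by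
    intro c k
    rw [mul_pow, Real.sq_sqrt (abs_nonneg _)]
  have h := tsum_mul_le_sqrt_mul_sqrt (x := fun k : ℤ => Real.sqrt |(k : ℝ)| * ‖fc a k‖)
    (y := fun k : ℤ => Real.sqrt |(k : ℝ)| * ‖fc b k‖) (by simpa only [e] using ha.summable_hsq)
    (by simpa only [e] using hb.summable_hsq)
  simp only [e] at h
  refine le_trans (le_of_eq (tsum_congr fun k => ?_)) h
  have := Real.mul_self_sqrt (abs_nonneg (k : ℝ))
  calc |(k : ℝ)| * (‖fc a k‖ * ‖fc b k‖)
      = (Real.sqrt |(k : ℝ)| * Real.sqrt |(k : ℝ)|) * (‖fc a k‖ * ‖fc b k‖) := by rw [this]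
    _ = _ := by ring

theorem CLip.summable_hB (ha : CLip a) (hb : CLip b) :
    Summable fun k : ℤ => ((|(k : ℝ)| : ℝ) : ℂ) * (fc a k * conj (fc b k)) := by
  refine Summable.of_norm_bounded (ha.summable_abs_mul hb) fun k => ?_
  rw [norm_mul, norm_mul, Complex.norm_conj, Complex.norm_real, Real.norm_eq_abs, abs_abs]

theorem hB_self (a : ℝ → ℂ) : hB a a = ((hsq a : ℝ) : ℂ) := by
  unfold hB hsq
  rw [Complex.ofReal_tsum]
  refine tsum_congr fun k => ?_
  rw [Complex.mul_conj, Complex.normSq_eq_norm_sq]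
  push_cast
  ring

theorem hB_conj_symm (a b : ℝ → ℂ) : hB b a = conj (hB a b) := by
  unfold hB
  have h := tsum_star (L := .unconditional ℤ)
    (f := fun k : ℤ => ((|(k : ℝ)| : ℝ) : ℂ) * (fc a k * conj (fc b k)))
  rw [starRingEnd_apply, h]
  refine tsum_congr fun k => ?_
  rw [← starRingEnd_apply, map_mul, map_mul, Complex.conj_conj, Complex.conj_ofReal]
  ring

theorem hB_add_left {a' : ℝ → ℂ} (ha : CLip a) (ha' : CLip a') (hb : CLip b) :
    hB (fun θ => a θ + a' θ) b = hB a b + hB a' b := by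
  unfold hB
  rw [← (ha.summable_hB hb).tsum_add (ha'.summable_hB hb)]
  refine tsum_congr fun k => ?_
  rw [fc_add ha.continuous ha'.continuous]
  ring

theorem hB_add_right {b' : ℝ → ℂ} (ha : CLip a) (hb : CLip b) (hb' : CLip b') :
    hB a (fun θ => b θ + b' θ) = hB a b + hB a b' := by
  rw [hB_conj_symm, hB_add_left hb hb' ha, map_add, ← hB_conj_symm, ← hB_conj_symm]

theorem hB_const_mul_left (c : ℂ) (a b : ℝ → ℂ) : hB (fun θ => c * a θ) b = c * hB a b := by
  unfold hB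
  rw [← tsum_mul_left]
  refine tsum_congr fun k => ?_
  rw [fc_const_mul]
  ring

theorem hB_const_mul_right (c : ℂ) (a b : ℝ → ℂ) : hB a (fun θ => c * b θ) = conj c * hB a b := by
  rw [hB_conj_symm, hB_const_mul_left, map_mul, ← hB_conj_symm]

/-- Cauchy-Schwarz for `B_D`. -/
theorem norm_hB_le (ha : CLip a) (hb : CLip b) : ‖hB a b‖ ≤ hD a * hD b := by
  refine le_trans ?_ (ha.tsum_abs_mul_le hb)
  refine (ha.summable_hB hb).hasSum.norm_le_of_bounded (ha.summable_abs_mul hb).hasSum fun k => ?_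
  rw [norm_mul, norm_mul, Complex.norm_conj, Complex.norm_real, Real.norm_eq_abs, abs_abs]

theorem hsq_add (ha : CLip a) (hb : CLip b) :
    hsq (fun θ => a θ + b θ) = hsq a + hsq b + 2 * (hB a b).re := by
  have h1 := (ha.summable_hsq.hasSum.add hb.summable_hsq.hasSum).add
    ((Complex.hasSum_re (ha.summable_hB hb).hasSum).mul_left 2)
  refine Eq.trans (tsum_congr fun k => ?_) h1.tsum_eq
  rw [fc_add ha.continuous hb.continuous]
  have h2 : ‖fc a k + fc b k‖ ^ 2 = ‖fc a k‖ ^ 2 + ‖fc b k‖ ^ 2 + 2 * (fc a k * conj (fc b k)).re := by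
    rw [← Complex.normSq_eq_norm_sq, ← Complex.normSq_eq_norm_sq, ← Complex.normSq_eq_norm_sq,
      Complex.normSq_add]
  rw [h2, Complex.re_ofReal_mul]
  ring

/-- `|⟨a, ∂_θ b⟩| ≤ D(a) D(b)`, sesquilinear form. -/
theorem norm_pavg_mul_conj_deriv_le (ha : CLip a) (hb : CSm b) :
    ‖pavg fun θ => a θ * conj (deriv b θ)‖ ≤ hD a * hD b := by
  refine le_trans ?_ (ha.tsum_abs_mul_le hb.cLip)
  refine (hasSum_fc_mul_conj ha.continuous hb.derivative.continuous).norm_le_of_bounded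
    (ha.summable_abs_mul hb.cLip).hasSum fun k => ?_
  rw [fc_deriv hb.per (hb.smooth.of_le (by exact_mod_cast le_top)), norm_mul, Complex.norm_conj,
    norm_mul, norm_mul, Complex.norm_I, mul_one, Complex.norm_intCast]
  exact le_of_eq (by ring)

/-- `|⟨a, ∂_θ b⟩| ≤ D(a) D(b)`, bilinear form. -/
theorem norm_pavg_mul_deriv_le (ha : CLip a) (hb : CSm b) :
    ‖pavg fun θ => a θ * deriv b θ‖ ≤ hD a * hD b := by
  have hb' : CSm fun θ => b (-θ) := hb.comp_neg
  have e : hD (fun θ => b (-θ)) = hD b := by rw [hD, hsq_comp_neg hb.per, hD]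
  rw [← e]
  refine le_trans ?_ (ha.tsum_abs_mul_le hb'.cLip)
  refine (hasSum_fc_mul_fc_neg ha.continuous hb.derivative.continuous).norm_le_of_bounded
    (ha.summable_abs_mul hb'.cLip).hasSum fun k => ?_
  rw [fc_deriv hb.per (hb.smooth.of_le (by exact_mod_cast le_top)), fc_comp_neg hb.per, norm_mul,
    norm_mul, norm_mul, Complex.norm_I, mul_one, Complex.norm_intCast]
  push_cast
  rw [abs_neg]
  exact le_of_eq (by ring)

/-- for `a` with nonnegative frequencies only: `D(a)² = -i ⟨∂_θ a, a⟩`. -/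
theorem hsq_eq_pavg_deriv_of_nonneg (ha : CSm a) (h : ∀ k : ℤ, k < 0 → fc a k = 0) :
    ((hsq a : ℝ) : ℂ) = - Complex.I * pavg fun θ => deriv a θ * conj (a θ) := by
  have h1 := (hasSum_fc_mul_conj ha.derivative.continuous ha.continuous).mul_left (-Complex.I)
  rw [← h1.tsum_eq, hsq, Complex.ofReal_tsum]
  refine tsum_congr fun k => ?_
  rw [fc_deriv ha.per (ha.smooth.of_le (by exact_mod_cast le_top))]
  rcases lt_or_ge k 0 with hk | hk
  · simp [h k hk]
  · have hk' : |(k : ℝ)| = k := abs_of_nonneg (by exact_mod_cast hk)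
    rw [hk']
    have h2 : fc a k * conj (fc a k) = ((‖fc a k‖ ^ 2 : ℝ) : ℂ) := by
      rw [Complex.mul_conj, Complex.normSq_eq_norm_sq]
    calc (((k : ℝ) * ‖fc a k‖ ^ 2 : ℝ) : ℂ) = (k : ℂ) * ((‖fc a k‖ ^ 2 : ℝ) : ℂ) := by push_cast; ring
      _ = -(Complex.I * Complex.I) * ((k : ℂ) * (fc a k * conj (fc a k))) := by
          rw [h2, Complex.I_mul_I]; ring
      _ = _ := by ring

theorem abs_le_sq_int (k : ℤ) : |(k : ℝ)| ≤ |(k : ℝ)| ^ 2 := by
  rcases eq_or_ne k 0 with rfl | hk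
  · simp
  · have h1 : (1 : ℝ) ≤ |(k : ℝ)| := by
      have : (1 : ℤ) ≤ |k| := Int.one_le_abs hk
      exact_mod_cast this
    nlinarith

theorem hsq_le_pavg_deriv (ha : CSm a) : hsq a ≤ pavg fun θ => ‖deriv a θ‖ ^ 2 := by
  have h1 := hasSum_sq_fc ha.derivative.continuous
  rw [← h1.tsum_eq]
  refine ha.cLip.summable_hsq.tsum_le_tsum (fun k => ?_) h1.summable
  rw [fc_deriv ha.per (ha.smooth.of_le (by exact_mod_cast le_top)), norm_mul, norm_mul,
    Complex.norm_I, mul_one, Complex.norm_intCast, mul_pow]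
  gcongr
  exact abs_le_sq_int k

/-- Poincaré: the nonconstant `L²` mass is bounded by `D²`. -/
theorem pavg_sub_pavg_sq_le_hsq (ha : CLip a) : pavg (fun θ => ‖a θ - pavg a‖ ^ 2) ≤ hsq a := by
  have h1 := hasSum_sq_fc (a := fun θ => a θ - pavg a) (ha.continuous.sub continuous_const)
  rw [← h1.tsum_eq]
  refine h1.summable.tsum_le_tsum (fun k => ?_) ha.summable_hsq
  rw [fc_sub ha.continuous continuous_const, fc_const]
  rcases eq_or_ne k 0 with rfl | hk
  · simp [fc_zero_index]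
  · have h2 : (1 : ℝ) ≤ |(k : ℝ)| := by
      have : (1 : ℤ) ≤ |k| := Int.one_le_abs hk
      exact_mod_cast this
    simp only [hk, if_false, sub_zero]
    nlinarith [sq_nonneg ‖fc a k‖]

/-- one sided series. -/
theorem hsq_eq_tsum_nat (h : ∀ k : ℤ, k < 0 → fc a k = 0) :
    hsq a = ∑' n : ℕ, (n : ℝ) * ‖fc a (n : ℤ)‖ ^ 2 := by
  unfold hsq
  rw [← Function.Injective.tsum_eq (g := fun n : ℕ => (n : ℤ)) Nat.cast_injective]
  · refine tsum_congr fun n => ?_
    simp
  · intro k hk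
    rcases lt_or_ge k 0 with hk0 | hk0
    · exact absurd (by simp [h k hk0]) hk
    · exact ⟨k.toNat, Int.toNat_of_nonneg hk0⟩

end fourierSide

end Claimed.Agent.R316.B14
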