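import Claimed.Agent.R316.B14.HalfSob
import Claimed.Agent.R316.Pack007

/-!
# B14, leaf H: functions holomorphic on the disc and smooth on the closed disc

`HolSm h := DiffContOnCl ℂ h (ball 0 1) ∧ ContDiff ℝ ∞ (bd h)`.

## Plan

1. `HolSm.fc_neg`, `HolSm.fc_nat`: for `k : ℤ`, `fc (bd h) k = (2πi)⁻¹ ∮ h(ζ) ζ^{-k-1} dζ`
   (unfold `circleIntegral`, `deriv_circleMap`).  For `k < 0` the integrand `h ζ ζ^{-k-1}` is
   `DiffContOnCl`, so the integral vanishes (`DiffContOnCl.circleIntegral_eq_zero` /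
   `Complex.circleIntegral_eq_zero_of_differentiable_on_off_countable`).  For `k = n ≥ 0` it is
   the coefficient of `cauchyPowerSeries h 0 1`; `DiffContOnCl.hasFPowerSeriesOnBall` gives
   `h ζ = ∑ fc (bd h) n ζ^n` for `|ζ| < 1`.
2. `HolSm.rapidN` from `CSm.rapid`.  `HolSm.hasSum` on the CLOSED disc: both sides are continuous on
   the closed disc (the series converges normally, `continuousOn_tsum`) and agree on the open one
   (closure of the ball); or on the circle use `CSm.hasSum` + `HolSm.fc_neg`.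
3. `RapidN.holSm_psum`: `psum c` is differentiable on the ball
   (`differentiableOn_tsum_of_summable_norm`), continuous on the closed ball (`continuousOn_tsum`),
   and `bd (psum c) = synth (extension of c by zero)`, smooth by `RapidZ.cSm_synth`.
4. maximum principle: `Complex.norm_le_of_forall_mem_frontier_norm_le` (values in
   `EuclideanSpace ℂ ι` for the vector form), frontier of the ball = sphere = range of `circleMap`.
5. closure properties: `DiffContOnCl` calculus + `ContDiff` calculus.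
6. derivative: termwise (`hasDerivAt_tsum`/`HasFPowerSeriesOnBall.derivative`), bounded by
   `∑ n ‖c n‖`.
-/

set_option autoImplicit false
open scoped ContDiff ComplexOrder ComplexConjugate Matrix Real
open MeasureTheory

namespace Claimed.Agent.R316.B14

open Claimed.Agent.R316

section synthesis

variable {c : ℕ → ℂ}

theorem circleMap_mem_closedBall (θ : ℝ) : circleMap 0 1 θ ∈ Metric.closedBall (0 : ℂ) 1 :=
  Metric.sphere_subset_closedBall (circleMap_mem_sphere 0 zero_le_one θ)

theorem exists_circleMap_of_norm_eq_one {ζ : ℂ} (h : ‖ζ‖ = 1) : ∃ θ : ℝ, circleMap 0 1 θ = ζ := by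
  have h1 : ζ ∈ Set.range (circleMap 0 1) := by
    rw [range_circleMap, abs_one]
    simpa using h
  exact h1

theorem norm_mul_pow_le_of_mem (c : ℕ → ℂ) {ζ : ℂ} (hζ : ζ ∈ Metric.closedBall (0 : ℂ) 1) (n : ℕ) :
    ‖c n * ζ ^ n‖ ≤ ‖c n‖ := by
  have h1 : ‖ζ‖ ≤ 1 := by simpa using hζ
  rw [norm_mul, norm_pow]
  exact mul_le_of_le_one_right (norm_nonneg _) (pow_le_one₀ (norm_nonneg _) h1)

theorem RapidN.hasSum_psum (hc : RapidN c) {ζ : ℂ} (hζ : ζ ∈ Metric.closedBall (0 : ℂ) 1) :
    HasSum (fun n : ℕ => c n * ζ ^ n) (psum c ζ) :=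
  (Summable.of_norm_bounded hc.summable_norm (norm_mul_pow_le_of_mem c hζ)).hasSum

theorem bd_psum_eq_synth (c : ℕ → ℂ) :
    bd (psum c) = synth fun k : ℤ => if 0 ≤ k then c k.toNat else 0 := by
  funext θ
  unfold bd psum synth
  rw [← Function.Injective.tsum_eq (g := fun n : ℕ => (n : ℤ)) Nat.cast_injective]
  · refine tsum_congr fun n => ?_
    simp [ech_natCast]
  · intro k hk
    rcases lt_or_ge k 0 with hk0 | hk0
    · exact absurd (by simp [not_le.2 hk0]) hk
    · exact ⟨k.toNat, Int.toNat_of_nonneg hk0⟩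

/-- **synthesis**. -/
theorem RapidN.holSm_psum (hc : RapidN c) : HolSm (psum c) := by
  refine ⟨⟨?_, ?_⟩, ?_⟩
  · exact Complex.differentiableOn_tsum_of_summable_norm hc.summable_norm
      (fun n => ((differentiable_id.pow n).const_mul (c n)).differentiableOn) Metric.isOpen_ball
      fun n w hw => norm_mul_pow_le_of_mem c (Metric.ball_subset_closedBall hw) n
  · rw [closure_ball (0 : ℂ) one_ne_zero]
    exact continuousOn_tsum (fun n => ((continuous_id.pow n).const_mul (c n)).continuousOn)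
      hc.summable_norm fun n w hw => norm_mul_pow_le_of_mem c hw n
  · rw [bd_psum_eq_synth]
    exact (rapidN_iff.1 hc).cSm_synth.smooth

theorem RapidN.fc_bd_psum (hc : RapidN c) (k : ℤ) :
    fc (bd (psum c)) k = if 0 ≤ k then c k.toNat else 0 := by
  rw [bd_psum_eq_synth, (rapidN_iff.1 hc).fc_synth_eq]

theorem RapidN.fc_bd_psum_nat (hc : RapidN c) (n : ℕ) : fc (bd (psum c)) (n : ℤ) = c n := by
  rw [hc.fc_bd_psum]
  simp

theorem psum_zero_arg (c : ℕ → ℂ) : psum c 0 = c 0 := by
  unfold psum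
  rw [tsum_eq_single 0]
  · simp
  · intro n hn
    simp [hn]

/-- Szegő projection of a smooth function. -/
theorem holSm_szego {a : ℝ → ℂ} (ha : CSm a) : HolSm (szego a) :=
  ha.rapid.rapidN.holSm_psum

theorem fc_bd_szego {a : ℝ → ℂ} (ha : CSm a) (k : ℤ) :
    fc (bd (szego a)) k = if 0 ≤ k then fc a k else 0 := by
  unfold szego
  rw [ha.rapid.rapidN.fc_bd_psum]
  by_cases hk : 0 ≤ k
  · simp [hk, Int.toNat_of_nonneg hk]
  · simp [hk]

theorem szego_center (a : ℝ → ℂ) : szego a 0 = pavg a := by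
  unfold szego
  rw [psum_zero_arg]
  exact fc_zero_index a

/-- a smooth function on the circle without negative frequencies is the boundary function of its
Szegő projection. -/
theorem bd_szego_of_fc_neg {a : ℝ → ℂ} (ha : CSm a) (h : ∀ k : ℤ, k < 0 → fc a k = 0) :
    bd (szego a) = a := by
  refine eq_of_fc_eq (holSm_szego ha).smooth.continuous (bd_periodic _) ha.continuous ha.per
    fun k => ?_
  rw [fc_bd_szego ha]
  by_cases hk : 0 ≤ k
  · simp [hk]
  · simp [hk, h k (not_le.1 hk)]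

end synthesis

section basic

variable {f g : ℂ → ℂ}

theorem HolSm.cSm_bd (hf : HolSm f) : CSm (bd f) := ⟨bd_periodic f, hf.smooth⟩

theorem HolSm.continuousOn (hf : HolSm f) : ContinuousOn f (Metric.closedBall 0 1) := by
  have h := hf.diffCont.continuousOn
  rwa [closure_ball (0 : ℂ) one_ne_zero] at h

theorem HolSm.differentiableOn (hf : HolSm f) : DifferentiableOn ℂ f (Metric.ball 0 1) :=
  hf.diffCont.differentiableOn

/-- only the values on the closed disc matter. -/
theorem HolSm.congr (hf : HolSm f) (h : Set.EqOn f g (Metric.closedBall 0 1)) : HolSm g := by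
  refine ⟨⟨?_, ?_⟩, ?_⟩
  · exact hf.differentiableOn.congr fun z hz => (h (Metric.ball_subset_closedBall hz)).symm
  · rw [closure_ball (0 : ℂ) one_ne_zero]
    exact hf.continuousOn.congr fun z hz => (h hz).symm
  · have e : bd g = bd f := by
      funext θ
      exact (h (circleMap_mem_closedBall θ)).symm
    rw [e]
    exact hf.smooth

/-- negative Fourier coefficients vanish. -/
theorem HolSm.fc_neg (hf : HolSm f) {k : ℤ} (hk : k < 0) : fc (bd f) k = 0 := by
  obtain ⟨n, rfl⟩ : ∃ n : ℕ, k = -((n : ℤ) + 1) := ⟨(-k - 1).toNat, by omega⟩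
  have h1 : DiffContOnCl ℂ (fun z : ℂ => z ^ n * f z) (Metric.ball 0 1) :=
    ((differentiable_id.pow n).diffContOnCl).smul hf.diffCont
  have h2 := h1.circleIntegral_eq_zero zero_le_one
  unfold circleIntegral at h2
  have h3 : ∀ θ : ℝ, deriv (circleMap 0 1) θ • (circleMap 0 1 θ ^ n * f (circleMap 0 1 θ)) =
      Complex.I * (ech (-(-((n : ℤ) + 1))) θ * bd f θ) := by
    intro θ
    rw [deriv_circleMap, neg_neg, ech_add, ech_natCast, ech_one, smul_eq_mul, bd]
    ring
  simp only [h3] at h2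
  rw [intervalIntegral.integral_const_mul] at h2
  have h4 := (mul_eq_zero.1 h2).resolve_left Complex.I_ne_zero
  unfold fc pavg
  rw [h4, smul_zero]

theorem HolSm.rapidN (hf : HolSm f) : RapidN fun n : ℕ => fc (bd f) (n : ℤ) :=
  hf.cSm_bd.rapid.rapidN

/-- identity principle from the boundary. -/
theorem HolSm.eqOn_of_bd_eq (hf : HolSm f) (hg : HolSm g) (h : ∀ θ, bd f θ = bd g θ) :
    Set.EqOn f g (Metric.closedBall 0 1) := by
  have h1 := Complex.eqOn_closure_of_eqOn_frontier Metric.isBounded_ball hf.diffCont hg.diffCont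
    (by
      rw [frontier_ball (0 : ℂ) one_ne_zero]
      intro z hz
      obtain ⟨θ, rfl⟩ := exists_circleMap_of_norm_eq_one (by simpa using hz)
      exact h θ)
  rwa [closure_ball (0 : ℂ) one_ne_zero] at h1

theorem HolSm.eq_szego (hf : HolSm f) : Set.EqOn f (szego (bd f)) (Metric.closedBall 0 1) := by
  refine hf.eqOn_of_bd_eq (holSm_szego hf.cSm_bd) fun θ => ?_
  rw [bd_szego_of_fc_neg hf.cSm_bd fun k hk => hf.fc_neg hk]

/-- **power series on the closed disc**. -/
theorem HolSm.hasSum (hf : HolSm f) {ζ : ℂ} (hζ : ζ ∈ Metric.closedBall (0 : ℂ) 1) :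
    HasSum (fun n : ℕ => fc (bd f) (n : ℤ) * ζ ^ n) (f ζ) := by
  rw [hf.eq_szego hζ]
  exact hf.rapidN.hasSum_psum hζ

/-- mean value property. -/
theorem HolSm.center (hf : HolSm f) : f 0 = pavg (bd f) := by
  rw [hf.eq_szego (Metric.mem_closedBall_self zero_le_one), szego_center]

/-- maximum principle. -/
theorem HolSm.norm_le (hf : HolSm f) {C : ℝ} (h : ∀ θ, ‖bd f θ‖ ≤ C) {ζ : ℂ}
    (hζ : ζ ∈ Metric.closedBall (0 : ℂ) 1) : ‖f ζ‖ ≤ C := by
  refine Complex.norm_le_of_forall_mem_frontier_norm_le Metric.isBounded_ball hf.diffCont ?_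
    (by rwa [closure_ball (0 : ℂ) one_ne_zero])
  rw [frontier_ball (0 : ℂ) one_ne_zero]
  intro z hz
  obtain ⟨θ, rfl⟩ := exists_circleMap_of_norm_eq_one (by simpa using hz)
  exact h θ

/-- maximum principle for holomorphic columns. -/
theorem nsq_le_of_bd {ι : Type} [Fintype ι] {Z : ℂ → ι → ℂ} (hZ : ∀ i, HolSm fun ζ => Z ζ i)
    {C : ℝ} (h : ∀ θ, nsq (bd Z θ) ≤ C) {ζ : ℂ} (hζ : ζ ∈ Metric.closedBall (0 : ℂ) 1) :
    nsq (Z ζ) ≤ C := by
  have hC : 0 ≤ C := (nsq_nonneg _).trans (h 0)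
  have hd : DiffContOnCl ℂ (fun ζ => (WithLp.toLp 2 (Z ζ) : EuclideanSpace ℂ ι))
      (Metric.ball 0 1) := by
    refine ⟨differentiableOn_euclidean.2 fun i => (hZ i).differentiableOn, ?_⟩
    exact (PiLp.continuous_toLp 2 _).comp_continuousOn
      (continuousOn_pi.2 fun i => (hZ i).diffCont.continuousOn)
  have h1 : ‖(WithLp.toLp 2 (Z ζ) : EuclideanSpace ℂ ι)‖ ≤ Real.sqrt C := by
    refine Complex.norm_le_of_forall_mem_frontier_norm_le Metric.isBounded_ball hd ?_
      (by rwa [closure_ball (0 : ℂ) one_ne_zero])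
    rw [frontier_ball (0 : ℂ) one_ne_zero]
    intro z hz
    obtain ⟨θ, rfl⟩ := exists_circleMap_of_norm_eq_one (by simpa using hz)
    rw [← sqrt_nsq]
    exact Real.sqrt_le_sqrt (h θ)
  rw [nsq_eq_norm_sq]
  calc ‖(WithLp.toLp 2 (Z ζ) : EuclideanSpace ℂ ι)‖ ^ 2 ≤ Real.sqrt C ^ 2 := by gcongr
    _ = C := Real.sq_sqrt hC

end basic

end Claimed.Agent.R316.B14
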