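import Claimed.Agent.R316.B14.HolSmA

/-!
# B14, leaf H: functions holomorphic on the disc and smooth on the closed disc

`HolSm h := DiffContOnCl ℂ h (ball 0 1) ∧ ContDiff ℝ ∞ (bd h)`.

## Plan

1. `HolSm.fc_neg`, `HolSm.fc_nat`: for `k : ℤ`, `fc (bd h) k = (2πi)⁻¹ ∮ h(ζ) ζ^{-k-1} dζ`
   (unfold `circleIntegral`, `deriv_circleMap`).  For `k < 0` the integrand `h ζ ζ^{-k-1}` is
   `DiffContOnCl`, so the integral vanishes (`DiffContOnCl.circleIntegral_eq_zero` /
   `Complex.circleIntegral_eq_zero_of_differentiable_on_off_countable`).  For `k = n ≥ 0` it is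
   the coefficient of `cauchyPowerSeries h 0 1`; `DiffContOnCl.hasFPowerSeriesOnBall` gives
   `h ζ = ∑ fc (bd h) n ζ^n` for `|ζ| < 1`.
2. `HolSm.rapidN` from `CSm.rapid`.  `HolSm.hasSum` on the CLOSED disc: both sides are continuous on
   the closed disc (the series converges normally, `continuousOn_tsum`) and agree on the open one
   (closure of the ball); or on the circle use `CSm.hasSum` + `HolSm.fc_neg`.
3. `RapidN.holSm_psum`: `psum c` is differentiable on the ball
   (`differentiableOn_tsum_of_summable_norm`), continuous on the closed ball (`continuousOn_tsum`),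
   and `bd (psum c) = synth (extension of c by zero)`, smooth by `RapidZ.cSm_synth`.
4. maximum principle: `Complex.norm_le_of_forall_mem_frontier_norm_le` (values in
   `EuclideanSpace ℂ ι` for the vector form), frontier of the ball = sphere = range of `circleMap`.
5. closure properties: `DiffContOnCl` calculus + `ContDiff` calculus.
6. derivative: termwise (`hasDerivAt_tsum`/`HasFPowerSeriesOnBall.derivative`), bounded by
   `∑ n ‖c n‖`.
-/

set_option autoImplicit false
open scoped ContDiff ComplexOrder ComplexConjugate Matrix Real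
open MeasureTheory

namespace Claimed.Agent.R316.B14

open Claimed.Agent.R316

section closure

variable {f g : ℂ → ℂ}

theorem HolSm.const (c : ℂ) : HolSm fun _ => c := ⟨diffContOnCl_const, contDiff_const⟩

theorem holSm_id : HolSm fun ζ => ζ :=
  ⟨differentiable_id.diffContOnCl, contDiff_circleMap 0 1⟩

theorem HolSm.add (hf : HolSm f) (hg : HolSm g) : HolSm fun ζ => f ζ + g ζ :=
  ⟨hf.diffCont.add hg.diffCont, hf.smooth.add hg.smooth⟩

theorem HolSm.sub (hf : HolSm f) (hg : HolSm g) : HolSm fun ζ => f ζ - g ζ :=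
  ⟨hf.diffCont.sub hg.diffCont, hf.smooth.sub hg.smooth⟩

theorem HolSm.neg (hf : HolSm f) : HolSm fun ζ => - f ζ :=
  ⟨hf.diffCont.neg, hf.smooth.neg⟩

theorem HolSm.mul (hf : HolSm f) (hg : HolSm g) : HolSm fun ζ => f ζ * g ζ :=
  ⟨hf.diffCont.smul hg.diffCont, hf.smooth.mul hg.smooth⟩

theorem HolSm.const_mul (c : ℂ) (hf : HolSm f) : HolSm fun ζ => c * f ζ := (HolSm.const c).mul hf

theorem HolSm.pow (hf : HolSm f) (n : ℕ) : HolSm fun ζ => f ζ ^ n := by
  induction n with
  | zero => simpa using HolSm.const 1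
  | succ n ih => simpa only [pow_succ] using ih.mul hf

theorem HolSm.sum {α : Type} (s : Finset α) {F : α → ℂ → ℂ} (hF : ∀ i ∈ s, HolSm (F i)) :
    HolSm fun ζ => ∑ i ∈ s, F i ζ := by
  classical
  induction s using Finset.induction_on with
  | empty => simpa using HolSm.const 0
  | insert i s hi ih =>
    simp only [Finset.sum_insert hi]
    exact (hF i (Finset.mem_insert_self i s)).add
      (ih fun j hj => hF j (Finset.mem_insert_of_mem hj))

theorem HolSm.prod {α : Type} (s : Finset α) {F : α → ℂ → ℂ} (hF : ∀ i ∈ s, HolSm (F i)) :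
    HolSm fun ζ => ∏ i ∈ s, F i ζ := by
  classical
  induction s using Finset.induction_on with
  | empty => simpa using HolSm.const 1
  | insert i s hi ih =>
    simp only [Finset.prod_insert hi]
    exact (hF i (Finset.mem_insert_self i s)).mul
      (ih fun j hj => hF j (Finset.mem_insert_of_mem hj))

theorem HolSm.cexp (hf : HolSm f) : HolSm fun ζ => Complex.exp (f ζ) :=
  ⟨Complex.differentiable_exp.comp_diffContOnCl hf.diffCont, hf.smooth.cexp⟩

theorem HolSm.inv (hf : HolSm f) (h0 : ∀ ζ ∈ Metric.closedBall (0 : ℂ) 1, f ζ ≠ 0) :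
    HolSm fun ζ => (f ζ)⁻¹ :=
  ⟨hf.diffCont.inv (by rwa [closure_ball (0 : ℂ) one_ne_zero]),
    hf.smooth.inv fun θ => h0 _ (circleMap_mem_closedBall θ)⟩

/-- holomorphic past the circle. -/
theorem HolSm.of_differentiableOn {r : ℝ} (hr : 1 < r)
    (hf : DifferentiableOn ℂ f (Metric.ball 0 r)) : HolSm f := by
  refine ⟨hf.diffContOnCl_ball (Metric.closedBall_subset_ball hr), ?_⟩
  exact (CSm.bd_of_contDiffOn Metric.isOpen_ball
    (Metric.sphere_subset_closedBall.trans (Metric.closedBall_subset_ball hr))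
    ((hf.contDiffOn Metric.isOpen_ball).restrict_scalars ℝ)).smooth

/-- composition with a holomorphic function of several variables. -/
theorem HolSm.comp {ι : Type} [Fintype ι] {Z : ℂ → ι → ℂ} (hZ : ∀ i, HolSm fun ζ => Z ζ i)
    {Φ : (ι → ℂ) → ℂ} {U : Set (ι → ℂ)} (hU : IsOpen U) (hΦ : DifferentiableOn ℂ Φ U)
    (hr : ∀ ζ ∈ Metric.closedBall (0 : ℂ) 1, Z ζ ∈ U) : HolSm fun ζ => Φ (Z ζ) := by
  refine ⟨⟨?_, ?_⟩, ?_⟩
  · exact hΦ.comp (differentiableOn_pi.2 fun i => (hZ i).differentiableOn)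
      fun ζ hζ => hr ζ (Metric.ball_subset_closedBall hζ)
  · rw [closure_ball (0 : ℂ) one_ne_zero]
    exact hΦ.continuousOn.comp (continuousOn_pi.2 fun i => (hZ i).continuousOn) hr
  · exact (CSm.comp (f := bd Z) (fun i => (hZ i).cSm_bd) hU (hol_contDiffOn_real hU hΦ)
      fun θ => hr _ (circleMap_mem_closedBall θ)).smooth

/-- matrix products, determinants. -/
theorem holSm_matrix_mul {ι κ μ : Type} [Fintype κ] {A : ℂ → Matrix ι κ ℂ} {B : ℂ → Matrix κ μ ℂ}
    (hA : ∀ i j, HolSm fun ζ => A ζ i j) (hB : ∀ i j, HolSm fun ζ => B ζ i j) (i : ι) (j : μ) :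
    HolSm fun ζ => (A ζ * B ζ) i j := by
  simp only [Matrix.mul_apply]
  exact HolSm.sum _ fun k _ => (hA i k).mul (hB k j)

theorem holSm_mulVec {ι κ : Type} [Fintype κ] {A : ℂ → Matrix ι κ ℂ} {v : ℂ → κ → ℂ}
    (hA : ∀ i j, HolSm fun ζ => A ζ i j) (hv : ∀ j, HolSm fun ζ => v ζ j) (i : ι) :
    HolSm fun ζ => (A ζ *ᵥ v ζ) i := by
  simp only [Matrix.mulVec, dotProduct]
  exact HolSm.sum _ fun k _ => (hA i k).mul (hv k)

theorem holSm_det {ι : Type} [Fintype ι] [DecidableEq ι] {A : ℂ → Matrix ι ι ℂ}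
    (hA : ∀ i j, HolSm fun ζ => A ζ i j) : HolSm fun ζ => (A ζ).det := by
  simp only [Matrix.det_apply, Units.smul_def, zsmul_eq_mul]
  exact HolSm.sum _ fun σ _ => (HolSm.prod _ fun i _ => hA (σ i) i).const_mul _

theorem bd_rotate (f : ℂ → ℂ) (τ θ : ℝ) :
    bd (fun ζ => f (circleMap 0 1 τ * ζ)) θ = bd f (θ + τ) := by
  unfold bd
  rw [← ech_one, ← ech_one, ← ech_one, ech_add_arg, mul_comm]

theorem norm_circleMap_mul (τ : ℝ) (ζ : ℂ) : ‖circleMap 0 1 τ * ζ‖ = ‖ζ‖ := by
  rw [norm_mul, ← ech_one, norm_ech, one_mul]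

/-- rotation. -/
theorem HolSm.rotate (hf : HolSm f) (τ : ℝ) : HolSm fun ζ => f (circleMap 0 1 τ * ζ) := by
  refine ⟨⟨?_, ?_⟩, ?_⟩
  · refine hf.differentiableOn.comp (differentiable_id.const_mul _).differentiableOn ?_
    intro ζ hζ
    simpa [norm_circleMap_mul] using hζ
  · rw [closure_ball (0 : ℂ) one_ne_zero]
    refine hf.continuousOn.comp (continuous_id.const_mul _).continuousOn ?_
    intro ζ hζ
    simpa [norm_circleMap_mul] using hζ
  · have e : bd (fun ζ => f (circleMap 0 1 τ * ζ)) = fun θ => bd f (θ + τ) :=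
      funext fun θ => bd_rotate f τ θ
    rw [e]
    exact hf.smooth.comp (contDiff_id.add contDiff_const)

/-- the vector valued reformulation. -/
theorem holSm_pi_iff {ι : Type} [Fintype ι] {Z : ℂ → ι → ℂ} :
    (∀ i, HolSm fun ζ => Z ζ i) ↔
      DiffContOnCl ℂ Z (Metric.ball 0 1) ∧ ContDiff ℝ ∞ (bd Z) := by
  constructor
  · intro h
    exact ⟨⟨differentiableOn_pi.2 fun i => (h i).differentiableOn,
      continuousOn_pi.2 fun i => (h i).diffCont.continuousOn⟩, contDiff_pi.2 fun i => (h i).smooth⟩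
  · rintro ⟨h1, h2⟩ i
    exact ⟨⟨differentiableOn_pi.1 h1.differentiableOn i, continuousOn_pi.1 h1.continuousOn i⟩,
      contDiff_pi.1 h2 i⟩

theorem contDiff_real_euclidean_iff {ι : Type} [Fintype ι] {W : ℝ → EuclideanSpace ℂ ι} :
    ContDiff ℝ ∞ W ↔ ∀ i, ContDiff ℝ ∞ fun θ => W θ i := by
  constructor
  · intro h i
    exact (((EuclideanSpace.proj i : EuclideanSpace ℂ ι →L[ℂ] ℂ).restrictScalars ℝ).contDiff).comp h
  · intro h
    exact ((((EuclideanSpace.equiv ι ℂ).symm : (ι → ℂ) →L[ℂ] EuclideanSpace ℂ ι).restrictScalars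
      ℝ).contDiff).comp (contDiff_pi.2 h)

theorem holSm_euclidean_iff {ι : Type} [Fintype ι] {Z : ℂ → EuclideanSpace ℂ ι} :
    (∀ i, HolSm fun ζ => Z ζ i) ↔
      DiffContOnCl ℂ Z (Metric.ball 0 1) ∧ ContDiff ℝ ∞ (bd Z) := by
  constructor
  · intro h
    refine ⟨⟨differentiableOn_euclidean.2 fun i => (h i).differentiableOn, ?_⟩,
      contDiff_real_euclidean_iff.2 fun i => (h i).smooth⟩
    exact (PiLp.continuous_toLp 2 _).comp_continuousOn
      (continuousOn_pi.2 fun i => (h i).diffCont.continuousOn)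
  · rintro ⟨h1, h2⟩ i
    refine ⟨⟨differentiableOn_euclidean.1 h1.differentiableOn i, ?_⟩,
      contDiff_real_euclidean_iff.1 h2 i⟩
    exact continuousOn_pi.1 ((PiLp.continuous_ofLp 2 _).comp_continuousOn h1.continuousOn) i

end closure

end Claimed.Agent.R316.B14
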