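import Claimed.Agent.R316.B14.OuterB

/-!
# B14, leaf O: Schwarz integral, Hilbert transform, scalar outer functions
(eq. (var:outer-wall), the function `α` in the proof of Lemma disc-deformation, the clock `Γ`,
logarithmic submean (var:symplectic-submean))

`u : ℝ → ℝ` is a smooth periodic real function, `hu : CSm fun θ => (u θ : ℂ)`.

## Plan

* `schw u = 2 szego u - u_0` is `HolSm` (`holSm_szego`), its boundary coefficients are
  `u_0, 2 u_n (n > 0), 0 (n < 0)` (`fc_bd_szego`).  `bd_schw_re`: the smooth function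
  `θ ↦ (bd (schw u) θ + conj (bd (schw u) θ)) / 2` has the coefficients `u_k` (`fc_conj`,
  `fc_ofReal_neg`), conclude by `eq_of_fc_eq`.
* `fc_hilb`: `hilb u = (bd (schw u) - u) / i`.  `hsq_hilb`, `hsq_bd_schw`: termwise.
* `schw_re_le`: maximum principle (`HolSm.norm_le`) for `exp (schw u)`:
  `‖exp (schw u ζ)‖ = exp (re ..)`.  `le_schw_re`: same for `-u` (`schw_neg`).
* outer function: `outer u = exp ∘ schw u`.
  `hD_phase_le`: `|e^{ix} - e^{iy}| ≤ |x - y|` + `hD_comp_le` + `hsq_hilb`.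
  `hD_bd_outer_le`: `bd (outer u) = e^u · e^{i hilb u}`, `hD_mul_le`, and `|e^x - e^y| ≤ e^C |x-y|` for `x, y ≤ C`.
* `nsq_center_le`: put `u = ½ log nsq (bd Z)`, smooth; `Z / outer u` is a `HolSm` column of norm `1`
  on the circle; `nsq_le_of_bd` at `ζ = 0`; `outer_center`.
* `alpha_*`: elementary inequalities, with `x = |Q| / √P`:
  `|log(1+x²) - log(1+y²)| ≤ |x-y|`, `|(1+x²)⁻¹ - (1+y²)⁻¹| ≤ |x-y|`, `x/(1+x²) ≤ 1/2`,
  `|r(Q)Q - r(Q')Q'| ≤ (9/4)|Q-Q'|` (write it as `r(Q)(Q-Q') + (r(Q)-r(Q'))Q'`),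
  `1 - (1+y)⁻² ≤ 2y`, `log(1+y) ≤ y`.
-/

set_option autoImplicit false
open scoped ContDiff ComplexOrder ComplexConjugate Matrix Real
open MeasureTheory

namespace Claimed.Agent.R316.B14

section realLemmas

theorem abs_log_one_add_sq_sub_le (x y : ℝ) :
    |Real.log (1 + x ^ 2) - Real.log (1 + y ^ 2)| ≤ |x - y| := by
  have hd : ∀ z ∈ (Set.univ : Set ℝ), HasDerivWithinAt (fun z : ℝ => Real.log (1 + z ^ 2))
      ((2 * z) / (1 + z ^ 2)) Set.univ z := by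
    intro z _
    have h1 : HasDerivAt (fun z : ℝ => 1 + z ^ 2) (2 * z) z := by
      simpa using (hasDerivAt_pow 2 z).const_add 1
    exact (h1.log (by positivity)).hasDerivWithinAt
  have hb : ∀ z ∈ (Set.univ : Set ℝ), ‖(2 * z) / (1 + z ^ 2)‖ ≤ 1 := by
    intro z _
    rw [Real.norm_eq_abs, abs_div, abs_of_pos (by positivity : (0 : ℝ) < 1 + z ^ 2),
      div_le_one (by positivity)]
    rw [abs_le]
    constructor <;> nlinarith [sq_nonneg (z - 1), sq_nonneg (z + 1)]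
  have h := Convex.norm_image_sub_le_of_norm_hasDerivWithin_le hd hb convex_univ
    (Set.mem_univ y) (Set.mem_univ x)
  simpa [Real.norm_eq_abs] using h

theorem abs_inv_sub_inv_mul_le {a b P : ℝ} (ha : 0 ≤ a) (hb : 0 ≤ b) (hP : 0 < P) :
    |(1 + a ^ 2 / P)⁻¹ - (1 + b ^ 2 / P)⁻¹| * b ≤ 5 / 4 * |a - b| := by
  have hA : 0 < P + a ^ 2 := by positivity
  have hB : 0 < P + b ^ 2 := by positivity
  have e1 : (1 + a ^ 2 / P)⁻¹ = P / (P + a ^ 2) := by
    field_simp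
  have e2 : (1 + b ^ 2 / P)⁻¹ = P / (P + b ^ 2) := by
    field_simp
  have e3 : P / (P + a ^ 2) - P / (P + b ^ 2) =
      (b - a) * ((a + b) * P / ((P + a ^ 2) * (P + b ^ 2))) := by
    field_simp
    ring
  rw [e1, e2, e3, abs_mul, abs_sub_comm b a,
    abs_of_nonneg (by positivity : 0 ≤ (a + b) * P / ((P + a ^ 2) * (P + b ^ 2)))]
  have key : (a + b) * P / ((P + a ^ 2) * (P + b ^ 2)) * b ≤ 5 / 4 := by
    rw [div_mul_eq_mul_div, div_le_iff₀ (by positivity)]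
    nlinarith [sq_nonneg (P - a * b), mul_nonneg hP.le (sq_nonneg (a - b)), mul_nonneg ha hb,
      mul_nonneg hP.le (sq_nonneg a), mul_nonneg (sq_nonneg a) (sq_nonneg b), sq_nonneg P,
      mul_nonneg hP.le (sq_nonneg b)]
  calc |a - b| * ((a + b) * P / ((P + a ^ 2) * (P + b ^ 2))) * b
      = |a - b| * ((a + b) * P / ((P + a ^ 2) * (P + b ^ 2)) * b) := by ring
    _ ≤ |a - b| * (5 / 4) := by
        gcongr
    _ = 5 / 4 * |a - b| := by ring

end realLemmas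

section alpha

variable {ι : Type} [Fintype ι] {P : ℝ} {Q : ℝ → ι → ℂ}

theorem abs_sqrt_nsq_sub_le (v w : ι → ℂ) :
    |Real.sqrt (nsq v) - Real.sqrt (nsq w)| ≤ Real.sqrt (nsq (v - w)) := by
  have h1 := sqrt_nsq_add_le (v - w) w
  have h2 := sqrt_nsq_add_le (w - v) v
  rw [sub_add_cancel] at h1 h2
  rw [nsq_sub_comm w v] at h2
  rw [abs_le]
  constructor <;> linarith

/-- `log r_P`, `r_P = (1 + |Q|²/P)⁻¹`. -/
noncomputable def alphaU (P : ℝ) (Q : ℝ → ι → ℂ) (θ : ℝ) : ℝ := - Real.log (1 + nsq (Q θ) / P)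

theorem cSm_nsq (hQ : ∀ i, CSm fun θ => Q θ i) : CSm fun θ => ((nsq (Q θ) : ℝ) : ℂ) := by
  unfold nsq
  simp only [Complex.ofReal_sum]
  exact CSm.sum _ fun i _ => (hQ i).normSq

theorem one_add_pos (hP : 0 < P) (Q : ℝ → ι → ℂ) (θ : ℝ) : 0 < 1 + nsq (Q θ) / P := by
  have := nsq_nonneg (Q θ)
  positivity

theorem cSm_one_add (hQ : ∀ i, CSm fun θ => Q θ i) :
    CSm fun θ => ((1 + nsq (Q θ) / P : ℝ) : ℂ) := by
  have h := (CSm.const 1).add ((cSm_nsq hQ).const_mul (((P⁻¹ : ℝ)) : ℂ))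
  have e : (fun θ => ((1 + nsq (Q θ) / P : ℝ) : ℂ)) =
      fun θ => 1 + (((P⁻¹ : ℝ)) : ℂ) * ((nsq (Q θ) : ℝ) : ℂ) := by
    funext θ
    push_cast
    rw [div_eq_mul_inv]
    ring
  rw [e]
  exact h

theorem cSm_alphaU (hP : 0 < P) (hQ : ∀ i, CSm fun θ => Q θ i) :
    CSm fun θ => ((alphaU P Q θ : ℝ) : ℂ) := by
  have h := ((cSm_one_add (P := P) hQ).comp_real (U := {0}ᶜ) isOpen_compl_singleton
    Real.contDiffOn_log fun θ => (one_add_pos hP Q θ).ne').neg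
  simpa only [alphaU, Complex.ofReal_neg] using h

theorem alphaU_nonpos (hP : 0 < P) (Q : ℝ → ι → ℂ) (θ : ℝ) : alphaU P Q θ ≤ 0 := by
  unfold alphaU
  have h1 : 0 ≤ nsq (Q θ) / P := div_nonneg (nsq_nonneg _) hP.le
  have := Real.log_nonneg (by linarith : (1 : ℝ) ≤ 1 + nsq (Q θ) / P)
  linarith

theorem exp_alphaU (hP : 0 < P) (Q : ℝ → ι → ℂ) (θ : ℝ) :
    Real.exp (alphaU P Q θ) = (1 + nsq (Q θ) / P)⁻¹ := by
  unfold alphaU
  rw [Real.exp_neg, Real.exp_log (one_add_pos hP Q θ)]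

theorem norm_bd_alpha (hP : 0 < P) (hQ : ∀ i, CSm fun θ => Q θ i) (θ : ℝ) :
    ‖bd (outer (alphaU P Q)) θ‖ = (1 + nsq (Q θ) / P)⁻¹ := by
  rw [norm_bd_outer (cSm_alphaU hP hQ), exp_alphaU hP]

theorem norm_alpha_le_one (hP : 0 < P) (hQ : ∀ i, CSm fun θ => Q θ i) {ζ : ℂ}
    (hζ : ζ ∈ Metric.closedBall (0 : ℂ) 1) : ‖outer (alphaU P Q) ζ‖ ≤ 1 := by
  have h := norm_outer_le (cSm_alphaU hP hQ) (alphaU_nonpos hP Q) hζ
  rwa [Real.exp_zero] at h

theorem hD_alphaU_le (hP : 0 < P) (hQ : ∀ i, CSm fun θ => Q θ i) :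
    hD (fun θ => ((alphaU P Q θ : ℝ) : ℂ)) ≤ hDV Q / Real.sqrt P := by
  have hsP : 0 < Real.sqrt P := Real.sqrt_pos.2 hP
  have h := hD_comp_vec_le (fun i => (hQ i).cLip) (cSm_alphaU hP hQ).cLip
    (K := (Real.sqrt P)⁻¹) (inv_nonneg.2 hsP.le) (fun s t => by
      rw [← Complex.ofReal_sub, Complex.norm_real, Real.norm_eq_abs]
      unfold alphaU dist2
      have e : ∀ θ, nsq (Q θ) / P = (Real.sqrt (nsq (Q θ)) / Real.sqrt P) ^ 2 := by
        intro θ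
        rw [div_pow, Real.sq_sqrt (nsq_nonneg _), Real.sq_sqrt hP.le]
      rw [e s, e t]
      have h1 := abs_log_one_add_sq_sub_le (Real.sqrt (nsq (Q t)) / Real.sqrt P)
        (Real.sqrt (nsq (Q s)) / Real.sqrt P)
      have h2 : |Real.sqrt (nsq (Q t)) / Real.sqrt P - Real.sqrt (nsq (Q s)) / Real.sqrt P| ≤
          (Real.sqrt P)⁻¹ * Real.sqrt (nsq (Q s - Q t)) := by
        rw [← sub_div, abs_div, abs_of_pos hsP, div_eq_inv_mul, abs_sub_comm]
        exact mul_le_mul_of_nonneg_left (abs_sqrt_nsq_sub_le _ _) (inv_nonneg.2 hsP.le)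
      refine le_trans (le_of_eq ?_) (h1.trans h2)
      congr 1
      ring)
  rwa [inv_mul_eq_div] at h

/-- `D(α) ≤ 2 D(Q)/√P`. -/
theorem hD_bd_alpha_le (hP : 0 < P) (hQ : ∀ i, CSm fun θ => Q θ i) :
    hD (bd (outer (alphaU P Q))) ≤ 2 * hDV Q / Real.sqrt P := by
  have h1 := hD_bd_outer_le (cSm_alphaU hP hQ) (alphaU_nonpos hP Q)
  have h2 := hD_alphaU_le hP hQ
  rw [Real.exp_zero, mul_one] at h1
  calc hD (bd (outer (alphaU P Q))) ≤ 2 * hD (fun θ => ((alphaU P Q θ : ℝ) : ℂ)) := h1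
    _ ≤ 2 * (hDV Q / Real.sqrt P) := by gcongr
    _ = 2 * hDV Q / Real.sqrt P := by ring

theorem inv_sq_mul_le (hP : 0 < P) {q : ℝ} (hq : 0 ≤ q) : ((1 + q / P)⁻¹) ^ 2 * q ≤ P / 4 := by
  have h1 : 0 < P + q := by positivity
  have e : (1 + q / P)⁻¹ = P / (P + q) := by
    field_simp
  rw [e, div_pow, div_mul_eq_mul_div, div_le_iff₀ (by positivity)]
  nlinarith [mul_nonneg hP.le (sq_nonneg (P - q))]

/-- `‖αQ‖_∞ ≤ √P/2`. -/
theorem nsq_alpha_smul_le (hP : 0 < P) (hQ : ∀ i, CSm fun θ => Q θ i) (θ : ℝ) :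
    nsq (bd (outer (alphaU P Q)) θ • Q θ) ≤ P / 4 := by
  rw [nsq_smul, norm_bd_alpha hP hQ]
  exact inv_sq_mul_le hP (nsq_nonneg _)

/-- `D(αQ) ≤ 3 D(Q)`. -/
theorem hDV_alpha_smul_le (hP : 0 < P) (hQ : ∀ i, CSm fun θ => Q θ i) :
    hDV (fun θ => bd (outer (alphaU P Q)) θ • Q θ) ≤ 3 * hDV Q := by
  have hu := cSm_alphaU hP hQ
  have hsP : 0 < Real.sqrt P := Real.sqrt_pos.2 hP
  -- the modulus part
  set V : ℝ → ι → ℂ := fun θ => ((Real.exp (alphaU P Q θ) : ℝ) : ℂ) • Q θ with hV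
  have hVc : ∀ j, CLip fun θ => V θ j := fun j => ((cSm_exp_real hu).mul (hQ j)).cLip
  have hVn : ∀ θ, nsq (V θ) ≤ (Real.sqrt P / 2) ^ 2 := by
    intro θ
    rw [hV, nsq_smul, Complex.norm_real, Real.norm_eq_abs, abs_of_pos (Real.exp_pos _),
      exp_alphaU hP, div_pow, Real.sq_sqrt hP.le]
    have := inv_sq_mul_le hP (nsq_nonneg (Q θ))
    linarith
  have hVD : hDV V ≤ 9 / 4 * hDV Q := by
    refine hDV_comp_le (fun i => (hQ i).cLip) hVc (by norm_num) fun s t => ?_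
    unfold dist2
    have e : V s - V t = ((Real.exp (alphaU P Q s) : ℝ) : ℂ) • (Q s - Q t) +
        (((Real.exp (alphaU P Q s) - Real.exp (alphaU P Q t) : ℝ)) : ℂ) • Q t := by
      rw [hV]
      simp only [smul_sub, Complex.ofReal_sub, sub_smul]
      abel
    rw [e]
    refine (sqrt_nsq_add_le _ _).trans ?_
    rw [sqrt_nsq_smul, sqrt_nsq_smul, Complex.norm_real, Complex.norm_real, Real.norm_eq_abs,
      Real.norm_eq_abs, abs_of_pos (Real.exp_pos _), exp_alphaU hP, exp_alphaU hP]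
    have h1 : (1 + nsq (Q s) / P)⁻¹ ≤ 1 :=
      inv_le_one_of_one_le₀ (by have := div_nonneg (nsq_nonneg (Q s)) hP.le; linarith)
    have h2 := abs_inv_sub_inv_mul_le (Real.sqrt_nonneg (nsq (Q s))) (Real.sqrt_nonneg (nsq (Q t)))
      hP
    rw [Real.sq_sqrt (nsq_nonneg _), Real.sq_sqrt (nsq_nonneg _)] at h2
    have h3 := abs_sqrt_nsq_sub_le (Q s) (Q t)
    have h4 : (1 + nsq (Q s) / P)⁻¹ * Real.sqrt (nsq (Q s - Q t)) ≤
        1 * Real.sqrt (nsq (Q s - Q t)) := mul_le_mul_of_nonneg_right h1 (Real.sqrt_nonneg _)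
    linarith
  have e : (fun θ => bd (outer (alphaU P Q)) θ • Q θ) =
      fun θ => Complex.exp (Complex.I * ((hilb (alphaU P Q) θ : ℝ) : ℂ)) • V θ := by
    funext θ
    rw [hV, bd_outer hu, smul_smul, mul_comm]
  rw [e]
  have h5 := hDV_smul_le (cSm_phase hu).cLip hVc (α := 1) (β := Real.sqrt P / 2) zero_le_one
    (by positivity) (fun θ => le_of_eq (Complex.norm_exp_I_mul_ofReal _)) hVn
  have h6 := (hD_phase_le hu).trans (hD_alphaU_le hP hQ)
  have h7 : Real.sqrt P / 2 * hD (fun θ => Complex.exp (Complex.I *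
      ((hilb (alphaU P Q) θ : ℝ) : ℂ))) ≤ Real.sqrt P / 2 * (hDV Q / Real.sqrt P) :=
    mul_le_mul_of_nonneg_left h6 (by positivity)
  have h8 : Real.sqrt P / 2 * (hDV Q / Real.sqrt P) = hDV Q / 2 := by
    field_simp
  have h9 : 0 ≤ hDV Q := Real.sqrt_nonneg _
  linarith

/-- `⟨1 - |α|²⟩ ≤ 2 ‖Q‖₂²/P`. -/
theorem pavg_one_sub_alpha_sq_le (hP : 0 < P) (hQ : ∀ i, CSm fun θ => Q θ i) :
    pavg (fun θ => 1 - ‖bd (outer (alphaU P Q)) θ‖ ^ 2) ≤ 2 * pavg (fun θ => nsq (Q θ)) / P := by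
  have hq : Continuous fun θ => nsq (Q θ) := by
    unfold nsq
    exact continuous_finsetSum _ fun i _ => ((hQ i).continuous.norm).pow 2
  have c1 : Continuous fun θ => 1 - ‖bd (outer (alphaU P Q)) θ‖ ^ 2 :=
    continuous_const.sub (((holSm_outer (cSm_alphaU hP hQ)).smooth.continuous.norm).pow 2)
  have c2 : Continuous fun θ => 2 / P * nsq (Q θ) := continuous_const.mul hq
  have h := pavg_mono c1 c2 (fun θ => by
    rw [norm_bd_alpha hP hQ]
    have hz : 0 ≤ nsq (Q θ) / P := div_nonneg (nsq_nonneg _) hP.le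
    set z := nsq (Q θ) / P with hzdef
    have e : 2 / P * nsq (Q θ) = 2 * z := by
      rw [hzdef]
      ring
    rw [e, inv_pow, sub_le_iff_le_add, ← sub_le_iff_le_add', ← one_div,
      le_div_iff₀ (by positivity)]
    nlinarith [mul_nonneg hz hz, mul_nonneg (mul_nonneg hz hz) hz])
  rw [pavg_const_mul_real] at h
  calc _ ≤ 2 / P * pavg (fun θ => nsq (Q θ)) := h
    _ = _ := by ring

/-- `-log α(0) = ⟨log(1+|Q|²/P)⟩ ≤ ‖Q‖₂²/P`. -/
theorem alpha_center (P : ℝ) (Q : ℝ → ι → ℂ) :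
    outer (alphaU P Q) 0 = ((Real.exp (pavg (alphaU P Q)) : ℝ) : ℂ) := outer_center _

theorem neg_pavg_alphaU_le (hP : 0 < P) (hQ : ∀ i, CSm fun θ => Q θ i) :
    - pavg (alphaU P Q) ≤ pavg (fun θ => nsq (Q θ)) / P := by
  have hq : Continuous fun θ => nsq (Q θ) := by
    unfold nsq
    exact continuous_finsetSum _ fun i _ => ((hQ i).continuous.norm).pow 2
  have c0 : Continuous (alphaU P Q) := (cSm_ofReal_iff.1 (cSm_alphaU hP hQ)).2.continuous
  have c1 : Continuous fun θ => - alphaU P Q θ := c0.neg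
  have c2 : Continuous fun θ => nsq (Q θ) / P := hq.div_const P
  rw [← pavg_neg, ← pavg_div_const_real]
  refine pavg_mono c1 c2 fun θ => ?_
  unfold alphaU
  rw [neg_neg]
  have := Real.log_le_sub_one_of_pos (one_add_pos hP Q θ)
  linarith

end alpha

end Claimed.Agent.R316.B14
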