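import Claimed.Agent.R316.B14.HolSm

/-!
# B14, leaf O: Schwarz integral, Hilbert transform, scalar outer functions
(eq. (var:outer-wall), the function `α` in the proof of Lemma disc-deformation, the clock `Γ`,
logarithmic submean (var:symplectic-submean))

`u : ℝ → ℝ` is a smooth periodic real function, `hu : CSm fun θ => (u θ : ℂ)`.

## Plan

* `schw u = 2 szego u - u_0` is `HolSm` (`holSm_szego`), its boundary coefficients are
  `u_0, 2 u_n (n > 0), 0 (n < 0)` (`fc_bd_szego`).  `bd_schw_re`: the smooth function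
  `θ ↦ (bd (schw u) θ + conj (bd (schw u) θ)) / 2` has the coefficients `u_k` (`fc_conj`,
  `fc_ofReal_neg`), conclude by `eq_of_fc_eq`.
* `fc_hilb`: `hilb u = (bd (schw u) - u) / i`.  `hsq_hilb`, `hsq_bd_schw`: termwise.
* `schw_re_le`: maximum principle (`HolSm.norm_le`) for `exp (schw u)`:
  `‖exp (schw u ζ)‖ = exp (re ..)`.  `le_schw_re`: same for `-u` (`schw_neg`).
* outer function: `outer u = exp ∘ schw u`.
  `hD_phase_le`: `|e^{ix} - e^{iy}| ≤ |x - y|` + `hD_comp_le` + `hsq_hilb`.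
  `hD_bd_outer_le`: `bd (outer u) = e^u · e^{i hilb u}`, `hD_mul_le`, and `|e^x - e^y| ≤ e^C |x-y|` for `x, y ≤ C`.
* `nsq_center_le`: put `u = ½ log nsq (bd Z)`, smooth; `Z / outer u` is a `HolSm` column of norm `1`
  on the circle; `nsq_le_of_bd` at `ζ = 0`; `outer_center`.
* `alpha_*`: elementary inequalities, with `x = |Q| / √P`:
  `|log(1+x²) - log(1+y²)| ≤ |x-y|`, `|(1+x²)⁻¹ - (1+y²)⁻¹| ≤ |x-y|`, `x/(1+x²) ≤ 1/2`,
  `|r(Q)Q - r(Q')Q'| ≤ (9/4)|Q-Q'|` (write it as `r(Q)(Q-Q') + (r(Q)-r(Q'))Q'`),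
  `1 - (1+y)⁻² ≤ 2y`, `log(1+y) ≤ y`.
-/

set_option autoImplicit false
open scoped ContDiff ComplexOrder ComplexConjugate Matrix Real
open MeasureTheory

namespace Claimed.Agent.R316.B14

section schwarz

variable {u w : ℝ → ℝ}

theorem holSm_schw (hu : CSm fun θ => ((u θ : ℝ) : ℂ)) : HolSm (schw u) :=
  ((holSm_szego hu).const_mul 2).sub (HolSm.const _)

theorem schw_center (u : ℝ → ℝ) : schw u 0 = ((pavg u : ℝ) : ℂ) := by
  unfold schw
  rw [szego_center, fc_zero_index, pavg_ofReal]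
  ring

theorem fc_bd_schw (hu : CSm fun θ => ((u θ : ℝ) : ℂ)) (k : ℤ) :
    fc (bd (schw u)) k =
      if 0 < k then 2 * fc (fun θ => ((u θ : ℝ) : ℂ)) k
      else if k = 0 then fc (fun θ => ((u θ : ℝ) : ℂ)) 0 else 0 := by
  have e : bd (schw u) = fun θ => 2 * bd (szego fun θ => ((u θ : ℝ) : ℂ)) θ -
      fc (fun θ => ((u θ : ℝ) : ℂ)) 0 := rfl
  have c1 : Continuous fun θ => 2 * bd (szego fun θ => ((u θ : ℝ) : ℂ)) θ :=
    continuous_const.mul (holSm_szego hu).smooth.continuous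
  rw [e, fc_sub c1 continuous_const, fc_const_mul, fc_const, fc_bd_szego hu]
  rcases lt_trichotomy k 0 with hk | hk | hk
  · rw [if_neg (by omega), if_neg (by omega), if_neg (by omega)]
    ring
  · subst hk
    simp
    ring
  · rw [if_pos (by omega), if_neg (by omega), if_pos hk]
    ring

/-- the boundary real part of the Schwarz integral is `u`. -/
theorem bd_schw_re (hu : CSm fun θ => ((u θ : ℝ) : ℂ)) (θ : ℝ) : (bd (schw u) θ).re = u θ := by
  have hS := (holSm_schw hu).cSm_bd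
  have hg : CSm fun θ => (1 / 2 : ℂ) * (bd (schw u) θ + conj (bd (schw u) θ)) :=
    (hS.add hS.conj).const_mul _
  have h := eq_of_fc_eq hg.continuous hg.per hu.continuous hu.per (by
    intro k
    rw [fc_const_mul, fc_add hS.continuous hS.conj.continuous, fc_conj, fc_bd_schw hu,
      fc_bd_schw hu]
    rcases lt_trichotomy k 0 with hk | hk | hk
    · rw [if_neg (by omega), if_neg (by omega), if_pos (by omega), map_mul, ← fc_ofReal_neg,
        neg_neg, Complex.conj_ofNat]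
      ring
    · subst hk
      have h0 := fc_ofReal_neg u 0
      simp only [neg_zero] at h0
      simp only [neg_zero, lt_self_iff_false, if_false, if_true]
      rw [← h0]
      ring
    · rw [if_pos hk, if_neg (by omega), if_neg (by omega), map_zero]
      ring)
  have h1 := congrFun h θ
  have h2 : (1 / 2 : ℂ) * (bd (schw u) θ + conj (bd (schw u) θ)) =
      (((bd (schw u) θ).re : ℝ) : ℂ) := by
    rw [Complex.add_conj]
    push_cast
    ring
  rw [h2] at h1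
  exact_mod_cast h1

theorem bd_schw (hu : CSm fun θ => ((u θ : ℝ) : ℂ)) (θ : ℝ) :
    bd (schw u) θ = ((u θ : ℝ) : ℂ) + Complex.I * ((hilb u θ : ℝ) : ℂ) := by
  rw [← bd_schw_re hu θ, hilb, mul_comm, Complex.re_add_im]

theorem szego_add {a b : ℝ → ℂ} (ha : CSm a) (hb : CSm b) {ζ : ℂ}
    (hζ : ζ ∈ Metric.closedBall (0 : ℂ) 1) :
    szego (fun θ => a θ + b θ) ζ = szego a ζ + szego b ζ := by
  have h1 := (ha.rapid.rapidN.hasSum_psum hζ).add (hb.rapid.rapidN.hasSum_psum hζ)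
  have h2 := (ha.add hb).rapid.rapidN.hasSum_psum hζ
  refine h2.unique ?_
  have e : (fun n : ℕ => fc (fun θ => a θ + b θ) (n : ℤ) * ζ ^ n) =
      fun n : ℕ => fc a (n : ℤ) * ζ ^ n + fc b (n : ℤ) * ζ ^ n := by
    funext n
    rw [fc_add ha.continuous hb.continuous]
    ring
  rw [e]
  exact h1

theorem szego_const_mul (c : ℂ) (a : ℝ → ℂ) (ζ : ℂ) :
    szego (fun θ => c * a θ) ζ = c * szego a ζ := by
  unfold szego psum
  rw [← tsum_mul_left]
  refine tsum_congr fun n => ?_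
  simp only [fc_const_mul]
  ring

theorem szego_const (c : ℂ) (ζ : ℂ) : szego (fun _ => c) ζ = c := by
  unfold szego psum
  rw [tsum_eq_single 0]
  · simp [fc_const]
  · intro n hn
    have : (n : ℤ) ≠ 0 := by exact_mod_cast hn
    simp only [fc_const, if_neg this, zero_mul]

theorem schw_add (hu : CSm fun θ => ((u θ : ℝ) : ℂ)) (hw : CSm fun θ => ((w θ : ℝ) : ℂ)) {ζ : ℂ}
    (hζ : ζ ∈ Metric.closedBall (0 : ℂ) 1) :
    schw (fun θ => u θ + w θ) ζ = schw u ζ + schw w ζ := by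
  unfold schw
  simp only [Complex.ofReal_add]
  rw [szego_add hu hw hζ, fc_add hu.continuous hw.continuous]
  ring

theorem schw_const_mul (c : ℝ) (u : ℝ → ℝ) (ζ : ℂ) :
    schw (fun θ => c * u θ) ζ = (c : ℂ) * schw u ζ := by
  unfold schw
  simp only [Complex.ofReal_mul]
  rw [szego_const_mul, fc_const_mul]
  ring

theorem schw_neg (u : ℝ → ℝ) (ζ : ℂ) : schw (fun θ => - u θ) ζ = - schw u ζ := by
  have h := schw_const_mul (-1) u ζ
  simpa using h

theorem schw_const (c : ℝ) (ζ : ℂ) : schw (fun _ => c) ζ = (c : ℂ) := by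
  unfold schw
  rw [szego_const, fc_const]
  simp
  ring

theorem schw_add_const (hu : CSm fun θ => ((u θ : ℝ) : ℂ)) (c : ℝ) {ζ : ℂ}
    (hζ : ζ ∈ Metric.closedBall (0 : ℂ) 1) : schw (fun θ => u θ + c) ζ = schw u ζ + (c : ℂ) := by
  rw [schw_add hu (CSm.const _) hζ, schw_const]

/-- maximum principle for the harmonic extension. -/
theorem schw_re_le (hu : CSm fun θ => ((u θ : ℝ) : ℂ)) {C : ℝ} (h : ∀ θ, u θ ≤ C) {ζ : ℂ}
    (hζ : ζ ∈ Metric.closedBall (0 : ℂ) 1) : (schw u ζ).re ≤ C := by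
  have h1 := (holSm_schw hu).cexp.norm_le (C := Real.exp C) (fun θ => by
    have e : bd (fun ζ => Complex.exp (schw u ζ)) θ = Complex.exp (bd (schw u) θ) := rfl
    rw [e, Complex.norm_exp, bd_schw_re hu]
    exact Real.exp_le_exp.2 (h θ)) hζ
  rw [Complex.norm_exp] at h1
  exact Real.exp_le_exp.1 h1

theorem cSm_neg_real (hu : CSm fun θ => ((u θ : ℝ) : ℂ)) : CSm fun θ => (((- u θ : ℝ)) : ℂ) := by
  simpa only [Complex.ofReal_neg] using hu.neg

theorem le_schw_re (hu : CSm fun θ => ((u θ : ℝ) : ℂ)) {C : ℝ} (h : ∀ θ, C ≤ u θ) {ζ : ℂ}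
    (hζ : ζ ∈ Metric.closedBall (0 : ℂ) 1) : C ≤ (schw u ζ).re := by
  have h1 := schw_re_le (cSm_neg_real hu) (C := -C) (fun θ => neg_le_neg (h θ)) hζ
  rw [schw_neg, Complex.neg_re] at h1
  linarith

/-- strict form (the circle is compact): the harmonic extension of a positive function is positive. -/
theorem lt_schw_re (hu : CSm fun θ => ((u θ : ℝ) : ℂ)) {C : ℝ} (h : ∀ θ, C < u θ) {ζ : ℂ}
    (hζ : ζ ∈ Metric.closedBall (0 : ℂ) 1) : C < (schw u ζ).re := by
  obtain ⟨hper, hsm⟩ := cSm_ofReal_iff.1 hu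
  obtain ⟨θ₀, -, hmin⟩ := (isCompact_Icc (a := (0 : ℝ)) (b := 2 * π)).exists_isMinOn
    ⟨0, Set.left_mem_Icc.2 two_pi_pos'.le⟩ hsm.continuous.continuousOn
  refine lt_of_lt_of_le (h θ₀) (le_schw_re hu (fun θ => ?_) hζ)
  obtain ⟨θ', hθ', he⟩ := hper.exists_mem_Ico₀ two_pi_pos' θ
  rw [he]
  exact hmin (Set.Ico_subset_Icc_self hθ')

theorem cSm_hilb (hu : CSm fun θ => ((u θ : ℝ) : ℂ)) : CSm fun θ => ((hilb u θ : ℝ) : ℂ) :=
  (holSm_schw hu).cSm_bd.im

theorem hilb_eq (hu : CSm fun θ => ((u θ : ℝ) : ℂ)) (θ : ℝ) :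
    ((hilb u θ : ℝ) : ℂ) = - Complex.I * (bd (schw u) θ - ((u θ : ℝ) : ℂ)) := by
  rw [bd_schw hu θ]
  have := Complex.I_mul_I
  linear_combination (((hilb u θ : ℝ) : ℂ)) * this

theorem fc_hilb (hu : CSm fun θ => ((u θ : ℝ) : ℂ)) (k : ℤ) :
    fc (fun θ => ((hilb u θ : ℝ) : ℂ)) k =
      - Complex.I * ((SignType.sign k : ℤ) : ℂ) * fc (fun θ => ((u θ : ℝ) : ℂ)) k := by
  simp only [hilb_eq hu]
  rw [fc_const_mul, fc_sub (holSm_schw hu).smooth.continuous hu.continuous, fc_bd_schw hu]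
  rcases lt_trichotomy k 0 with hk | hk | hk
  · rw [if_neg (by omega), if_neg (by omega), sign_neg hk]
    simp
  · subst hk
    simp
  · rw [if_pos hk, sign_pos hk]
    simp
    ring

theorem pavg_hilb (hu : CSm fun θ => ((u θ : ℝ) : ℂ)) : pavg (hilb u) = 0 := by
  have h := fc_hilb hu 0
  rw [fc_zero_index, pavg_ofReal] at h
  simp only [sign_zero, SignType.coe_zero, Int.cast_zero, mul_zero, zero_mul] at h
  exact_mod_cast h

theorem norm_fc_hilb (hu : CSm fun θ => ((u θ : ℝ) : ℂ)) {k : ℤ} (hk : k ≠ 0) :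
    ‖fc (fun θ => ((hilb u θ : ℝ) : ℂ)) k‖ = ‖fc (fun θ => ((u θ : ℝ) : ℂ)) k‖ := by
  rw [fc_hilb hu]
  rcases lt_or_gt_of_ne hk with h | h
  · rw [sign_neg h]
    simp
  · rw [sign_pos h]
    simp

/-- the Hilbert transform preserves `D`. -/
theorem hsq_hilb (hu : CSm fun θ => ((u θ : ℝ) : ℂ)) :
    hsq (fun θ => ((hilb u θ : ℝ) : ℂ)) = hsq fun θ => ((u θ : ℝ) : ℂ) := by
  unfold hsq
  refine tsum_congr fun k => ?_
  rcases eq_or_ne k 0 with rfl | hk
  · simp
  · rw [norm_fc_hilb hu hk]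

theorem hsq_bd_schw (hu : CSm fun θ => ((u θ : ℝ) : ℂ)) :
    hsq (bd (schw u)) = 2 * hsq fun θ => ((u θ : ℝ) : ℂ) := by
  rw [hsq_re_add_im (holSm_schw hu).cSm_bd.cLip]
  simp only [bd_schw_re hu]
  have e : (fun θ => (((bd (schw u) θ).im : ℝ) : ℂ)) = fun θ => ((hilb u θ : ℝ) : ℂ) := rfl
  rw [e, hsq_hilb hu]
  ring

/-- the Hilbert transform is an `L²` contraction. -/
theorem pavg_hilb_sq_le (hu : CSm fun θ => ((u θ : ℝ) : ℂ)) :
    pavg (fun θ => hilb u θ ^ 2) ≤ pavg fun θ => u θ ^ 2 := by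
  have h1 := hasSum_sq_fc (cSm_hilb hu).continuous
  have h2 := hasSum_sq_fc hu.continuous
  simp only [Complex.norm_real, Real.norm_eq_abs, sq_abs] at h1 h2
  rw [← h1.tsum_eq, ← h2.tsum_eq]
  refine h1.summable.tsum_le_tsum (fun k => ?_) h2.summable
  rcases eq_or_ne k 0 with rfl | hk
  · rw [fc_hilb hu]
    simp
  · rw [norm_fc_hilb hu hk]

end schwarz

end Claimed.Agent.R316.B14
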