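import Claimed.Agent.R316.B14.OuterA

/-!
# B14, leaf O: Schwarz integral, Hilbert transform, scalar outer functions
(eq. (var:outer-wall), the function `α` in the proof of Lemma disc-deformation, the clock `Γ`,
logarithmic submean (var:symplectic-submean))

`u : ℝ → ℝ` is a smooth periodic real function, `hu : CSm fun θ => (u θ : ℂ)`.

## Plan

* `schw u = 2 szego u - u_0` is `HolSm` (`holSm_szego`), its boundary coefficients are
  `u_0, 2 u_n (n > 0), 0 (n < 0)` (`fc_bd_szego`).  `bd_schw_re`: the smooth function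
  `θ ↦ (bd (schw u) θ + conj (bd (schw u) θ)) / 2` has the coefficients `u_k` (`fc_conj`,
  `fc_ofReal_neg`), conclude by `eq_of_fc_eq`.
* `fc_hilb`: `hilb u = (bd (schw u) - u) / i`.  `hsq_hilb`, `hsq_bd_schw`: termwise.
* `schw_re_le`: maximum principle (`HolSm.norm_le`) for `exp (schw u)`:
  `‖exp (schw u ζ)‖ = exp (re ..)`.  `le_schw_re`: same for `-u` (`schw_neg`).
* outer function: `outer u = exp ∘ schw u`.
  `hD_phase_le`: `|e^{ix} - e^{iy}| ≤ |x - y|` + `hD_comp_le` + `hsq_hilb`.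
  `hD_bd_outer_le`: `bd (outer u) = e^u · e^{i hilb u}`, `hD_mul_le`, and `|e^x - e^y| ≤ e^C |x-y|` for `x, y ≤ C`.
* `nsq_center_le`: put `u = ½ log nsq (bd Z)`, smooth; `Z / outer u` is a `HolSm` column of norm `1`
  on the circle; `nsq_le_of_bd` at `ζ = 0`; `outer_center`.
* `alpha_*`: elementary inequalities, with `x = |Q| / √P`:
  `|log(1+x²) - log(1+y²)| ≤ |x-y|`, `|(1+x²)⁻¹ - (1+y²)⁻¹| ≤ |x-y|`, `x/(1+x²) ≤ 1/2`,
  `|r(Q)Q - r(Q')Q'| ≤ (9/4)|Q-Q'|` (write it as `r(Q)(Q-Q') + (r(Q)-r(Q'))Q'`),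
  `1 - (1+y)⁻² ≤ 2y`, `log(1+y) ≤ y`.
-/

set_option autoImplicit false
open scoped ContDiff ComplexOrder ComplexConjugate Matrix Real
open MeasureTheory

namespace Claimed.Agent.R316.B14

section outerFn

variable {u : ℝ → ℝ}

theorem holSm_outer (hu : CSm fun θ => ((u θ : ℝ) : ℂ)) : HolSm (outer u) :=
  (holSm_schw hu).cexp

theorem outer_ne_zero (u : ℝ → ℝ) (ζ : ℂ) : outer u ζ ≠ 0 := Complex.exp_ne_zero _

theorem outer_neg (u : ℝ → ℝ) (ζ : ℂ) : outer (fun θ => - u θ) ζ = (outer u ζ)⁻¹ := by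
  unfold outer
  rw [schw_neg, Complex.exp_neg]

/-- `h(0) = exp ⟨u⟩ > 0`. -/
theorem outer_center (u : ℝ → ℝ) : outer u 0 = ((Real.exp (pavg u) : ℝ) : ℂ) := by
  unfold outer
  rw [schw_center, Complex.ofReal_exp]

theorem bd_outer_eq (u : ℝ → ℝ) (θ : ℝ) : bd (outer u) θ = Complex.exp (bd (schw u) θ) := rfl

/-- boundary modulus. -/
theorem norm_bd_outer (hu : CSm fun θ => ((u θ : ℝ) : ℂ)) (θ : ℝ) :
    ‖bd (outer u) θ‖ = Real.exp (u θ) := by
  rw [bd_outer_eq, Complex.norm_exp, bd_schw_re hu]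

/-- modulus times phase. -/
theorem bd_outer (hu : CSm fun θ => ((u θ : ℝ) : ℂ)) (θ : ℝ) :
    bd (outer u) θ =
      ((Real.exp (u θ) : ℝ) : ℂ) * Complex.exp (Complex.I * ((hilb u θ : ℝ) : ℂ)) := by
  rw [bd_outer_eq, bd_schw hu, Complex.exp_add, Complex.ofReal_exp]

theorem norm_outer_le (hu : CSm fun θ => ((u θ : ℝ) : ℂ)) {C : ℝ} (h : ∀ θ, u θ ≤ C) {ζ : ℂ}
    (hζ : ζ ∈ Metric.closedBall (0 : ℂ) 1) : ‖outer u ζ‖ ≤ Real.exp C := by
  unfold outer
  rw [Complex.norm_exp]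
  exact Real.exp_le_exp.2 (schw_re_le hu h hζ)

theorem le_norm_outer (hu : CSm fun θ => ((u θ : ℝ) : ℂ)) {C : ℝ} (h : ∀ θ, C ≤ u θ) {ζ : ℂ}
    (hζ : ζ ∈ Metric.closedBall (0 : ℂ) 1) : Real.exp C ≤ ‖outer u ζ‖ := by
  unfold outer
  rw [Complex.norm_exp]
  exact Real.exp_le_exp.2 (le_schw_re hu h hζ)

theorem cSm_phase (hu : CSm fun θ => ((u θ : ℝ) : ℂ)) :
    CSm fun θ => Complex.exp (Complex.I * ((hilb u θ : ℝ) : ℂ)) :=
  ((cSm_hilb hu).const_mul Complex.I).cexp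

theorem norm_exp_I_sub_le (x y : ℝ) :
    ‖Complex.exp (Complex.I * (x : ℂ)) - Complex.exp (Complex.I * (y : ℂ))‖ ≤ |x - y| := by
  have e : Complex.exp (Complex.I * (x : ℂ)) - Complex.exp (Complex.I * (y : ℂ)) =
      Complex.exp (Complex.I * (y : ℂ)) * (Complex.exp (Complex.I * ((x - y : ℝ) : ℂ)) - 1) := by
    rw [mul_sub, ← Complex.exp_add, mul_one]
    congr 2
    push_cast
    ring
  rw [e, norm_mul, Complex.norm_exp_I_mul_ofReal, one_mul]
  exact Real.norm_exp_I_mul_ofReal_sub_one_le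

/-- `D(h/m) ≤ D(log m)`. -/
theorem hD_phase_le (hu : CSm fun θ => ((u θ : ℝ) : ℂ)) :
    hD (fun θ => Complex.exp (Complex.I * ((hilb u θ : ℝ) : ℂ))) ≤ hD fun θ => ((u θ : ℝ) : ℂ) := by
  have h := hD_comp_le (cSm_hilb hu).cLip (cSm_phase hu).cLip zero_le_one (fun s t => by
    rw [one_mul, ← Complex.ofReal_sub, Complex.norm_real, Real.norm_eq_abs]
    exact norm_exp_I_sub_le _ _)
  rw [one_mul] at h
  refine h.trans (le_of_eq ?_)
  rw [hD, hsq_hilb hu, hD]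

theorem abs_exp_sub_exp_le {x y C : ℝ} (hx : x ≤ C) (hy : y ≤ C) :
    |Real.exp x - Real.exp y| ≤ Real.exp C * |x - y| := by
  wlog hxy : y ≤ x generalizing x y
  · have := this hy hx (le_of_not_ge hxy)
    rwa [abs_sub_comm, abs_sub_comm x y]
  rw [abs_of_nonneg (sub_nonneg.2 (Real.exp_le_exp.2 hxy)), abs_of_nonneg (sub_nonneg.2 hxy)]
  have h1 := Real.add_one_le_exp (y - x)
  have h2 : Real.exp y = Real.exp x * Real.exp (y - x) := by
    rw [← Real.exp_add]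
    congr 1
    ring
  have h3 : Real.exp x - Real.exp y ≤ Real.exp x * (x - y) := by
    rw [h2]
    nlinarith [Real.exp_pos x]
  refine h3.trans ?_
  have h4 : 0 ≤ x - y := sub_nonneg.2 hxy
  have h5 := Real.exp_le_exp.2 hx
  gcongr

theorem cSm_exp_real (hu : CSm fun θ => ((u θ : ℝ) : ℂ)) :
    CSm fun θ => ((Real.exp (u θ) : ℝ) : ℂ) := by
  simpa only [Complex.ofReal_exp] using hu.cexp

/-- `D(m) ≤ sup m · D(log m)`. -/
theorem hD_exp_le (hu : CSm fun θ => ((u θ : ℝ) : ℂ)) {C : ℝ} (h : ∀ θ, u θ ≤ C) :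
    hD (fun θ => ((Real.exp (u θ) : ℝ) : ℂ)) ≤ Real.exp C * hD fun θ => ((u θ : ℝ) : ℂ) :=
  hD_comp_le hu.cLip (cSm_exp_real hu).cLip (Real.exp_pos C).le fun s t => by
    rw [← Complex.ofReal_sub, ← Complex.ofReal_sub, Complex.norm_real, Complex.norm_real,
      Real.norm_eq_abs, Real.norm_eq_abs]
    exact abs_exp_sub_exp_le (h s) (h t)

/-- `D(h) ≤ 2 sup m · D(log m)`. -/
theorem hD_bd_outer_le (hu : CSm fun θ => ((u θ : ℝ) : ℂ)) {C : ℝ} (h : ∀ θ, u θ ≤ C) :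
    hD (bd (outer u)) ≤ 2 * Real.exp C * hD fun θ => ((u θ : ℝ) : ℂ) := by
  have e : bd (outer u) = fun θ =>
      ((Real.exp (u θ) : ℝ) : ℂ) * Complex.exp (Complex.I * ((hilb u θ : ℝ) : ℂ)) :=
    funext fun θ => bd_outer hu θ
  rw [e]
  have h1 := hD_mul_le (cSm_exp_real hu).cLip (cSm_phase hu).cLip (A := Real.exp C) (B := 1)
    (fun θ => by
      rw [Complex.norm_real, Real.norm_eq_abs, abs_of_pos (Real.exp_pos _)]
      exact Real.exp_le_exp.2 (h θ))
    (fun θ => le_of_eq (Complex.norm_exp_I_mul_ofReal _))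
  have h2 := hD_phase_le hu
  have h3 := hD_exp_le hu h
  have h4 : Real.exp C * hD (fun θ => Complex.exp (Complex.I * ((hilb u θ : ℝ) : ℂ))) ≤
      Real.exp C * hD fun θ => ((u θ : ℝ) : ℂ) :=
    mul_le_mul_of_nonneg_left h2 (Real.exp_pos C).le
  linarith

end outerFn

section submean

/-- Jensen: `exp ⟨u⟩ ≤ ⟨exp u⟩`. -/
theorem exp_pavg_le {u : ℝ → ℝ} (hu : Continuous u) :
    Real.exp (pavg u) ≤ pavg fun θ => Real.exp (u θ) := by
  set c := pavg u with hc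
  have c1 : Continuous fun θ => Real.exp c * (u θ - c + 1) :=
    continuous_const.mul ((hu.sub continuous_const).add continuous_const)
  have h1 := pavg_mono c1 (Real.continuous_exp.comp hu) (fun θ => by
    have h2 := Real.add_one_le_exp (u θ - c)
    have h3 : Real.exp (u θ) = Real.exp c * Real.exp (u θ - c) := by
      rw [← Real.exp_add]
      congr 1
      ring
    simp only [Function.comp_apply]
    rw [h3]
    exact mul_le_mul_of_nonneg_left h2 (Real.exp_pos c).le)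
  have c2 : Continuous fun θ => u θ - c := hu.sub continuous_const
  rw [pavg_const_mul_real, pavg_add c2 continuous_const, pavg_sub hu continuous_const, pavg_const,
    pavg_const, ← hc] at h1
  have h4 : Real.exp c ≤ pavg (Real.exp ∘ u) := by simpa using h1
  exact h4

theorem cSm_nsq_bd {ι : Type} [Fintype ι] {Z : ℂ → ι → ℂ} (hZ : ∀ i, HolSm fun ζ => Z ζ i) :
    CSm fun θ => ((nsq (bd Z θ) : ℝ) : ℂ) := by
  unfold nsq
  simp only [Complex.ofReal_sum]
  exact CSm.sum _ fun i _ => (hZ i).cSm_bd.normSq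

/-- **logarithmic submean** for a holomorphic column which does not vanish on the circle. -/
theorem nsq_center_le {ι : Type} [Fintype ι] {Z : ℂ → ι → ℂ} (hZ : ∀ i, HolSm fun ζ => Z ζ i)
    (h0 : ∀ θ, 0 < nsq (bd Z θ)) :
    nsq (Z 0) ≤ Real.exp (pavg fun θ => Real.log (nsq (bd Z θ))) := by
  have hlog : CSm fun θ => ((Real.log (nsq (bd Z θ)) : ℝ) : ℂ) :=
    (cSm_nsq_bd hZ).comp_real (U := {0}ᶜ) isOpen_compl_singleton Real.contDiffOn_log
      fun θ => (h0 θ).ne'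
  set u : ℝ → ℝ := fun θ => (1 / 2) * Real.log (nsq (bd Z θ)) with hu
  have hucs : CSm fun θ => ((u θ : ℝ) : ℂ) := by
    have := hlog.const_mul (((1 / 2 : ℝ)) : ℂ)
    simpa only [hu, Complex.ofReal_mul] using this
  have hW : ∀ i, HolSm fun ζ => ((outer u ζ)⁻¹ • Z ζ) i := fun i =>
    ((holSm_outer hucs).inv fun ζ _ => outer_ne_zero u ζ).mul (hZ i)
  have h1 := nsq_le_of_bd hW (C := 1) (fun θ => by
    have e : bd (fun ζ => (outer u ζ)⁻¹ • Z ζ) θ = (bd (outer u) θ)⁻¹ • bd Z θ := rfl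
    rw [e, nsq_smul, norm_inv, norm_bd_outer hucs, inv_pow, ← Real.exp_nat_mul]
    have e2 : ((2 : ℕ) : ℝ) * u θ = Real.log (nsq (bd Z θ)) := by
      rw [hu]
      push_cast
      ring
    rw [e2, Real.exp_log (h0 θ), inv_mul_cancel₀ (h0 θ).ne'])
    (Metric.mem_closedBall_self zero_le_one)
  rw [nsq_smul, outer_center, norm_inv, Complex.norm_real, Real.norm_eq_abs,
    abs_of_pos (Real.exp_pos _), inv_pow, ← Real.exp_nat_mul] at h1
  have e3 : ((2 : ℕ) : ℝ) * pavg u = pavg fun θ => Real.log (nsq (bd Z θ)) := by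
    rw [hu, pavg_const_mul_real]
    push_cast
    ring
  rw [e3, inv_mul_le_iff₀ (Real.exp_pos _), mul_one] at h1
  exact h1

end submean

end Claimed.Agent.R316.B14
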