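import Claimed.Agent.R316.B14.ToeplitzA

/-!
# B14, leaf W1: the block Toeplitz equation `P_+(L X) = e` with a smooth positive symbol

`L : ℝ → Matrix ι ι ℂ` smooth periodic Hermitian, `L ≥ m > 0`.  `L_q = fcM L q`.
GOAL (`toeplitz_solve`): a rapidly decreasing `x : ℕ → ι → ℂ` with
`∑_{k ≥ 0} L_{j-k} x_k = δ_{j0} e` for all `j ≥ 0`.
(This replaces the weighted Hardy space/Wold decomposition AND the `W^{k,2}` bootstrap in the paper's
proof of Lemma boundary-factorization: `x` is the `L`-orthogonal projection of .. onto the wandering subspace.)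

## Proof: finite sections + uniform weighted estimates + compactness.  Only finite sums until the last step.

`toep L n x j = ∑_{k ≤ n} L_{j-k} x_k`.

(a) `toep_coercive`.  With `X θ = ∑_{k ≤ n} ech k θ • x k`:
    `pavg (qf (L θ) (X θ)) = Re ∑_{j,k ≤ n} x_jᴴ L_{j-k} x_k` (definition of `fc`, linearity of `pavg`),
    `pavg (nsq (X θ)) = ∑ nsq (x k)` (`pavg_ech`), and `qf (L θ) v ≥ m nsq v` (`qf_mono`, `qf_one`).
(b) `toep_young` (Schur test): `‖∑_k A_{j-k} x_k‖ ≤ ∑_k a_{j-k} ‖x_k‖`, `a_q = √frobSq (A q)`;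
    `(∑_k a_{j-k} ξ_k)² ≤ (∑_k a_{j-k}) (∑_k a_{j-k} ξ_k²) ≤ W ∑_k a_{j-k} ξ_k²`; sum over `j`.
(c) `toep_exists`: the linear map `x ↦ toep L n x` on `Fin (n+1) → ι → ℂ` is injective by (a), hence surjective
    (`LinearMap.injective_iff_surjective`).
(d) `toep_apriori`, strong induction on `s`.  `s = 0`: (a) + Cauchy-Schwarz: `∑ nsq (x k) ≤ m⁻² nsq e`.
    `s ≥ 1`: `z_k = k^s x_k`.  Since `j^s (T x)_j = 0` for all `j ≤ n` and
    `j^s = ∑_{i ≤ s} C(s,i) (j-k)^{s-i} k^i` (`add_pow`),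
    `(T z)_j = - ∑_{i<s} C(s,i) ∑_k (j-k)^{s-i} L_{j-k} k^i x_k`.  By (a) `m ‖z‖ ≤ ‖T z‖`, by (b)
    `‖T z‖ ≤ ∑_{i<s} C(s,i) W_{s-i} ‖N^i x‖`, `W_p = ∑_q |q|^p √frobSq (L_q) < ∞` (`CSm.rapid`, `RapidZ.summable_pow`).
(e) `toeplitz_solve`: `x^{(n)}` from (c), extended by `0`.  By (d) with `s = 0` all `x^{(n)}` lie in the compact set
    `Set.pi univ (closedBall 0 C)` of `ℕ → ι → ℂ` (`isCompact_univ_pi`); `IsCompact.tendsto_subseq`; pointwise limits
    (`tendsto_pi_nhds`).  The bounds (d) pass to the limit (`le_of_tendsto`; use the single term bound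
    `k^{2s} nsq (x k) ≤ B nsq e`): rapid decrease.  The equation passes to the limit by
    `tendsto_tsum_of_dominated_convergence` (dominating sequence `k ↦ √frobSq (L_{j-k}) · C`).
-/

set_option autoImplicit false
set_option linter.unusedSectionVars false
open scoped ContDiff ComplexOrder ComplexConjugate Matrix Real
open MeasureTheory

namespace Claimed.Agent.R316.B14

open Claimed.Agent.R316

variable {ι : Type} [Fintype ι] [DecidableEq ι]

section solve

variable {L : ℝ → Matrix ι ι ℂ} {m : ℝ}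

theorem continuous_nsq : Continuous (nsq : (ι → ℂ) → ℝ) := by
  unfold nsq
  exact continuous_finsetSum _ fun i _ => ((continuous_apply i).norm).pow 2

theorem norm_mulVec_apply_le (A : Matrix ι ι ℂ) (v : ι → ℂ) (i : ι) :
    ‖(A *ᵥ v) i‖ ≤ Real.sqrt (frobSq A) * Real.sqrt (nsq v) := by
  have h1 : ‖(A *ᵥ v) i‖ ≤ Real.sqrt (nsq (A *ᵥ v)) :=
    Real.le_sqrt_of_sq_le (norm_apply_sq_le_nsq _ i)
  refine h1.trans ?_
  rw [← Real.sqrt_mul (frobSq_nonneg _)]
  exact Real.sqrt_le_sqrt (nsq_mulVec_le A v)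

/-- (e) **the Toeplitz equation has a rapidly decreasing solution**. -/
theorem toeplitz_solve (hm : 0 < m) (hL : ∀ i j, CSm fun θ => L θ i j)
    (hlo : ∀ θ, (L θ - ((m : ℝ) : ℂ) • (1 : Matrix ι ι ℂ)).PosSemidef) (e : ι → ℂ) :
    ∃ x : ℕ → ι → ℂ, (∀ i, RapidN fun k => x k i) ∧
      ∀ (j : ℕ) (i : ι), HasSum (fun k : ℕ => (fcM L ((j : ℤ) - k) *ᵥ x k) i)
        ((if j = 0 then e else 0 : ι → ℂ) i) := by
  have hLc : ∀ i j, Continuous fun θ => L θ i j := fun i j => (hL i j).continuous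
  choose X hX0 hXeq using fun n => toep_exists hm hLc hlo n e
  choose B hB0 hB using fun s => toep_apriori hm hL hlo s
  -- single term bounds
  have hterm : ∀ s n k : ℕ, (k : ℝ) ^ (2 * s) * nsq (X n k) ≤ B s * nsq e := by
    intro s n k
    by_cases hk : k ≤ n
    · refine le_trans ?_ (hB s n e (X n) (hXeq n))
      exact Finset.single_le_sum (f := fun k : ℕ => (k : ℝ) ^ (2 * s) * nsq (X n k))
        (fun k _ => mul_nonneg (by positivity) (nsq_nonneg _)) (Finset.mem_range.2 (by omega))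
    · rw [hX0 n k (by omega), nsq_zero, mul_zero]
      exact mul_nonneg (hB0 s) (nsq_nonneg _)
  set C : ℝ := Real.sqrt (B 0 * nsq e) with hC
  have hC0 : 0 ≤ C := Real.sqrt_nonneg _
  have hXC : ∀ n k, Real.sqrt (nsq (X n k)) ≤ C := by
    intro n k
    have := hterm 0 n k
    simp only [mul_zero, pow_zero, one_mul] at this
    exact Real.sqrt_le_sqrt this
  -- compactness
  have hcomp : IsCompact (Set.univ.pi fun _ : ℕ => Metric.closedBall (0 : ι → ℂ) C) :=
    isCompact_univ_pi fun _ => isCompact_closedBall _ _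
  have hmem : ∀ n, X n ∈ Set.univ.pi fun _ : ℕ => Metric.closedBall (0 : ι → ℂ) C := by
    intro n k _
    rw [mem_closedBall_zero_iff, pi_norm_le_iff_of_nonneg hC0]
    intro i
    exact (Real.le_sqrt_of_sq_le (norm_apply_sq_le_nsq _ i)).trans (hXC n k)
  obtain ⟨x, -, φ, hφ, hlim⟩ := hcomp.tendsto_subseq hmem
  have hlimk : ∀ k, Filter.Tendsto (fun l => X (φ l) k) Filter.atTop (nhds (x k)) :=
    tendsto_pi_nhds.1 hlim
  have hlimki : ∀ k i, Filter.Tendsto (fun l => X (φ l) k i) Filter.atTop (nhds (x k i)) :=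
    fun k => tendsto_pi_nhds.1 (hlimk k)
  have hxterm : ∀ s k : ℕ, (k : ℝ) ^ (2 * s) * nsq (x k) ≤ B s * nsq e := by
    intro s k
    have h1 : Filter.Tendsto (fun l => (k : ℝ) ^ (2 * s) * nsq (X (φ l) k)) Filter.atTop
        (nhds ((k : ℝ) ^ (2 * s) * nsq (x k))) :=
      ((continuous_nsq.tendsto _).comp (hlimk k)).const_mul _
    exact le_of_tendsto' h1 fun l => hterm s (φ l) k
  have hxC : ∀ k, Real.sqrt (nsq (x k)) ≤ C := by
    intro k
    have := hxterm 0 k
    simp only [mul_zero, pow_zero, one_mul] at this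
    exact Real.sqrt_le_sqrt this
  refine ⟨x, ?_, ?_⟩
  · intro i N
    refine ⟨Real.sqrt (B N * nsq e), fun k => ?_⟩
    refine Real.le_sqrt_of_sq_le (le_trans ?_ (hxterm N k))
    rw [mul_pow, ← pow_mul, mul_comm N 2]
    exact mul_le_mul_of_nonneg_left (norm_apply_sq_le_nsq _ i) (by positivity)
  · intro j i
    set bound : ℕ → ℝ := fun k => Real.sqrt (frobSq (fcM L ((j : ℤ) - k))) * C with hbound
    have hinj : Function.Injective fun k : ℕ => (j : ℤ) - (k : ℤ) := by
      intro k k' h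
      simp only at h
      omega
    have hsb : Summable bound := by
      have h0 := summable_pow_frob_fcM hL 0
      simp only [pow_zero, one_mul] at h0
      exact (h0.comp_injective hinj).mul_right C
    have hgb : ∀ k : ℕ, ‖(fcM L ((j : ℤ) - k) *ᵥ x k) i‖ ≤ bound k := fun k =>
      (norm_mulVec_apply_le _ _ i).trans
        (mul_le_mul_of_nonneg_left (hxC k) (Real.sqrt_nonneg _))
    have hfb : ∀ l k : ℕ, ‖(fcM L ((j : ℤ) - k) *ᵥ X (φ l) k) i‖ ≤ bound k := fun l k =>
      (norm_mulVec_apply_le _ _ i).trans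
        (mul_le_mul_of_nonneg_left (hXC (φ l) k) (Real.sqrt_nonneg _))
    have htend : ∀ k : ℕ, Filter.Tendsto (fun l => (fcM L ((j : ℤ) - k) *ᵥ X (φ l) k) i) Filter.atTop
        (nhds ((fcM L ((j : ℤ) - k) *ᵥ x k) i)) := by
      intro k
      simp only [Matrix.mulVec, dotProduct]
      exact tendsto_finsetSum _ fun b _ => (hlimki k b).const_mul _
    have h1 := tendsto_tsum_of_dominated_convergence hsb htend
      (Filter.Eventually.of_forall fun l k => hfb l k)
    have h2 : ∀ᶠ l in Filter.atTop, ∑' k : ℕ, (fcM L ((j : ℤ) - k) *ᵥ X (φ l) k) i =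
        ((if j = 0 then e else 0 : ι → ℂ) i) := by
      filter_upwards [Filter.eventually_ge_atTop j] with l hl
      have hjl : j ≤ φ l := hl.trans (hφ.id_le l)
      rw [tsum_eq_sum (s := Finset.range (φ l + 1))]
      · rw [← hXeq (φ l) j hjl]
        unfold toep toepA
        rw [Finset.sum_apply]
      · intro k hk
        rw [hX0 (φ l) k (by have := Finset.mem_range.not.1 hk; omega), Matrix.mulVec_zero]
        rfl
    have h3 : ∑' k : ℕ, (fcM L ((j : ℤ) - k) *ᵥ x k) i = ((if j = 0 then e else 0 : ι → ℂ) i) :=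
      tendsto_nhds_unique h1 (Filter.Tendsto.congr' (Filter.EventuallyEq.symm h2)
        tendsto_const_nhds)
    rw [← h3]
    exact (Summable.of_norm_bounded hsb hgb).hasSum

/-- matrix form (columns `e = Pi.single b 1`). -/
theorem toeplitz_solve_matrix (hm : 0 < m) (hL : ∀ i j, CSm fun θ => L θ i j)
    (hlo : ∀ θ, (L θ - ((m : ℝ) : ℂ) • (1 : Matrix ι ι ℂ)).PosSemidef) :
    ∃ X : ℕ → Matrix ι ι ℂ, (∀ a b, RapidN fun k => X k a b) ∧
      ∀ (j : ℕ) (a b : ι), HasSum (fun k : ℕ => (fcM L ((j : ℤ) - k) * X k) a b)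
        ((if j = 0 then 1 else 0 : Matrix ι ι ℂ) a b) := by
  choose x hx1 hx2 using fun b : ι => toeplitz_solve hm hL hlo (Pi.single b 1)
  refine ⟨fun k a b => x b k a, fun a b => hx1 b a, fun j a b => ?_⟩
  have h := hx2 b j a
  have e1 : ((if j = 0 then 1 else 0 : Matrix ι ι ℂ) a b) =
      ((if j = 0 then Pi.single b 1 else 0 : ι → ℂ) a) := by
    by_cases hj : j = 0
    · simp [hj, Matrix.one_apply, Pi.single_apply]
    · simp [hj]
  rw [e1]
  exact h

end solve

end Claimed.Agent.R316.B14
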