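import Claimed.Agent.R316.Pack010

/-!
# B14, leaf W1: the block Toeplitz equation `P_+(L X) = e` with a smooth positive symbol

`L : ℝ → Matrix ι ι ℂ` smooth periodic Hermitian, `L ≥ m > 0`.  `L_q = fcM L q`.
GOAL (`toeplitz_solve`): a rapidly decreasing `x : ℕ → ι → ℂ` with
`∑_{k ≥ 0} L_{j-k} x_k = δ_{j0} e` for all `j ≥ 0`.
(This replaces the weighted Hardy space/Wold decomposition AND the `W^{k,2}` bootstrap in the paper's
proof of Lemma boundary-factorization: `x` is the `L`-orthogonal projection of .. onto the wandering subspace.)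

## Proof: finite sections + uniform weighted estimates + compactness.  Only finite sums until the last step.

`toep L n x j = ∑_{k ≤ n} L_{j-k} x_k`.

(a) `toep_coercive`.  With `X θ = ∑_{k ≤ n} ech k θ • x k`:
    `pavg (qf (L θ) (X θ)) = Re ∑_{j,k ≤ n} x_jᴴ L_{j-k} x_k` (definition of `fc`, linearity of `pavg`),
    `pavg (nsq (X θ)) = ∑ nsq (x k)` (`pavg_ech`), and `qf (L θ) v ≥ m nsq v` (`qf_mono`, `qf_one`).
(b) `toep_young` (Schur test): `‖∑_k A_{j-k} x_k‖ ≤ ∑_k a_{j-k} ‖x_k‖`, `a_q = √frobSq (A q)`;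
    `(∑_k a_{j-k} ξ_k)² ≤ (∑_k a_{j-k}) (∑_k a_{j-k} ξ_k²) ≤ W ∑_k a_{j-k} ξ_k²`; sum over `j`.
(c) `toep_exists`: the linear map `x ↦ toep L n x` on `Fin (n+1) → ι → ℂ` is injective by (a), hence surjective
    (`LinearMap.injective_iff_surjective`).
(d) `toep_apriori`, strong induction on `s`.  `s = 0`: (a) + Cauchy-Schwarz: `∑ nsq (x k) ≤ m⁻² nsq e`.
    `s ≥ 1`: `z_k = k^s x_k`.  Since `j^s (T x)_j = 0` for all `j ≤ n` and
    `j^s = ∑_{i ≤ s} C(s,i) (j-k)^{s-i} k^i` (`add_pow`),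
    `(T z)_j = - ∑_{i<s} C(s,i) ∑_k (j-k)^{s-i} L_{j-k} k^i x_k`.  By (a) `m ‖z‖ ≤ ‖T z‖`, by (b)
    `‖T z‖ ≤ ∑_{i<s} C(s,i) W_{s-i} ‖N^i x‖`, `W_p = ∑_q |q|^p √frobSq (L_q) < ∞` (`CSm.rapid`, `RapidZ.summable_pow`).
(e) `toeplitz_solve`: `x^{(n)}` from (c), extended by `0`.  By (d) with `s = 0` all `x^{(n)}` lie in the compact set
    `Set.pi univ (closedBall 0 C)` of `ℕ → ι → ℂ` (`isCompact_univ_pi`); `IsCompact.tendsto_subseq`; pointwise limits
    (`tendsto_pi_nhds`).  The bounds (d) pass to the limit (`le_of_tendsto`; use the single term bound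
    `k^{2s} nsq (x k) ≤ B nsq e`): rapid decrease.  The equation passes to the limit by
    `tendsto_tsum_of_dominated_convergence` (dominating sequence `k ↦ √frobSq (L_{j-k}) · C`).
-/

set_option autoImplicit false
set_option linter.unusedSectionVars false
open scoped ContDiff ComplexOrder ComplexConjugate Matrix Real
open MeasureTheory

namespace Claimed.Agent.R316.B14

open Claimed.Agent.R316

variable {ι : Type} [Fintype ι] [DecidableEq ι]

/-- finite section of the block Toeplitz operator with coefficients `A q`. -/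
noncomputable def toepA (A : ℤ → Matrix ι ι ℂ) (n : ℕ) (x : ℕ → ι → ℂ) (j : ℕ) : ι → ℂ :=
  ∑ k ∈ Finset.range (n + 1), A ((j : ℤ) - k) *ᵥ x k

/-- finite section of the block Toeplitz operator with symbol `L`. -/
noncomputable def toep (L : ℝ → Matrix ι ι ℂ) (n : ℕ) (x : ℕ → ι → ℂ) (j : ℕ) : ι → ℂ :=
  toepA (fcM L) n x j

section toeplitz

variable {L : ℝ → Matrix ι ι ℂ} {m : ℝ}

omit [DecidableEq ι] in
theorem sqrt_frobSq_le_sum (A : Matrix ι ι ℂ) : Real.sqrt (frobSq A) ≤ ∑ i, ∑ j, ‖A i j‖ := by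
  rw [frobSq_eq_nsq, nsq, ← Fintype.sum_prod_type (f := fun p : ι × ι => ‖A p.1 p.2‖)]
  refine Real.sqrt_le_iff.2 ⟨Finset.sum_nonneg fun _ _ => norm_nonneg _, ?_⟩
  exact Finset.sum_sq_le_sq_sum_of_nonneg fun _ _ => norm_nonneg _

omit [DecidableEq ι] in
/-- weighted summability of the coefficients of a smooth symbol. -/
theorem summable_pow_frob_fcM (hL : ∀ i j, CSm fun θ => L θ i j) (p : ℕ) :
    Summable fun q : ℤ => |(q : ℝ)| ^ p * Real.sqrt (frobSq (fcM L q)) := by
  have h1 : Summable fun q : ℤ => ∑ i, ∑ j, |(q : ℝ)| ^ p * ‖fc (fun θ => L θ i j) q‖ :=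
    summable_sum fun i _ => summable_sum fun j _ => (hL i j).rapid.summable_pow p
  refine Summable.of_nonneg_of_le (fun q => by positivity) (fun q => ?_) h1
  calc |(q : ℝ)| ^ p * Real.sqrt (frobSq (fcM L q))
      ≤ |(q : ℝ)| ^ p * ∑ i, ∑ j, ‖fcM L q i j‖ := by
        gcongr
        exact sqrt_frobSq_le_sum _
    _ = _ := by
        rw [Finset.mul_sum]
        refine Finset.sum_congr rfl fun i _ => ?_
        rw [Finset.mul_sum]
        rfl

omit [DecidableEq ι] in
/-- sesquilinear expansion. -/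
theorem star_sum_dotProduct_mulVec_sum {α : Type} (s : Finset α) (c : α → ℂ) (x : α → ι → ℂ)
    (M : Matrix ι ι ℂ) :
    star (∑ j ∈ s, c j • x j) ⬝ᵥ (M *ᵥ ∑ k ∈ s, c k • x k) =
      ∑ j ∈ s, ∑ k ∈ s, conj (c j) * c k * (star (x j) ⬝ᵥ (M *ᵥ x k)) := by
  rw [star_sum, sum_dotProduct]
  refine Finset.sum_congr rfl fun j _ => ?_
  rw [Matrix.mulVec_sum, dotProduct_sum]
  refine Finset.sum_congr rfl fun k _ => ?_
  rw [Matrix.mulVec_smul, dotProduct_smul, star_smul, smul_dotProduct, smul_eq_mul, smul_eq_mul,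
    starRingEnd_apply]
  ring

omit [DecidableEq ι] in
theorem continuous_dotProduct_mulVec (hL : ∀ i j, Continuous fun θ => L θ i j) (u v : ι → ℂ) :
    Continuous fun θ => u ⬝ᵥ (L θ *ᵥ v) := by
  simp only [dotProduct, Matrix.mulVec]
  exact continuous_finsetSum _ fun a _ => continuous_const.mul
    (continuous_finsetSum _ fun b _ => (hL a b).mul continuous_const)

omit [DecidableEq ι] in
/-- Fourier coefficients of a sesquilinear form. -/
theorem pavg_ech_mul_dotProduct (hL : ∀ i j, Continuous fun θ => L θ i j) (q : ℤ) (u v : ι → ℂ) :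
    pavg (fun θ => ech (-q) θ * (u ⬝ᵥ (L θ *ᵥ v))) = u ⬝ᵥ (fcM L q *ᵥ v) := by
  have e : ∀ θ, ech (-q) θ * (u ⬝ᵥ (L θ *ᵥ v)) =
      ∑ a, ∑ b, (u a * v b) * (ech (-q) θ * L θ a b) := by
    intro θ
    simp only [dotProduct, Matrix.mulVec, Finset.mul_sum]
    refine Finset.sum_congr rfl fun a _ => Finset.sum_congr rfl fun b _ => ?_
    ring
  simp only [e]
  rw [pavg_sum]
  · simp only [dotProduct, Matrix.mulVec, Finset.mul_sum]
    refine Finset.sum_congr rfl fun a _ => ?_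
    rw [pavg_sum]
    · refine Finset.sum_congr rfl fun b _ => ?_
      rw [pavg_const_mul]
      unfold fcM fc
      ring
    · intro b _
      exact continuous_const.mul ((continuous_ech _).mul (hL a b))
  · intro a _
    exact continuous_finsetSum _ fun b _ =>
      continuous_const.mul ((continuous_ech _).mul (hL a b))

omit [DecidableEq ι] in
theorem toep_form_complex (hL : ∀ i j, Continuous fun θ => L θ i j) (n : ℕ) (x : ℕ → ι → ℂ) :
    ∑ j ∈ Finset.range (n + 1), star (x j) ⬝ᵥ toep L n x j =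
      pavg fun θ => star (∑ k ∈ Finset.range (n + 1), ech (k : ℤ) θ • x k) ⬝ᵥ
        (L θ *ᵥ ∑ k ∈ Finset.range (n + 1), ech (k : ℤ) θ • x k) := by
  simp only [star_sum_dotProduct_mulVec_sum]
  have hc : ∀ j k : ℕ, Continuous fun θ =>
      conj (ech (j : ℤ) θ) * ech (k : ℤ) θ * (star (x j) ⬝ᵥ (L θ *ᵥ x k)) := fun j k =>
    ((Complex.continuous_conj.comp (continuous_ech _)).mul (continuous_ech _)).mul
      (continuous_dotProduct_mulVec hL _ _)
  rw [pavg_sum _ _ fun j _ => continuous_finsetSum _ fun k _ => hc j k]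
  refine Finset.sum_congr rfl fun j _ => ?_
  rw [pavg_sum _ _ fun k _ => hc j k]
  unfold toep toepA
  rw [dotProduct_sum]
  refine Finset.sum_congr rfl fun k _ => ?_
  rw [← pavg_ech_mul_dotProduct hL]
  congr 1
  funext θ
  rw [neg_sub, ech_sub]
  ring

/-- (a) the Toeplitz form is the average of the pointwise form. -/
theorem toep_form (hL : ∀ i j, Continuous fun θ => L θ i j) (n : ℕ) (x : ℕ → ι → ℂ) :
    (∑ j ∈ Finset.range (n + 1), star (x j) ⬝ᵥ toep L n x j).re =
      pavg fun θ => qf (L θ) (∑ k ∈ Finset.range (n + 1), ech (k : ℤ) θ • x k) := by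
  rw [toep_form_complex hL, pavg_re]
  · rfl
  · simp only [star_sum_dotProduct_mulVec_sum]
    exact continuous_finsetSum _ fun j _ => continuous_finsetSum _ fun k _ =>
      ((Complex.continuous_conj.comp (continuous_ech _)).mul (continuous_ech _)).mul
        (continuous_dotProduct_mulVec hL _ _)

theorem continuous_qf_trigPoly (hL : ∀ i j, Continuous fun θ => L θ i j) (n : ℕ)
    (x : ℕ → ι → ℂ) :
    Continuous fun θ => qf (L θ) (∑ k ∈ Finset.range (n + 1), ech (k : ℤ) θ • x k) := by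
  simp only [qf_def, star_sum_dotProduct_mulVec_sum]
  exact Complex.continuous_re.comp (continuous_finsetSum _ fun j _ =>
    continuous_finsetSum _ fun k _ =>
      ((Complex.continuous_conj.comp (continuous_ech _)).mul (continuous_ech _)).mul
        (continuous_dotProduct_mulVec hL _ _))

theorem fcM_one (q : ℤ) : fcM (fun _ : ℝ => (1 : Matrix ι ι ℂ)) q = if q = 0 then 1 else 0 := by
  ext a b
  unfold fcM
  rw [fc_const]
  by_cases hq : q = 0
  · simp [hq]
  · simp [hq]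

theorem pavg_nsq_trigPoly (n : ℕ) (x : ℕ → ι → ℂ) :
    pavg (fun θ => nsq (∑ k ∈ Finset.range (n + 1), ech (k : ℤ) θ • x k)) =
      ∑ k ∈ Finset.range (n + 1), nsq (x k) := by
  have h := toep_form (L := fun _ => (1 : Matrix ι ι ℂ)) (fun i j => continuous_const) n x
  simp only [← nsq_eq_qf_one] at h
  rw [← h, Complex.re_sum]
  refine Finset.sum_congr rfl fun j hj => ?_
  have e : toep (fun _ => (1 : Matrix ι ι ℂ)) n x j = x j := by
    unfold toep toepA
    rw [Finset.sum_eq_single j]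
    · simp [fcM_one]
    · intro k _ hk
      have : (j : ℤ) - k ≠ 0 := by
        intro h0
        apply hk
        omega
      simp [fcM_one, this]
    · intro h0
      exact absurd hj h0
  rw [e, nsq_eq_qf_one, qf_def, Matrix.one_mulVec]

/-- (a) coercivity. -/
theorem toep_coercive (hL : ∀ i j, Continuous fun θ => L θ i j)
    (hlo : ∀ θ, (L θ - ((m : ℝ) : ℂ) • (1 : Matrix ι ι ℂ)).PosSemidef) (n : ℕ) (x : ℕ → ι → ℂ) :
    m * ∑ k ∈ Finset.range (n + 1), nsq (x k) ≤
      (∑ j ∈ Finset.range (n + 1), star (x j) ⬝ᵥ toep L n x j).re := by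
  rw [toep_form hL, ← pavg_nsq_trigPoly, ← pavg_const_mul_real]
  refine pavg_mono ?_ (continuous_qf_trigPoly hL n x) fun θ => qf_ge_of_loewner (hlo θ) _
  have h := continuous_qf_trigPoly (L := fun _ => (1 : Matrix ι ι ℂ))
    (fun i j => continuous_const) n x
  simp only [← nsq_eq_qf_one] at h
  exact continuous_const.mul h

/-- (a') `m ‖x‖ ≤ ‖T x‖`. -/
theorem toep_lower (hm : 0 < m) (hL : ∀ i j, Continuous fun θ => L θ i j)
    (hlo : ∀ θ, (L θ - ((m : ℝ) : ℂ) • (1 : Matrix ι ι ℂ)).PosSemidef) (n : ℕ) (x : ℕ → ι → ℂ) :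
    m ^ 2 * ∑ k ∈ Finset.range (n + 1), nsq (x k) ≤
      ∑ j ∈ Finset.range (n + 1), nsq (toep L n x j) := by
  set S := ∑ k ∈ Finset.range (n + 1), nsq (x k) with hS
  set S' := ∑ j ∈ Finset.range (n + 1), nsq (toep L n x j) with hS'
  have hS0 : 0 ≤ S := Finset.sum_nonneg fun _ _ => nsq_nonneg _
  have hS'0 : 0 ≤ S' := Finset.sum_nonneg fun _ _ => nsq_nonneg _
  have h1 : m * S ≤ Real.sqrt S * Real.sqrt S' := by
    refine (toep_coercive hL hlo n x).trans ?_
    refine (Complex.re_le_norm _).trans ((norm_sum_le _ _).trans ?_)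
    refine (Finset.sum_le_sum fun j _ => norm_dotProduct_le (x j) (toep L n x j)).trans ?_
    exact Real.sum_sqrt_mul_sqrt_le _ (fun _ => nsq_nonneg _) fun _ => nsq_nonneg _
  have h2 : (m * S) ^ 2 ≤ S * S' := by
    have : (m * S) ^ 2 ≤ (Real.sqrt S * Real.sqrt S') ^ 2 := by
      have h0 : 0 ≤ m * S := by positivity
      gcongr
    rwa [mul_pow (Real.sqrt S), Real.sq_sqrt hS0, Real.sq_sqrt hS'0] at this
  rcases hS0.eq_or_lt with h0 | h0
  · rw [← h0]
    simpa using hS'0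
  · have h3 : S * (m ^ 2 * S) ≤ S * S' := by nlinarith
    exact le_of_mul_le_mul_left h3 h0

/-- sums of a summable nonnegative sequence along `k ↦ j - k`. -/
theorem sum_range_sub_le_tsum {a : ℤ → ℝ} (ha : Summable a) (h0 : ∀ q, 0 ≤ a q) (n : ℕ) (j : ℤ) :
    ∑ k ∈ Finset.range (n + 1), a (j - k) ≤ ∑' q, a q := by
  have hinj : Function.Injective fun k : ℕ => j - (k : ℤ) := by
    intro k k' h
    simp only at h
    omega
  refine le_trans ?_ (tsum_comp_le_tsum_of_inj ha h0 hinj)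
  exact (ha.comp_injective hinj).sum_le_tsum _ fun _ _ => h0 _

theorem sum_range_sub_le_tsum' {a : ℤ → ℝ} (ha : Summable a) (h0 : ∀ q, 0 ≤ a q) (n : ℕ) (k : ℤ) :
    ∑ j ∈ Finset.range (n + 1), a ((j : ℤ) - k) ≤ ∑' q, a q := by
  have hinj : Function.Injective fun j : ℕ => (j : ℤ) - k := by
    intro j j' h
    simp only at h
    omega
  refine le_trans ?_ (tsum_comp_le_tsum_of_inj ha h0 hinj)
  exact (ha.comp_injective hinj).sum_le_tsum _ fun _ _ => h0 _

/-- (b) Young's inequality / Schur test. -/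
theorem toepA_young {A : ℤ → Matrix ι ι ℂ} (hA : Summable fun q : ℤ => Real.sqrt (frobSq (A q)))
    (n : ℕ) (x : ℕ → ι → ℂ) :
    ∑ j ∈ Finset.range (n + 1), nsq (toepA A n x j) ≤
      (∑' q : ℤ, Real.sqrt (frobSq (A q))) ^ 2 * ∑ k ∈ Finset.range (n + 1), nsq (x k) := by
  set a : ℤ → ℝ := fun q => Real.sqrt (frobSq (A q)) with ha
  set W := ∑' q : ℤ, a q with hW
  have ha0 : ∀ q, 0 ≤ a q := fun q => Real.sqrt_nonneg _
  have hW0 : 0 ≤ W := tsum_nonneg ha0
  have h1 : ∀ j : ℕ, nsq (toepA A n x j) ≤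
      W * ∑ k ∈ Finset.range (n + 1), a ((j : ℤ) - k) * nsq (x k) := by
    intro j
    have h2 : Real.sqrt (nsq (toepA A n x j)) ≤
        ∑ k ∈ Finset.range (n + 1), a ((j : ℤ) - k) * Real.sqrt (nsq (x k)) := by
      unfold toepA
      refine (sqrt_nsq_sum_le _ _).trans (Finset.sum_le_sum fun k _ => ?_)
      rw [ha, ← Real.sqrt_mul (frobSq_nonneg _)]
      exact Real.sqrt_le_sqrt (nsq_mulVec_le _ _)
    have h3 : (∑ k ∈ Finset.range (n + 1), a ((j : ℤ) - k) * Real.sqrt (nsq (x k))) ^ 2 ≤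
        (∑ k ∈ Finset.range (n + 1), a ((j : ℤ) - k)) *
          ∑ k ∈ Finset.range (n + 1), a ((j : ℤ) - k) * nsq (x k) := by
      refine Finset.sum_sq_le_sum_mul_sum_of_sq_le_mul _ (fun k _ => ha0 _)
        (fun k _ => mul_nonneg (ha0 _) (nsq_nonneg _)) fun k _ => le_of_eq ?_
      rw [mul_pow, Real.sq_sqrt (nsq_nonneg _)]
      ring
    calc nsq (toepA A n x j) = Real.sqrt (nsq (toepA A n x j)) ^ 2 :=
          (Real.sq_sqrt (nsq_nonneg _)).symm
      _ ≤ (∑ k ∈ Finset.range (n + 1), a ((j : ℤ) - k) * Real.sqrt (nsq (x k))) ^ 2 := by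
          gcongr
      _ ≤ _ := h3
      _ ≤ W * ∑ k ∈ Finset.range (n + 1), a ((j : ℤ) - k) * nsq (x k) := by
          have h4 : 0 ≤ ∑ k ∈ Finset.range (n + 1), a ((j : ℤ) - k) * nsq (x k) :=
            Finset.sum_nonneg fun k _ => mul_nonneg (ha0 _) (nsq_nonneg _)
          gcongr
          exact sum_range_sub_le_tsum hA ha0 n j
  calc ∑ j ∈ Finset.range (n + 1), nsq (toepA A n x j)
      ≤ ∑ j ∈ Finset.range (n + 1),
          W * ∑ k ∈ Finset.range (n + 1), a ((j : ℤ) - k) * nsq (x k) :=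
        Finset.sum_le_sum fun j _ => h1 j
    _ = W * ∑ k ∈ Finset.range (n + 1),
          (∑ j ∈ Finset.range (n + 1), a ((j : ℤ) - k)) * nsq (x k) := by
        rw [← Finset.mul_sum, Finset.sum_comm]
        congr 1
        refine Finset.sum_congr rfl fun k _ => ?_
        rw [Finset.sum_mul]
    _ ≤ W * ∑ k ∈ Finset.range (n + 1), W * nsq (x k) := by
        gcongr with k _
        · exact nsq_nonneg _
        · exact sum_range_sub_le_tsum' hA ha0 n k
    _ = W ^ 2 * ∑ k ∈ Finset.range (n + 1), nsq (x k) := by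
        rw [← Finset.mul_sum]
        ring

theorem toepA_add (A : ℤ → Matrix ι ι ℂ) (n : ℕ) (x y : ℕ → ι → ℂ) (j : ℕ) :
    toepA A n (x + y) j = toepA A n x j + toepA A n y j := by
  unfold toepA
  simp only [Pi.add_apply, Matrix.mulVec_add, Finset.sum_add_distrib]

theorem toepA_smul (A : ℤ → Matrix ι ι ℂ) (n : ℕ) (c : ℂ) (x : ℕ → ι → ℂ) (j : ℕ) :
    toepA A n (c • x) j = c • toepA A n x j := by
  unfold toepA
  simp only [Pi.smul_apply, Matrix.mulVec_smul, Finset.smul_sum]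

/-- extension by zero. -/
noncomputable def extZ (n : ℕ) : (Fin (n + 1) → ι → ℂ) →ₗ[ℂ] (ℕ → ι → ℂ) where
  toFun y k := if h : k < n + 1 then y ⟨k, h⟩ else 0
  map_add' y y' := by
    funext k
    by_cases h : k < n + 1
    · simp only [Pi.add_apply, dif_pos h]
    · simp only [Pi.add_apply, dif_neg h, add_zero]
  map_smul' c y := by
    funext k
    by_cases h : k < n + 1
    · simp only [Pi.smul_apply, dif_pos h, RingHom.id_apply]
    · simp only [Pi.smul_apply, dif_neg h, smul_zero]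

theorem extZ_of_lt {n k : ℕ} (h : k < n + 1) (y : Fin (n + 1) → ι → ℂ) :
    extZ n y k = y ⟨k, h⟩ := dif_pos h

theorem extZ_of_not_lt {n k : ℕ} (h : ¬ k < n + 1) (y : Fin (n + 1) → ι → ℂ) :
    extZ n y k = 0 := dif_neg h

/-- (c) solvability of the finite sections. -/
theorem toep_exists (hm : 0 < m) (hL : ∀ i j, Continuous fun θ => L θ i j)
    (hlo : ∀ θ, (L θ - ((m : ℝ) : ℂ) • (1 : Matrix ι ι ℂ)).PosSemidef) (n : ℕ) (e : ι → ℂ) :
    ∃ x : ℕ → ι → ℂ, (∀ k, n < k → x k = 0) ∧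
      ∀ j ≤ n, toep L n x j = if j = 0 then e else 0 := by
  let T : (Fin (n + 1) → ι → ℂ) →ₗ[ℂ] (Fin (n + 1) → ι → ℂ) :=
    { toFun := fun y j => toep L n (extZ n y) j
      map_add' := by
        intro y y'
        funext j
        rw [map_add]
        exact toepA_add _ _ _ _ _
      map_smul' := by
        intro c y
        funext j
        rw [map_smul]
        exact toepA_smul _ _ _ _ _ }
  have hinj : Function.Injective T := by
    rw [injective_iff_map_eq_zero]
    intro y hy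
    have h1 := toep_lower hm hL hlo n (extZ n y)
    have h2 : ∑ j ∈ Finset.range (n + 1), nsq (toep L n (extZ n y) j) = 0 := by
      refine Finset.sum_eq_zero fun j hj => ?_
      have h3 : T y ⟨j, Finset.mem_range.1 hj⟩ = 0 := by rw [hy]; rfl
      have h4 : toep L n (extZ n y) j = 0 := h3
      rw [h4, nsq_zero]
    rw [h2] at h1
    have h5 : ∑ k ∈ Finset.range (n + 1), nsq (extZ n y k) ≤ 0 := by
      have : 0 < m ^ 2 := by positivity
      nlinarith
    have h6 := (Finset.sum_eq_zero_iff_of_nonneg fun k _ => nsq_nonneg (extZ n y k)).1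
      (le_antisymm h5 (Finset.sum_nonneg fun _ _ => nsq_nonneg _))
    funext k
    have h7 := (nsq_eq_zero_iff _).1 (h6 k (Finset.mem_range.2 k.2))
    have h8 : extZ n y k = y k := extZ_of_lt k.2 y
    rw [← h8, h7]
    rfl
  obtain ⟨y, hy⟩ := (LinearMap.injective_iff_surjective.1 hinj)
    (fun j => if (j : ℕ) = 0 then e else 0)
  refine ⟨extZ n y, ?_, ?_⟩
  · intro k hk
    exact extZ_of_not_lt (by omega) y
  · intro j hj
    exact congrFun hy ⟨j, by omega⟩

/-- `ℓ²` norm of a finite section. -/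
noncomputable def l2n (n : ℕ) (v : ℕ → ι → ℂ) : ℝ :=
  Real.sqrt (∑ j ∈ Finset.range (n + 1), nsq (v j))

theorem sum_range_nsq_eq (n : ℕ) (v : ℕ → ι → ℂ) :
    ∑ j ∈ Finset.range (n + 1), nsq (v j) = nsq (fun p : Fin (n + 1) × ι => v p.1 p.2) := by
  rw [nsq, Fintype.sum_prod_type, Finset.sum_range]
  rfl

theorem l2n_eq (n : ℕ) (v : ℕ → ι → ℂ) :
    l2n n v = Real.sqrt (nsq (fun p : Fin (n + 1) × ι => v p.1 p.2)) := by
  rw [l2n, sum_range_nsq_eq]

theorem l2n_nonneg (n : ℕ) (v : ℕ → ι → ℂ) : 0 ≤ l2n n v := Real.sqrt_nonneg _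

theorem l2n_sq (n : ℕ) (v : ℕ → ι → ℂ) :
    l2n n v ^ 2 = ∑ j ∈ Finset.range (n + 1), nsq (v j) :=
  Real.sq_sqrt (Finset.sum_nonneg fun _ _ => nsq_nonneg _)

theorem l2n_congr {n : ℕ} {v w : ℕ → ι → ℂ} (h : ∀ j ≤ n, v j = w j) : l2n n v = l2n n w := by
  unfold l2n
  congr 1
  refine Finset.sum_congr rfl fun j hj => ?_
  rw [h j (by have := Finset.mem_range.1 hj; omega)]

theorem l2n_neg (n : ℕ) (v : ℕ → ι → ℂ) : l2n n (fun j => - v j) = l2n n v := by
  unfold l2n
  simp only [nsq_neg]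

theorem l2n_smul (n : ℕ) (c : ℂ) (v : ℕ → ι → ℂ) : l2n n (fun j => c • v j) = ‖c‖ * l2n n v := by
  unfold l2n
  simp only [nsq_smul]
  rw [← Finset.mul_sum, Real.sqrt_mul (sq_nonneg _), Real.sqrt_sq (norm_nonneg _)]

theorem l2n_sum_le {α : Type} (n : ℕ) (s : Finset α) (f : α → ℕ → ι → ℂ) :
    l2n n (fun j => ∑ a ∈ s, f a j) ≤ ∑ a ∈ s, l2n n (f a) := by
  simp only [l2n_eq]
  have e : (fun p : Fin (n + 1) × ι => (∑ a ∈ s, f a p.1) p.2) =
      ∑ a ∈ s, fun p : Fin (n + 1) × ι => f a p.1 p.2 := by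
    funext p
    simp only [Finset.sum_apply]
  rw [e]
  exact sqrt_nsq_sum_le _ _

theorem l2n_toepA_le {A : ℤ → Matrix ι ι ℂ} (hA : Summable fun q : ℤ => Real.sqrt (frobSq (A q)))
    (n : ℕ) (x : ℕ → ι → ℂ) :
    l2n n (toepA A n x) ≤ (∑' q : ℤ, Real.sqrt (frobSq (A q))) * l2n n x := by
  have hW0 : 0 ≤ ∑' q : ℤ, Real.sqrt (frobSq (A q)) := tsum_nonneg fun _ => Real.sqrt_nonneg _
  unfold l2n
  refine (Real.sqrt_le_sqrt (toepA_young hA n x)).trans (le_of_eq ?_)
  rw [Real.sqrt_mul (sq_nonneg _), Real.sqrt_sq hW0]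

theorem l2n_toep_ge (hm : 0 < m) (hL : ∀ i j, Continuous fun θ => L θ i j)
    (hlo : ∀ θ, (L θ - ((m : ℝ) : ℂ) • (1 : Matrix ι ι ℂ)).PosSemidef) (n : ℕ) (x : ℕ → ι → ℂ) :
    m * l2n n x ≤ l2n n (toep L n x) := by
  unfold l2n
  refine le_trans (le_of_eq ?_) (Real.sqrt_le_sqrt (toep_lower hm hL hlo n x))
  rw [Real.sqrt_mul (sq_nonneg _), Real.sqrt_sq hm.le]

/-- the binomial commutator identity. -/
theorem toep_binomial (L : ℝ → Matrix ι ι ℂ) (n s : ℕ) (x : ℕ → ι → ℂ) (j : ℕ) :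
    ∑ i ∈ Finset.range (s + 1), ((s.choose i : ℕ) : ℂ) •
      toepA (fun q : ℤ => ((q : ℂ) ^ (s - i)) • fcM L q) n (fun k => ((k : ℂ) ^ i) • x k) j =
      ((j : ℂ) ^ s) • toep L n x j := by
  unfold toep toepA
  simp only [Finset.smul_sum, Matrix.smul_mulVec, Matrix.mulVec_smul, smul_smul]
  rw [Finset.sum_comm]
  refine Finset.sum_congr rfl fun k _ => ?_
  rw [← Finset.sum_smul]
  congr 1
  have h := add_pow (k : ℂ) ((j : ℂ) - k) s
  rw [add_sub_cancel] at h
  rw [h]
  refine Finset.sum_congr rfl fun i _ => ?_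
  push_cast
  ring

theorem sqrt_frobSq_pow_smul (A : Matrix ι ι ℂ) (q : ℤ) (p : ℕ) :
    Real.sqrt (frobSq (((q : ℂ) ^ p) • A)) = |(q : ℝ)| ^ p * Real.sqrt (frobSq A) := by
  rw [frobSq_smul, Real.sqrt_mul (sq_nonneg _), Real.sqrt_sq (norm_nonneg _), norm_pow,
    Complex.norm_intCast]

theorem toep_apriori_l2n (hm : 0 < m) (hL : ∀ i j, CSm fun θ => L θ i j)
    (hlo : ∀ θ, (L θ - ((m : ℝ) : ℂ) • (1 : Matrix ι ι ℂ)).PosSemidef) (s : ℕ) :
    ∃ b : ℝ, 0 ≤ b ∧ ∀ (n : ℕ) (e : ι → ℂ) (x : ℕ → ι → ℂ),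
      (∀ j ≤ n, toep L n x j = if j = 0 then e else 0) →
      l2n n (fun k => ((k : ℂ) ^ s) • x k) ≤ b * Real.sqrt (nsq e) := by
  have hLc : ∀ i j, Continuous fun θ => L θ i j := fun i j => (hL i j).continuous
  induction s using Nat.strong_induction_on with
  | _ s ih =>
    rcases Nat.eq_zero_or_pos s with rfl | hs
    · refine ⟨m⁻¹, by positivity, fun n e x hx => ?_⟩
      have h1 := l2n_toep_ge hm hLc hlo n x
      have h2 : l2n n (toep L n x) = Real.sqrt (nsq e) := by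
        rw [l2n_congr hx, l2n, Finset.sum_eq_single 0]
        · simp
        · intro j _ hj
          simp [hj, nsq_zero]
        · intro h0
          exact absurd (Finset.mem_range.2 (Nat.succ_pos n)) h0
      simp only [pow_zero, one_smul]
      rw [h2] at h1
      rw [inv_mul_eq_div, le_div_iff₀ hm]
      linarith
    · choose! b hb0 hb using ih
      set W : ℕ → ℝ := fun p => ∑' q : ℤ, |(q : ℝ)| ^ p * Real.sqrt (frobSq (fcM L q)) with hW
      have hW0 : ∀ p, 0 ≤ W p := fun p => tsum_nonneg fun q => by positivity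
      refine ⟨m⁻¹ * ∑ i ∈ Finset.range s, (s.choose i : ℝ) * (W (s - i) * b i), ?_, ?_⟩
      · refine mul_nonneg (by positivity) (Finset.sum_nonneg fun i hi => ?_)
        exact mul_nonneg (Nat.cast_nonneg _) (mul_nonneg (hW0 _) (hb0 i (Finset.mem_range.1 hi)))
      intro n e x hx
      have hid : ∀ j ≤ n, toep L n (fun k => ((k : ℂ) ^ s) • x k) j =
          - ∑ i ∈ Finset.range s, ((s.choose i : ℕ) : ℂ) •
            toepA (fun q : ℤ => ((q : ℂ) ^ (s - i)) • fcM L q) n (fun k => ((k : ℂ) ^ i) • x k) j := by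
        intro j hj
        have h1 := toep_binomial L n s x j
        rw [Finset.sum_range_succ, hx j hj] at h1
        have h2 : ((j : ℂ) ^ s) • (if j = 0 then e else 0 : ι → ℂ) = 0 := by
          by_cases hj0 : j = 0
          · simp [hj0, hs.ne']
          · simp [hj0]
        rw [h2] at h1
        have h3 : ((s.choose s : ℕ) : ℂ) •
            toepA (fun q : ℤ => ((q : ℂ) ^ (s - s)) • fcM L q) n (fun k => ((k : ℂ) ^ s) • x k) j =
            toep L n (fun k => ((k : ℂ) ^ s) • x k) j := by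
          simp [toep]
        rw [h3] at h1
        exact eq_neg_of_add_eq_zero_right h1
      have hsum : ∀ p, Summable fun q : ℤ => Real.sqrt (frobSq (((q : ℂ) ^ p) • fcM L q)) := by
        intro p
        simp only [sqrt_frobSq_pow_smul]
        exact summable_pow_frob_fcM hL p
      have h4 : m * l2n n (fun k => ((k : ℂ) ^ s) • x k) ≤
          ∑ i ∈ Finset.range s, (s.choose i : ℝ) * (W (s - i) * b i) * Real.sqrt (nsq e) := by
        refine (l2n_toep_ge hm hLc hlo n _).trans ?_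
        rw [l2n_congr hid, l2n_neg]
        refine (l2n_sum_le n _ _).trans (Finset.sum_le_sum fun i hi => ?_)
        rw [l2n_smul, Complex.norm_natCast, mul_assoc]
        refine mul_le_mul_of_nonneg_left ?_ (Nat.cast_nonneg _)
        refine (l2n_toepA_le (hsum (s - i)) n _).trans ?_
        simp only [sqrt_frobSq_pow_smul]
        rw [mul_assoc]
        exact mul_le_mul_of_nonneg_left (hb i (Finset.mem_range.1 hi) n e x hx) (hW0 _)
      rw [← Finset.sum_mul] at h4
      rw [mul_assoc, inv_mul_eq_div, le_div_iff₀ hm]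
      linarith

/-- (d) weighted a priori estimates, uniform in the section. -/
theorem toep_apriori (hm : 0 < m) (hL : ∀ i j, CSm fun θ => L θ i j)
    (hlo : ∀ θ, (L θ - ((m : ℝ) : ℂ) • (1 : Matrix ι ι ℂ)).PosSemidef) (s : ℕ) :
    ∃ B : ℝ, 0 ≤ B ∧ ∀ (n : ℕ) (e : ι → ℂ) (x : ℕ → ι → ℂ),
      (∀ j ≤ n, toep L n x j = if j = 0 then e else 0) →
      ∑ k ∈ Finset.range (n + 1), (k : ℝ) ^ (2 * s) * nsq (x k) ≤ B * nsq e := by
  obtain ⟨b, hb0, hb⟩ := toep_apriori_l2n hm hL hlo s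
  refine ⟨b ^ 2, sq_nonneg _, fun n e x hx => ?_⟩
  have h1 := hb n e x hx
  have h2 : ∑ k ∈ Finset.range (n + 1), (k : ℝ) ^ (2 * s) * nsq (x k) =
      l2n n (fun k => ((k : ℂ) ^ s) • x k) ^ 2 := by
    rw [l2n_sq]
    refine Finset.sum_congr rfl fun k _ => ?_
    rw [nsq_smul, norm_pow, Complex.norm_natCast, ← pow_mul, mul_comm s 2]
  rw [h2]
  calc l2n n (fun k => ((k : ℂ) ^ s) • x k) ^ 2 ≤ (b * Real.sqrt (nsq e)) ^ 2 := by
        have := l2n_nonneg n (fun k => ((k : ℂ) ^ s) • x k)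
        gcongr
    _ = b ^ 2 * nsq e := by rw [mul_pow, Real.sq_sqrt (nsq_nonneg _)]

end toeplitz

end Claimed.Agent.R316.B14
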