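import Claimed.Agent.R316.B14.HolSm

/-!
# B14, leaf W3: sup and half Sobolev bounds for a spectral factor
(eq. (disc:factor-sup), (disc:factor-seminorm))

Data: `H, Hi` with `HolSm` entries, `H Hi = Hi H = 1` on the closed disc, `Hᴴ H = L` on the circle, `m ≤ L ≤ M`.

* sup bounds: `nsq_le_of_bd` for the columns `ζ ↦ H ζ *ᵥ v`, `ζ ↦ Hi ζ *ᵥ v`.  On the circle
  `|H v|² = qf L v ≤ M |v|²`; with `w = Hi v`: `|v|² = |H w|² = qf L w ≥ m |w|²`.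
* seminorms.  `A θ t = bd H (t+θ) * bd Hi t` is the boundary function of `ζ ↦ H (e^{iθ} ζ) * Hi ζ` (`HolSm.rotate`), whose
  value at `0` is `1`; so `pavg_t tr (A θ t) = card ι` (`HolSm.center`).  `E θ := pavg_t frobSq (A θ t - 1)`.
  `frobSq (A - 1) = tr(Aᴴ A) - 2 Re tr A + card ι`, `tr (Aᴴ A) = tr (L(t+θ) Hi Hiᴴ) = tr (L(t+θ) L(t)⁻¹)`:
  `E θ = pavg_t Re tr (L(t+θ) L(t)⁻¹) - card ι` (`wm_E_eq`).  Shift `t ↦ t + θ` in `E (-θ)`:
  `E θ + E (-θ) = pavg_t Re tr ((L_θ - L) L⁻¹ (L_θ - L) L_θ⁻¹) ≤ m⁻² pavg_t frobSq (L_θ - L)`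
  (`trace_mul_mono_right/left` of `CW/MatAlg`, `L⁻¹ ≤ m⁻¹`).
  `H_θ - H = (A - 1) H`, `Hi_θ - Hi = Hi_θ (1 - A)`: `frobSq ≤ M frobSq (A-1)`, resp. `m⁻¹ frobSq (A-1)`
  (`H Hᴴ ≤ M` follows from `Hᴴ H ≤ M` by Cauchy-Schwarz).
  `h θ := pavg_t frobSq (H(t+θ) - H t)` is even in `θ` (`pavg_shift`), so `2 h θ ≤ M (E θ + E (-θ))`.
  Conclude by `hsqM_le_of_pavg_le`.
-/

set_option autoImplicit false
set_option linter.unusedSectionVars false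
open scoped ContDiff ComplexOrder ComplexConjugate Matrix Real
open MeasureTheory

namespace Claimed.Agent.R316.B14

open Claimed.Agent.R316

variable {ι : Type} [Fintype ι] [DecidableEq ι]

section matrix

theorem isHermitian_smul_one (M : ℝ) : (((M : ℝ) : ℂ) • (1 : Matrix ι ι ℂ)).IsHermitian :=
  isHermitian_smul_real M Matrix.isHermitian_one

theorem qf_smul_one (M : ℝ) (v : ι → ℂ) : qf (((M : ℝ) : ℂ) • (1 : Matrix ι ι ℂ)) v = M * nsq v := by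
  rw [qf_smul, ← nsq_eq_qf_one]

/-- Loewner bound of a Gram matrix in terms of norms. -/
theorem loewner_gram_iff {B : Matrix ι ι ℂ} {M : ℝ} :
    (((M : ℝ) : ℂ) • (1 : Matrix ι ι ℂ) - Bᴴ * B).PosSemidef ↔
      ∀ v, nsq (B *ᵥ v) ≤ M * nsq v := by
  rw [posSemidef_sub_iff_qf (Matrix.isHermitian_conjTranspose_mul_self B) (isHermitian_smul_one M)]
  simp only [qf_smul_one, qf_conjTranspose_mul_self]

/-- `Bᴴ B ≤ M` implies `B Bᴴ ≤ M`. -/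
theorem loewner_mul_conjTranspose_of {B : Matrix ι ι ℂ} {M : ℝ}
    (h : (((M : ℝ) : ℂ) • (1 : Matrix ι ι ℂ) - Bᴴ * B).PosSemidef) :
    (((M : ℝ) : ℂ) • (1 : Matrix ι ι ℂ) - B * Bᴴ).PosSemidef := by
  have hB := loewner_gram_iff.1 h
  have e : B * Bᴴ = (Bᴴ)ᴴ * Bᴴ := by rw [Matrix.conjTranspose_conjTranspose]
  rw [e, loewner_gram_iff]
  intro v
  set w := Bᴴ *ᵥ v with hw
  have h1 : ((nsq w : ℝ) : ℂ) = star v ⬝ᵥ (B *ᵥ w) := by
    have h2 : star w ⬝ᵥ w = star v ⬝ᵥ (B *ᵥ w) := by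
      rw [hw, Matrix.star_mulVec, Matrix.conjTranspose_conjTranspose, ← Matrix.dotProduct_mulVec]
    rw [← h2]
    simp only [nsq, dotProduct, Pi.star_apply]
    push_cast
    refine Finset.sum_congr rfl fun i _ => ?_
    rw [← Complex.conj_mul', starRingEnd_apply]
  have h3 : nsq w ≤ Real.sqrt (nsq v) * Real.sqrt (nsq (B *ᵥ w)) := by
    have h4 := norm_dotProduct_le v (B *ᵥ w)
    rw [← h1, Complex.norm_real, Real.norm_eq_abs, abs_of_nonneg (nsq_nonneg _)] at h4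
    exact h4
  have h5 : nsq w ^ 2 ≤ nsq v * (M * nsq w) := by
    calc nsq w ^ 2 ≤ (Real.sqrt (nsq v) * Real.sqrt (nsq (B *ᵥ w))) ^ 2 := by
          have := nsq_nonneg w
          gcongr
      _ = nsq v * nsq (B *ᵥ w) := by
          rw [mul_pow, Real.sq_sqrt (nsq_nonneg _), Real.sq_sqrt (nsq_nonneg _)]
      _ ≤ nsq v * (M * nsq w) := by
          have := nsq_nonneg v
          gcongr
          exact hB w
  rcases (nsq_nonneg w).eq_or_lt with h0 | h0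
  · rw [← h0]
    exact (nsq_nonneg _).trans (hB v)
  · have h6 : nsq w * nsq w ≤ nsq w * (M * nsq v) := by nlinarith
    exact le_of_mul_le_mul_left h6 h0

theorem frobSq_mul_le_of_loewner_left {B Y : Matrix ι ι ℂ} {M : ℝ}
    (h : (((M : ℝ) : ℂ) • (1 : Matrix ι ι ℂ) - Bᴴ * B).PosSemidef) :
    frobSq (B * Y) ≤ M * frobSq Y := by
  have hB := loewner_gram_iff.1 h
  rw [frobSq_eq_sum_nsq_col, frobSq_eq_sum_nsq_col, Finset.mul_sum]
  exact Finset.sum_le_sum fun j _ => hB fun k => Y k j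

theorem frobSq_mul_le_of_loewner_right {B Y : Matrix ι ι ℂ} {M : ℝ}
    (h : (((M : ℝ) : ℂ) • (1 : Matrix ι ι ℂ) - Bᴴ * B).PosSemidef) :
    frobSq (Y * B) ≤ M * frobSq Y := by
  have h1 := loewner_mul_conjTranspose_of h
  have e : B * Bᴴ = (Bᴴ)ᴴ * Bᴴ := by rw [Matrix.conjTranspose_conjTranspose]
  rw [e] at h1
  have h2 := frobSq_mul_le_of_loewner_left (Y := Yᴴ) h1
  rwa [← Matrix.conjTranspose_mul, frobSq_conjTranspose, frobSq_conjTranspose] at h2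

/-- `tr (Δ A Δ B) ≤ c² tr Δ²` for Hermitian `Δ` and `0 ≤ A, B ≤ c`. -/
theorem trace_sandwich_le {D A B : Matrix ι ι ℂ} {c : ℝ} (hc : 0 ≤ c) (hD : D.IsHermitian)
    (hA : A.PosSemidef) (hB : B.PosSemidef)
    (hAc : (((c : ℝ) : ℂ) • (1 : Matrix ι ι ℂ) - A).PosSemidef)
    (hBc : (((c : ℝ) : ℂ) • (1 : Matrix ι ι ℂ) - B).PosSemidef) :
    (D * A * D * B).trace.re ≤ c ^ 2 * frobSq D := by
  have h1 : (D * A * D).PosSemidef := by
    have := hA.conjTranspose_mul_mul_same D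
    rwa [hD.eq] at this
  have h2 : (D * D).PosSemidef := by
    have := Matrix.posSemidef_conjTranspose_mul_self D
    rwa [hD.eq] at this
  have h3 := trace_mul_mono_right h1 hBc
  have h4 := trace_mul_mono_left h2 hAc
  have e1 : (D * A * D * (((c : ℝ) : ℂ) • (1 : Matrix ι ι ℂ))).trace.re =
      c * (A * (D * D)).trace.re := by
    rw [Matrix.mul_smul, Matrix.mul_one, Matrix.trace_smul, smul_eq_mul, Complex.re_ofReal_mul,
      Matrix.mul_assoc, Matrix.trace_mul_comm, Matrix.mul_assoc]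
  have e2 : ((((c : ℝ) : ℂ) • (1 : Matrix ι ι ℂ)) * (D * D)).trace.re = c * frobSq D := by
    rw [Matrix.smul_mul, Matrix.one_mul, Matrix.trace_smul, smul_eq_mul, Complex.re_ofReal_mul,
      frobSq_of_isHermitian hD]
  rw [e1] at h3
  rw [e2] at h4
  calc (D * A * D * B).trace.re ≤ c * (A * (D * D)).trace.re := h3
    _ ≤ c * (c * frobSq D) := by gcongr
    _ = c ^ 2 * frobSq D := by ring

/-- `L ≥ m > 0` implies `0 ≤ L⁻¹ ≤ m⁻¹`. -/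
theorem inv_loewner_le {A : Matrix ι ι ℂ} {m : ℝ} (hm : 0 < m)
    (h : (A - ((m : ℝ) : ℂ) • (1 : Matrix ι ι ℂ)).PosSemidef) :
    A.PosDef ∧ A⁻¹.PosSemidef ∧ (((m⁻¹ : ℝ) : ℂ) • (1 : Matrix ι ι ℂ) - A⁻¹).PosSemidef := by
  have h1 : (((m : ℝ) : ℂ) • (1 : Matrix ι ι ℂ)).PosDef := posDef_smul_real hm Matrix.PosDef.one
  have hA : A.PosDef := posDef_of_loewner h1 h
  refine ⟨hA, hA.inv.posSemidef, ?_⟩
  have h2 := loewner_inv_anti h1 h
  have e : (((m : ℝ) : ℂ) • (1 : Matrix ι ι ℂ))⁻¹ = ((m⁻¹ : ℝ) : ℂ) • (1 : Matrix ι ι ℂ) := by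
    apply Matrix.inv_eq_right_inv
    rw [Matrix.smul_mul, Matrix.one_mul, smul_smul, ← Complex.ofReal_mul, mul_inv_cancel₀ hm.ne',
      Complex.ofReal_one, one_smul]
  rwa [e] at h2

end matrix

section bounds

variable {L : ℝ → Matrix ι ι ℂ} {H Hi : ℂ → Matrix ι ι ℂ} {m M : ℝ}

/-- (disc:factor-sup), first half. -/
theorem wm_sup_H (hH : ∀ a b, HolSm fun ζ => H ζ a b) (hf : ∀ θ, (bd H θ)ᴴ * bd H θ = L θ)
    (hhi : ∀ θ, (((M : ℝ) : ℂ) • (1 : Matrix ι ι ℂ) - L θ).PosSemidef) {ζ : ℂ}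
    (hζ : ζ ∈ Metric.closedBall (0 : ℂ) 1) :
    (((M : ℝ) : ℂ) • (1 : Matrix ι ι ℂ) - (H ζ)ᴴ * H ζ).PosSemidef := by
  rw [loewner_gram_iff]
  intro v
  refine nsq_le_of_bd (Z := fun ζ => H ζ *ᵥ v)
    (holSm_mulVec (v := fun _ => v) hH fun j => HolSm.const _) (fun θ => ?_) hζ
  have h1 := hhi θ
  rw [← hf θ] at h1
  exact loewner_gram_iff.1 h1 v

/-- (disc:factor-sup), second half. -/
theorem wm_sup_Hi (hm : 0 < m) (hHi : ∀ a b, HolSm fun ζ => Hi ζ a b)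
    (h1 : ∀ ζ ∈ Metric.closedBall (0 : ℂ) 1, H ζ * Hi ζ = 1)
    (hf : ∀ θ, (bd H θ)ᴴ * bd H θ = L θ)
    (hlo : ∀ θ, (L θ - ((m : ℝ) : ℂ) • (1 : Matrix ι ι ℂ)).PosSemidef) {ζ : ℂ}
    (hζ : ζ ∈ Metric.closedBall (0 : ℂ) 1) :
    (((m⁻¹ : ℝ) : ℂ) • (1 : Matrix ι ι ℂ) - (Hi ζ)ᴴ * Hi ζ).PosSemidef := by
  rw [loewner_gram_iff]
  intro v
  refine nsq_le_of_bd (Z := fun ζ => Hi ζ *ᵥ v)
    (holSm_mulVec (v := fun _ => v) hHi fun j => HolSm.const _) (fun θ => ?_) hζ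
  have h2 : bd (fun ζ => Hi ζ *ᵥ v) θ = bd Hi θ *ᵥ v := rfl
  rw [h2]
  have h3 := qf_ge_of_loewner (hlo θ) (bd Hi θ *ᵥ v)
  rw [← hf θ, qf_conjTranspose_mul_self, Matrix.mulVec_mulVec] at h3
  have h4 : bd H θ * bd Hi θ = 1 := h1 _ (circleMap_mem_closedBall θ)
  rw [h4, Matrix.one_mulVec] at h3
  rw [inv_mul_eq_div, le_div_iff₀ hm]
  linarith

end bounds

end Claimed.Agent.R316.B14
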